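import Vale.Agent.P299.H863.Abs

/-!
# P269, Hodge decomposition: the abstract argument
-/

namespace Vale.Agent.P269.Hdx

open Vale.Agent.P299.H863 UniformSpace

variable {S : Type*} [NormedAddCommGroup S] [InnerProductSpace ℂ S]

/-- `d = ∂`, `b = ∂̄`, their formal adjoints and the Kaehler identities. -/
structure KP (d b d' b' M : S →ₗ[ℂ] S) (c : ℂ) : Prop where
  ad : ∀ u v, inner ℂ u (d v) = inner ℂ (d' u) v
  ab : ∀ u v, inner ℂ u (b v) = inner ℂ (b' u) v
  bb : ∀ u, b (b u) = 0
  db : ∀ u, d (b u) = -b (d u)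
  kd : ∀ u, d' u = c • (M (b u) - b (M u))
  kb : ∀ u, b' u = -(c • (M (d u) - d (M u)))

variable {d b d' b' M : S →ₗ[ℂ] S} {c : ℂ} (h : KP d b d' b' M c)
include h

theorem KP.ad' (u v : S) : inner ℂ u (d' v) = inner ℂ (d u) v := by
  rw [← inner_conj_symm, ← h.ad, inner_conj_symm]

theorem KP.ab' (u v : S) : inner ℂ u (b' v) = inner ℂ (b u) v := by
  rw [← inner_conj_symm, ← h.ab, inner_conj_symm]

theorem KP.symm (u v : S) : inner ℂ ((b + b') u) v = inner ℂ u ((b + b') v) := by
  simp only [LinearMap.add_apply, inner_add_left, inner_add_right, h.ab, h.ab', add_comm]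

theorem KP.lap (u : S) : b (b' u) + b' (b u) = d (d' u) + d' (d u) := by
  simp only [h.kd, h.kb, map_neg, map_smul, map_sub, h.db]
  module

theorem KP.norm_le (u : S) : ‖d u‖ ≤ ‖(b + b') u‖ := by
  have h1 : inner ℂ ((b + b') u) ((b + b') u) = inner ℂ (d' u) (d' u) + inner ℂ (d u) (d u) := by
    rw [← h.ad, ← h.ad', ← inner_add_right, ← h.lap, h.symm]
    simp only [LinearMap.add_apply, map_add, inner_add_right, h.bb, h.ab' u (b' u), h.ab' (b u) u,
      inner_zero_left, zero_add, add_comm]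
  simp only [inner_self_eq_norm_sq_to_K] at h1
  have h2 : ‖(b + b') u‖ ^ 2 = ‖d' u‖ ^ 2 + ‖d u‖ ^ 2 := by exact_mod_cast h1
  exact (sq_le_sq₀ (norm_nonneg _) (norm_nonneg _)).1 (h2 ▸ le_add_of_nonneg_left (sq_nonneg _))

/-- **the `∂∂̄`-lemma in weak form** -/
theorem KP.key {J : ℕ → S →ₗ[ℂ] S} (hJ : Smoothing ℂ J) (hc : SmoothingComm (b + b') J J) {x z : S}
    (hx : b x = 0) (hz : b' (d' z) = 0) : inner ℂ z (d x) = 0 := by
  let K : Submodule ℂ (Completion S) :=
    ((LinearMap.range b).map Completion.toComplₗᵢ.toLinearMap).topologicalClosure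
  have a1 : ∀ y : S, b' y = 0 → ∀ k ∈ K, inner ℂ (y : Completion S) k = 0 := fun y hy k hk =>
    closure_minimal (t := {k | inner ℂ (y : Completion S) k = 0}) (by
      rintro _ ⟨_, ⟨v, rfl⟩, rfl⟩
      exact (Completion.inner_coe y (b v)).trans (by rw [h.ab, hy, inner_zero_left]))
      (isClosed_eq (by fun_prop) continuous_const) hk
  have a2 : ∀ y : S, b' y = 0 → inner ℂ (y : Completion S) (x - K.starProjection x) =
      inner ℂ y x := fun y hy => by
    rw [inner_sub_right, a1 y hy _ (K.starProjection_apply_mem _), sub_zero, Completion.inner_coe]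
  have a3 : ∀ u : S, inner ℂ (((b + b') u : S) : Completion S) (x - K.starProjection x) =
      inner ℂ (u : Completion S) 0 := fun u => by
    have a4 : b' (b' u) = 0 := inner_self_eq_zero.1 (by
      rw [h.ab', h.ab', h.bb, inner_zero_left] : inner ℂ _ _ = 0)
    rw [LinearMap.add_apply, Completion.coe_add, inner_add_left, a2 _ a4, ← h.ab, hx,
      Submodule.inner_right_of_mem_orthogonal (K := K) (u := (b u : S))
        (subset_closure ⟨_, ⟨u, rfl⟩, rfl⟩) (K.sub_starProjection_mem_orthogonal _),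
      inner_zero_right, inner_zero_right, add_zero]
  refine norm_le_zero_iff.1 (le_of_forall_pos_le_add fun ε hε => ?_)
  have a5 : 0 < ‖d' z‖ + ‖z‖ + 1 := by positivity
  obtain ⟨w, b1, b2⟩ := weak_eq_strong h.symm hJ hJ hc _ _ a3 (div_pos hε a5)
  rw [sub_zero, Completion.norm_coe] at b2
  have a6 : inner ℂ z (d x) = inner ℂ z (d w) -
      inner ℂ ((d' z : S) : Completion S) (w - (x - K.starProjection x)) := by
    rw [inner_sub_right, a2 _ hz, Completion.inner_coe, h.ad, h.ad, sub_sub_cancel]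
  have a7 := (norm_inner_le_norm (𝕜 := ℂ) z (d w)).trans
    (mul_le_mul_of_nonneg_left ((h.norm_le w).trans b2) (norm_nonneg _))
  have a8 := (norm_inner_le_norm (𝕜 := ℂ) ((d' z : S) : Completion S) _).trans
    (mul_le_mul_of_nonneg_left b1 (norm_nonneg _))
  rw [Completion.norm_coe] at a8
  rw [a6, zero_add, ← mul_div_cancel₀ ε a5.ne']
  refine (norm_sub_le _ _).trans ((add_le_add a7 a8).trans ?_)
  rw [← add_mul]
  exact mul_le_mul_of_nonneg_right (by linarith) (div_pos hε a5).le

end Vale.Agent.P269.Hdx
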