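import Vale.Agent.P269.Hdx.PtA
import Vale.Agent.P299.H863.Loc

/-!
# P269, Hodge decomposition: differential forms on a complex manifold given by an atlas
-/

set_option linter.unusedSectionVars false

namespace Vale.Agent.P269.Hdx

open Hdg Vale.Agent.P299.H863 Set Filter Topology
open scoped ComplexConjugate ContDiff
open Complex (I)

/-- A holomorphic atlas. -/
structure At (m : ℕ) (X ι : Type) [TopologicalSpace X] where
  /-- the charts -/
  e : ι → OpenPartialHomeomorph X (E m)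
  cov : ∀ x, ∃ i, x ∈ (e i).source
  hol : ∀ i j x, x ∈ (e i).source → x ∈ (e j).source →
    AnalyticAt ℂ (fun y => e j ((e i).symm y)) (e i x)

namespace At

variable {m : ℕ} {X ι : Type} [TopologicalSpace X] (A : At m X ι)

/-- The domains of the charts in the model space. -/
abbrev U (i : ι) : Set (E m) := (A.e i).target

/-- The domains of the charts in the manifold. -/
abbrev O (i : ι) : Set X := (A.e i).source

/-- The transition maps. -/
noncomputable def t (i j : ι) (y : E m) : E m := A.e j ((A.e i).symm y)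

/-- The pull-back of forms from the chart `j` to the chart `i` at `x`. -/
noncomputable def J (i j : ι) (x : X) : Λ m →ₐ[ℂ] Λ m := mc (fderiv ℂ (A.t i j) (A.e i x))

/-- Smooth compatible families. -/
structure Ok (f : ι → E m → Λ m) : Prop where
  sm : ∀ i, ∀ y ∈ A.U i, ContDiffAt ℝ ∞ (f i) y
  cmp : ∀ i j, ∀ x ∈ A.O i, x ∈ A.O j → f i (A.e i x) = A.J i j x (f j (A.e j x))

/-- The smooth forms. -/
def Sec : Submodule ℂ (ι → E m → Λ m) where
  carrier := {f | A.Ok f ∧ ∀ i y, y ∉ A.U i → f i y = 0}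
  zero_mem' := ⟨⟨fun _ _ _ => contDiffAt_const, fun _ _ _ _ _ => (map_zero _).symm⟩, fun _ _ _ => rfl⟩
  add_mem' a b := ⟨⟨fun i y h => (a.1.sm i y h).add (b.1.sm i y h), fun i j x h h' =>
    (congrArg₂ (· + ·) (a.1.cmp i j x h h') (b.1.cmp i j x h h')).trans (map_add _ _ _).symm⟩,
    fun i y h => (congrArg₂ (· + ·) (a.2 i y h) (b.2 i y h)).trans (add_zero _)⟩
  smul_mem' c _ a := ⟨⟨fun i y h => (a.1.sm i y h).const_smul c, fun i j x h h' =>
    (congrArg (c • ·) (a.1.cmp i j x h h')).trans (map_smul _ _ _).symm⟩,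
    fun i y h => (congrArg (c • ·) (a.2 i y h)).trans (smul_zero _)⟩

/-- Smooth natural families of endomorphisms. -/
def Fm : Subalgebra ℂ (ι → E m → Module.End ℂ (Λ m)) where
  carrier := {Φ | (∀ i, ∀ y ∈ A.U i, ∀ a, ContDiffAt ℝ ∞ (fun z => Φ i z a) y) ∧
    ∀ i j, ∀ x ∈ A.O i, x ∈ A.O j → ∀ a, Φ i (A.e i x) (A.J i j x a) = A.J i j x (Φ j (A.e j x) a)}
  mul_mem' a b := ⟨fun i y h c => (sm_app (a.1 i y h) (b.1 i y h c) :), fun i j x h h' c =>
    (congrArg _ (b.2 i j x h h' c)).trans (a.2 i j x h h' _)⟩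
  add_mem' a b := ⟨fun i y h c => (a.1 i y h c).add (b.1 i y h c), fun i j x h h' c =>
    (congrArg₂ (· + ·) (a.2 i j x h h' c) (b.2 i j x h h' c)).trans (map_add _ _ _).symm⟩
  algebraMap_mem' r := ⟨fun _ _ _ c => contDiffAt_const (c := r • c), fun i j x _ _ c =>
    (map_smul (A.J i j x) r c).symm⟩

variable {A} {i j k : ι} {x : X} {y : E m} {f : ι → E m → Λ m} {w : E m → Λ m}

namespace Ax

theorem t_e (hi : x ∈ A.O i) : A.t i j (A.e i x) = A.e j x :=
  congrArg (A.e j) ((A.e i).left_inv hi)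

theorem an (hi : x ∈ A.O i) (hj : x ∈ A.O j) : AnalyticAt ℂ (A.t i j) (A.e i x) := A.hol i j x hi hj

theorem near (hi : x ∈ A.O i) : ∀ᶠ z in 𝓝 x, z ∈ A.O i := (A.e i).open_source.mem_nhds hi

theorem ev (hi : x ∈ A.O i) {q : E m → Prop} (h : ∀ᶠ z in 𝓝 x, z ∈ A.O i → q (A.e i z)) :
    ∀ᶠ y in 𝓝 (A.e i x), q y := by
  rw [← (A.e i).map_nhds_eq hi]
  exact (h.and (near hi)).mono fun _ a => a.1 a.2

theorem surj (hy : y ∈ A.U i) : ∃ x ∈ A.O i, A.e i x = y :=
  ⟨_, (A.e i).map_target hy, (A.e i).right_inv hy⟩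

theorem chain (hi : x ∈ A.O i) (hj : x ∈ A.O j) (hk : x ∈ A.O k) : fderiv ℂ (A.t i k) (A.e i x) =
    (fderiv ℂ (A.t j k) (A.e j x)).comp (fderiv ℂ (A.t i j) (A.e i x)) := by
  have h : A.t i k =ᶠ[𝓝 (A.e i x)] A.t j k ∘ A.t i j := ev hi ((near hj).mono fun z b a => by
    rw [Function.comp_apply, t_e a, t_e a, t_e b])
  rw [h.fderiv_eq, fderiv_comp _ (by rw [t_e hi]; exact (an hj hk).differentiableAt)
    (an hi hj).differentiableAt, t_e hi]

theorem self (hi : x ∈ A.O i) : fderiv ℂ (A.t i i) (A.e i x) = .id ℂ _ := by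
  have h : A.t i i =ᶠ[𝓝 (A.e i x)] id := ev hi (.of_forall fun z a => t_e a)
  rw [h.fderiv_eq, fderiv_id]

theorem pb_e (hi : x ∈ A.O i) (hj : x ∈ A.O j) :
    pb (A.t i j) w (A.e i x) = A.J i j x (w (A.e j x)) := by
  rw [pb, an_fderiv (an hi hj), t_e hi]
  rfl

theorem congr {g : ι → E m → Λ m} (h : A.Ok f) (e : ∀ i, ∀ y ∈ A.U i, g i y = f i y) : A.Ok g :=
  ⟨fun i y hy => (h.sm i y hy).congr_of_eventuallyEq
    (eventually_of_mem ((A.e i).open_target.mem_nhds hy) (e i)), fun i j x a b => by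
      rw [e i _ ((A.e i).map_source a), e j _ ((A.e j).map_source b), h.cmp i j x a b]⟩

theorem diff (u : A.Sec) (hy : y ∈ A.U i) : DifferentiableAt ℝ (u.1 i) y := sm_diff (u.2.1.sm i y hy)

end Ax

open Ax

theorem exists_J (hi : x ∈ A.O i) (hj : x ∈ A.O j) :
    ∃ T : E m ≃L[ℂ] E m, fderiv ℂ (A.t i j) (A.e i x) = T :=
  ⟨.equivOfInverse _ (fderiv ℂ (A.t j i) (A.e j x))
    (DFunLike.congr_fun ((chain hi hj hi).symm.trans (self hi)))
    (DFunLike.congr_fun ((chain hj hi hj).symm.trans (self hj))), rfl⟩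

theorem J_J (hi : x ∈ A.O i) (hj : x ∈ A.O j) (hk : x ∈ A.O k) (a : Λ m) :
    A.J i j x (A.J j k x a) = A.J i k x a := by
  rw [J, J, J, chain hi hj hk, mp_mp, tr_comp]
  rfl

theorem J_self (hi : x ∈ A.O i) (a : Λ m) : A.J i i x a = a :=
  (congrArg (mc · a) (self hi)).trans (mp_id a)

theorem Ok.ev (h : A.Ok f) (hi : x ∈ A.O i) (hj : x ∈ A.O j) :
    f i =ᶠ[𝓝 (A.e i x)] pb (A.t i j) (f j) :=
  Ax.ev hi ((near hj).mono fun z b a => (h.cmp i j z a b).trans (pb_e a b).symm)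

theorem Ok.db (h : A.Ok f) (s : Bool) : A.Ok fun i => db s idE (f i) :=
  ⟨fun i y hy => sm_db (h.sm i y hy), fun _ j _ a b => (db_congr (h.ev a b)).trans
    ((db_pb s (an a b) (by rw [t_e a]; exact sm_diff (h.sm j _ ((A.e j).map_source b)))).trans
      (pb_e a b))⟩

open Classical in
/-- The form defined by a smooth compatible family. -/
noncomputable def Ok.mk' (h : A.Ok f) : A.Sec := ⟨fun i y => if y ∈ A.U i then f i y else 0,
  Ax.congr h fun _ _ a => if_pos a, fun _ _ a => if_neg a⟩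

theorem Ok.mk'_apply (h : A.Ok f) (hy : y ∈ A.U i) : h.mk'.1 i y = f i y := if_pos hy

theorem Ok.mk'_ev (h : A.Ok f) (hy : y ∈ A.U i) : h.mk'.1 i =ᶠ[𝓝 y] f i :=
  eventually_of_mem ((A.e i).open_target.mem_nhds hy) fun _ => h.mk'_apply

theorem ext_U {u v : A.Sec} (h : ∀ i, ∀ y ∈ A.U i, u.1 i y = v.1 i y) : u = v :=
  Subtype.ext (funext₂ fun i y => (em _).elim (h i y) fun a => (u.2.2 i y a).trans (v.2.2 i y a).symm)

variable (A)

/-- `∂` and `∂̄`. -/
noncomputable def D (s : Bool) : Module.End ℂ A.Sec where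
  toFun u := (u.2.1.db s).mk'
  map_add' u v := ext_U fun _ _ a => (Ok.mk'_apply _ a).trans ((db_add (diff u a) (diff v a)).trans
    (congrArg₂ (· + ·) ((u.2.1.db s).mk'_apply a) ((v.2.1.db s).mk'_apply a)).symm)
  map_smul' c u := ext_U fun _ _ a => (Ok.mk'_apply _ a).trans ((db_csmul c (diff u a)).trans
    (congrArg (c • ·) ((u.2.1.db s).mk'_apply a)).symm)

/-- The product of forms. -/
noncomputable def mul : A.Sec →ₗ[ℂ] A.Sec →ₗ[ℂ] A.Sec :=
  LinearMap.mk₂ ℂ (fun u v => ⟨u.1 * v.1, ⟨fun i y h => (u.2.1.sm i y h).mul (v.2.1.sm i y h),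
      fun i j x h h' => (congrArg₂ (· * ·) (u.2.1.cmp i j x h h') (v.2.1.cmp i j x h h')).trans
        (map_mul _ _ _).symm⟩, fun i y h => (congrArg (· * v.1 i y) (u.2.2 i y h)).trans (zero_mul _)⟩)
    (fun u u' v => Subtype.ext (add_mul u.1 u'.1 v.1))
    (fun c u v => Subtype.ext (smul_mul_assoc c u.1 v.1))
    (fun u v v' => Subtype.ext (mul_add u.1 v.1 v'.1))
    (fun c u v => Subtype.ext (mul_smul_comm c u.1 v.1))

/-- The action of the natural families. -/
noncomputable def op : A.Fm →ₐ[ℂ] Module.End ℂ A.Sec where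
  toFun Φ :=
    { toFun := fun u => ⟨fun i y => Φ.1 i y (u.1 i y),
        ⟨fun i y h => sm_app (Φ.2.1 i y h) (u.2.1.sm i y h), fun i j x h h' =>
          (congrArg _ (u.2.1.cmp i j x h h')).trans (Φ.2.2 i j x h h' _)⟩,
        fun i y h => (congrArg _ (u.2.2 i y h)).trans (map_zero _)⟩
      map_add' := fun _ _ => Subtype.ext (funext₂ fun i y => map_add (Φ.1 i y) _ _)
      map_smul' := fun _ _ => Subtype.ext (funext₂ fun i y => map_smul (Φ.1 i y) _ _) }
  map_one' := rfl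
  map_mul' _ _ := rfl
  map_zero' := rfl
  map_add' _ _ := rfl
  commutes' _ := rfl

/-- The conjugation. -/
noncomputable def tauS : A.Sec →ₛₗ[starRingEnd ℂ] A.Sec where
  toFun u := ⟨fun i y => tau (u.1 i y), ⟨fun i y h => sm_tau (u.2.1.sm i y h), fun i j x h h' =>
    (congrArg _ (u.2.1.cmp i j x h h')).trans (tau_mc _ _)⟩,
    fun i y h => (congrArg _ (u.2.2 i y h)).trans (map_zero _)⟩
  map_add' _ _ := Subtype.ext (funext₂ fun _ _ => map_add tau _ _)
  map_smul' _ _ := Subtype.ext (funext₂ fun _ _ => map_smulₛₗ tau _ _)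

/-- The parity. -/
noncomputable def parS : Module.End ℂ A.Sec := A.op ⟨fun _ _ => par.toLinearMap,
  fun _ _ _ _ => contDiffAt_const, fun _ _ _ _ _ a => par_mp _ a⟩

/-- The number operators. -/
noncomputable def numS (s : Bool) : Module.End ℂ A.Sec := A.op ⟨fun _ _ => num s,
  fun _ _ _ _ => contDiffAt_const, fun _ _ _ _ _ a => num_mp (pr_tr s _) a⟩

/-- The constant form one. -/
noncomputable def one : A.Sec := (show A.Ok fun _ _ => 1 from
  ⟨fun _ _ _ => contDiffAt_const, fun _ _ _ _ _ => (map_one _).symm⟩).mk'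

variable {A} {u v : A.Sec} {s s' : Bool}

theorem D_apply (hy : y ∈ A.U i) : (A.D s u).1 i y = db s idE (u.1 i) y := if_pos hy

theorem mul_apply : (A.mul u v).1 i y = u.1 i y * v.1 i y := rfl

theorem op_apply (Φ : A.Fm) : (A.op Φ u).1 i y = Φ.1 i y (u.1 i y) := rfl

theorem tauS_apply : (A.tauS u).1 i y = tau (u.1 i y) := rfl

theorem parS_apply : (A.parS u).1 i y = par (u.1 i y) := rfl

theorem numS_apply : (A.numS s u).1 i y = num s (u.1 i y) := rfl

theorem one_apply (hy : y ∈ A.U i) : A.one.1 i y = 1 := if_pos hy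

theorem Ax.D_D (hy : y ∈ A.U i) : (A.D s' (A.D s u)).1 i y = db s' idE (db s idE (u.1 i)) y :=
  (D_apply hy).trans (db_congr ((u.2.1.db s).mk'_ev hy))

theorem D_D (s s' : Bool) (u : A.Sec) : A.D s' (A.D s u) = -A.D s (A.D s' u) :=
  ext_U fun i y a => (Ax.D_D a).trans ((db_db s s' _ _ (u.2.1.sm i y a)).trans
    (congrArg Neg.neg (Ax.D_D a)).symm)

theorem D_D_self (s : Bool) (u : A.Sec) : A.D s (A.D s u) = 0 :=
  ext_U fun i y a => (Ax.D_D a).trans (db_db_self (u.2.1.sm i y a))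

theorem D_mul (s : Bool) (u v : A.Sec) :
    A.D s (A.mul u v) = A.mul (A.D s u) v + A.mul (A.parS u) (A.D s v) :=
  ext_U fun i y a => (D_apply a).trans ((db_mul (diff u a) (diff v a)).trans
    (congrArg₂ (fun b c => b * v.1 i y + par (u.1 i y) * c) (D_apply a) (D_apply a)).symm)

theorem parS_parS (u : A.Sec) : A.parS (A.parS u) = u := ext_U fun _ _ _ => par_par _

theorem parS_D (s : Bool) (u : A.Sec) : A.parS (A.D s u) = -A.D s (A.parS u) :=
  ext_U fun _ _ a => (congrArg par (D_apply a)).trans ((par_db s (diff u a)).trans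
    (congrArg Neg.neg (D_apply (u := A.parS u) a)).symm)

theorem tauS_tauS (u : A.Sec) : A.tauS (A.tauS u) = A.parS u := ext_U fun _ _ _ => tau_tau _

theorem tauS_D (s : Bool) (u : A.Sec) :
    A.tauS (A.D s u) = (-sg s I) • A.D (!s) (A.parS (A.tauS u)) :=
  ext_U fun _ _ a => (congrArg tau (D_apply a)).trans ((tau_db s (diff u a)).trans
    (congrArg ((-sg s I) • ·) (D_apply (u := A.parS (A.tauS u)) a)).symm)

theorem numS_D (s s' : Bool) (u : A.Sec) :
    A.numS s' (A.D s u) = A.D s (A.numS s' u) + (dl s' s : ℂ) • A.D s u :=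
  ext_U fun _ _ a => (congrArg (num s') (D_apply a)).trans ((num_db s s' (diff u a)).trans
    (congrArg₂ (fun b c => b + (dl s' s : ℂ) • c) (D_apply (u := A.numS s' u) a) (D_apply a)).symm)

/-! ### extension by zero -/

variable [T2Space X]

theorem Ax.off (h : TestV (A.U i) w) (hx : x ∉ A.O i) :
    ∀ᶠ z in 𝓝 x, z ∉ (A.e i).symm '' tsupport w :=
  (h.cpt.image_of_continuousOn ((A.e i).continuousOn_symm.mono h.supp)).isClosed.isOpen_compl.mem_nhds
    fun ⟨_, a, b⟩ => hx (b ▸ (A.e i).map_target (h.supp a))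

theorem exists_ext (h : TestV (A.U i) w) : ∃ u : A.Sec, u.1 i = w ∧
    ∀ j, ∀ x ∈ A.O j, x ∉ (A.e i).symm '' tsupport w → u.1 j (A.e j x) = 0 := by
  classical
  let g : ι → E m → Λ m := fun j y => if (A.e j).symm y ∈ A.O i then pb (A.t j i) w y else 0
  have h1 : ∀ j, ∀ x ∈ A.O j, x ∈ A.O i → g j (A.e j x) = pb (A.t j i) w (A.e j x) :=
    fun j x a b => if_pos (((A.e j).left_inv a).symm ▸ b)
  have h2 : ∀ j, ∀ x ∈ A.O j, x ∉ (A.e i).symm '' tsupport w → g j (A.e j x) = 0 := fun j x a b => by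
    by_cases c : x ∈ A.O i
    · rw [h1 j x a c, pb_e a c, h.zero_off fun d => b ⟨_, d, (A.e i).left_inv c⟩, map_zero]
    · exact if_neg (((A.e j).left_inv a).symm ▸ c)
  have h3 : A.Ok g := by
    refine ⟨fun j y hy => ?_, fun j k x a b => ?_⟩
    · obtain ⟨x, a, rfl⟩ := surj hy
      by_cases c : x ∈ A.O i
      · exact (sm_pb (an_sm (an a c)) h.smooth.contDiffAt).congr_of_eventuallyEq
          (ev a ((near c).mono fun z b d => h1 j z d b))
      · exact (contDiffAt_const (c := 0)).congr_of_eventuallyEq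
          (ev a ((off h c).mono fun z b d => h2 j z d b))
    · by_cases c : x ∈ A.O i
      · rw [h1 j x a c, h1 k x b c, pb_e a c, pb_e b c, J_J a b c]
      · rw [h2 j x a (off h c).self_of_nhds, h2 k x b (off h c).self_of_nhds, map_zero]
  refine ⟨h3.mk', funext fun y => ?_, fun j x a b =>
    (h3.mk'_apply ((A.e j).map_source a)).trans (h2 j x a b)⟩
  by_cases hy : y ∈ A.U i
  · obtain ⟨x, a, rfl⟩ := surj hy
    rw [h3.mk'_apply hy, h1 i x a a, pb_e a a, J_self a]
  · rw [h3.mk'.2.2 i y hy, h.zero_off fun a => hy (h.supp a)]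

variable (A) in
open Classical in
/-- The extension by zero of a test form in the chart `i`. -/
noncomputable def ext (i : ι) (w : E m → Λ m) : A.Sec :=
  if h : TestV (A.U i) w then (exists_ext h).choose else 0

theorem ext_self (h : TestV (A.U i) w) : (A.ext i w).1 i = w := by
  rw [ext, dif_pos h]
  exact (exists_ext h).choose_spec.1

theorem ext_off (h : TestV (A.U i) w) (hx : x ∈ A.O j) (h' : x ∉ (A.e i).symm '' tsupport w) :
    (A.ext i w).1 j (A.e j x) = 0 := by
  rw [ext, dif_pos h]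
  exact (exists_ext h).choose_spec.2 j x hx h'

theorem Ax.ext_out (h : TestV (A.U i) w) (hx : x ∈ A.O j) (h' : x ∉ A.O i) :
    (A.ext i w).1 j (A.e j x) = 0 := ext_off h hx (off h h').self_of_nhds

theorem eq_ext (h : TestV (A.U i) w) (h1 : ∀ y ∈ A.U i, u.1 i y = w y)
    (h2 : ∀ j, ∀ x ∈ A.O j, x ∉ A.O i → u.1 j (A.e j x) = 0) : u = A.ext i w := by
  refine ext_U fun j y hy => ?_
  obtain ⟨x, a, rfl⟩ := surj hy
  by_cases c : x ∈ A.O i
  · rw [u.2.1.cmp j i x a c, (A.ext i w).2.1.cmp j i x a c, ext_self h, h1 _ ((A.e i).map_source c)]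
  · rw [h2 j x a c, ext_out h a c]

omit [T2Space X] in
theorem Ax.test (h : TestV (A.U i) w) {w' : E m → Λ m} (h1 : ∀ y ∈ A.U i, ContDiffAt ℝ ∞ w' y)
    (h2 : ∀ y ∉ tsupport w, w' y = 0) : TestV (A.U i) w' :=
  TestV.mk' (A.e i).open_target h.cpt h.supp (fun y a => (h1 y a).contDiffWithinAt) h2

theorem test_db (h : TestV (A.U i) w) (s : Bool) : TestV (A.U i) (db s idE w) :=
  test h (fun _ _ => sm_db h.smooth.contDiffAt) fun _ a =>
    (db_congr (notMem_tsupport_iff_eventuallyEq.1 a)).trans (db_const 0)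

theorem D_ext (h : TestV (A.U i) w) (s : Bool) : A.D s (A.ext i w) = A.ext i (db s idE w) :=
  eq_ext (test_db h s) (fun _ a => by rw [D_apply a, ext_self h]) fun j _ a b =>
    (D_apply ((A.e j).map_source a)).trans ((db_congr (v := fun _ => 0)
      (ev a ((off h b).mono fun _ c d => ext_off h d c))).trans (db_const 0))

theorem test_mul (h : TestV (A.U i) w) (u : A.Sec) : TestV (A.U i) fun y => w y * u.1 i y :=
  test h (fun y a => h.smooth.contDiffAt.mul (u.2.1.sm i y a)) fun _ a => by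
    rw [h.zero_off a, zero_mul]

theorem mul_ext (h : TestV (A.U i) w) (u : A.Sec) :
    A.mul (A.ext i w) u = A.ext i fun y => w y * u.1 i y :=
  eq_ext (test_mul h u) (fun _ _ => by rw [mul_apply, ext_self h]) fun _ _ a b => by
    rw [mul_apply, ext_out h a b, zero_mul]

theorem test_op (h : TestV (A.U i) w) (Φ : A.Fm) : TestV (A.U i) fun y => Φ.1 i y (w y) :=
  test h (fun y a => sm_app (Φ.2.1 i y a) h.smooth.contDiffAt) fun _ a => by
    rw [h.zero_off a, map_zero]

theorem op_ext (h : TestV (A.U i) w) (Φ : A.Fm) :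
    A.op Φ (A.ext i w) = A.ext i fun y => Φ.1 i y (w y) :=
  eq_ext (test_op h Φ) (fun _ _ => by rw [op_apply, ext_self h]) fun _ _ a b => by
    rw [op_apply, ext_out h a b, map_zero]

theorem test_tau (h : TestV (A.U i) w) : TestV (A.U i) fun y => tau (w y) :=
  test h (fun _ _ => sm_tau h.smooth.contDiffAt) fun _ a => by rw [h.zero_off a, map_zero]

theorem tauS_ext (h : TestV (A.U i) w) : A.tauS (A.ext i w) = A.ext i fun y => tau (w y) :=
  eq_ext (test_tau h) (fun _ _ => by rw [tauS_apply, ext_self h]) fun _ _ a b => by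
    rw [tauS_apply, ext_out h a b, map_zero]

end At

end Vale.Agent.P269.Hdx
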