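import Vale.Agent.P269.Hdx.At
import Vale.Agent.P299.H863.LocD

/-!
# P269, Hodge decomposition: first order operators
-/

set_option linter.unusedSectionVars false

namespace Vale.Agent.P269.Hdx

open Hdg Vale.Agent.P299.H863 Set Filter Topology MeasureTheory
open scoped ComplexConjugate ContDiff
open Complex (I)

variable {m : ℕ} {X ι : Type} [TopologicalSpace X] {A : At m X ι} {P Q : Module.End ℂ A.Sec}

/-- A Euclidean model of the exterior algebra. -/
abbrev VV (m : ℕ) : Type := EuclideanSpace ℂ (Fin (Module.finrank ℂ (Λ m)))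

/-- The identification. -/
noncomputable def eV (m : ℕ) : Λ m ≃L[ℂ] VV m := ContinuousLinearEquiv.ofFinrankEq (by simp)

namespace At

/-- First order differential operators. -/
def FO (P : Module.End ℂ A.Sec) : Prop :=
  ∃ (a : ι → E m → (E m →L[ℝ] Λ m) →L[ℝ] Λ m) (b : ι → E m → Λ m →L[ℝ] Λ m),
    (∀ i, ContDiffOn ℝ ∞ (a i) (A.U i)) ∧ (∀ i, ContDiffOn ℝ ∞ (b i) (A.U i)) ∧
      ∀ i u, ∀ y ∈ A.U i, (P u).1 i y = fo (a i) (b i) (u.1 i) y

theorem FO.D (s : Bool) : FO (A.D s) :=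
  ⟨fun _ _ => al s, fun _ _ => 0, fun _ => contDiffOn_const, fun _ => contDiffOn_const,
    fun _ _ _ hy => (D_apply hy).trans ((db_id _ _ _).trans (add_zero _).symm)⟩

theorem FO.add (h : FO P) (h' : FO Q) : FO (P + Q) := by
  obtain ⟨a, b, h1, h2, h3⟩ := h
  obtain ⟨a', b', k1, k2, k3⟩ := h'
  exact ⟨fun i y => a i y + a' i y, fun i y => b i y + b' i y, fun i => (h1 i).add (k1 i),
    fun i => (h2 i).add (k2 i), fun i u y hy =>
      (congrArg₂ (· + ·) (h3 i u y hy) (k3 i u y hy)).trans (add_add_add_comm _ _ _ _)⟩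

theorem FO.smul (c : ℂ) (h : FO P) : FO (c • P) := by
  obtain ⟨a, b, h1, h2, h3⟩ := h
  exact ⟨fun i y => c • a i y, fun i y => c • b i y, fun i => (h1 i).const_smul c,
    fun i => (h2 i).const_smul c, fun i u y hy =>
      (congrArg (c • ·) (h3 i u y hy)).trans (smul_add _ _ _)⟩

theorem FO.sub (h : FO P) (h' : FO Q) : FO (P - Q) := by
  obtain ⟨a, b, h1, h2, h3⟩ := h
  obtain ⟨a', b', k1, k2, k3⟩ := h'
  exact ⟨fun i y => a i y - a' i y, fun i y => b i y - b' i y, fun i => (h1 i).sub (k1 i),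
    fun i => (h2 i).sub (k2 i), fun i u y hy =>
      (congrArg₂ (· - ·) (h3 i u y hy) (k3 i u y hy)).trans (add_sub_add_comm _ _ _ _)⟩

theorem FO.sm_toR (Φ : A.Fm) (i : ι) {y : E m} (hy : y ∈ A.U i) :
    ContDiffAt ℝ ∞ (fun z => toR (Φ.1 i z)) y := sm_family (Φ.2.1 i y hy)

theorem FO.left (Φ : A.Fm) (h : FO P) : FO (A.op Φ * P) := by
  obtain ⟨a, b, h1, h2, h3⟩ := h
  have k : ∀ i, ContDiffOn ℝ ∞ (fun z => toR (Φ.1 i z)) (A.U i) := fun i _ hy =>
    (sm_toR Φ i hy).contDiffWithinAt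
  exact ⟨fun i y => toR (Φ.1 i y) ∘L a i y, fun i y => toR (Φ.1 i y) ∘L b i y,
    fun i => (k i).clm_comp (h1 i), fun i => (k i).clm_comp (h2 i), fun i u y hy =>
      (congrArg (Φ.1 i y) (h3 i u y hy)).trans (map_add _ _ _)⟩

theorem FO.right (Φ : A.Fm) (h : FO P) : FO (P * A.op Φ) := by
  obtain ⟨a, b, h1, h2, h3⟩ := h
  have k : ∀ i, ContDiffOn ℝ ∞ (fun z => toR (Φ.1 i z)) (A.U i) := fun i _ hy =>
    (sm_toR Φ i hy).contDiffWithinAt
  have k' : ∀ i, ContDiffOn ℝ ∞ (fderiv ℝ fun z => toR (Φ.1 i z)) (A.U i) := fun i _ hy =>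
    (sm_fderiv (sm_toR Φ i hy)).contDiffWithinAt
  refine ⟨fun i y => a i y ∘L ContinuousLinearMap.compL ℝ (E m) (Λ m) (Λ m) (toR (Φ.1 i y)),
    fun i y => a i y ∘L (fderiv ℝ (fun z => toR (Φ.1 i z)) y).flip + b i y ∘L toR (Φ.1 i y),
    fun i => (h1 i).clm_comp (contDiffOn_const.clm_apply (k i)),
    fun i => ((h1 i).clm_comp (contDiffOn_clm_apply.2 fun v => contDiffOn_clm_apply.2 fun w =>
      (((k' i).clm_apply contDiffOn_const).clm_apply contDiffOn_const :))).add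
        ((h2 i).clm_comp (k i)), fun i u y hy => (h3 i _ y hy).trans ?_⟩
  have e := fderiv_clm_apply (sm_diff (sm_toR Φ i hy)) (sm_diff (u.2.1.sm i y hy))
  exact (congrArg (a i y · + _) e).trans ((congrArg (· + _) (map_add _ _ _)).trans (add_assoc _ _ _))

/-- in the Euclidean model -/
theorem FO.locOp [Fintype ι] (h : FO P) {S : Type} [NormedAddCommGroup S] [InnerProductSpace ℂ S]
    {c : Cov (E m) ι} (hc : c.Ω = A.U) (L : LocSp volume c (VV m) S) (q : S → A.Sec)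
    (hr : ∀ i s y, L.r i s y = eV m ((q s).1 i y)) {D : S →ₗ[ℂ] S} (hD : ∀ s, q (D s) = P (q s)) :
    Nonempty (LocOp L L D) := by
  obtain ⟨a, b, h1, h2, h3⟩ := h
  let T : Λ m →L[ℝ] VV m := (eV m : Λ m →L[ℂ] VV m).restrictScalars ℝ
  let T' : VV m →L[ℝ] Λ m := ((eV m).symm : VV m →L[ℂ] Λ m).restrictScalars ℝ
  have hT : ∀ v, T' (T v) = v := (eV m).symm_apply_apply
  refine ⟨⟨fun i y => T ∘L a i y ∘L ContinuousLinearMap.compL ℝ (E m) (VV m) (Λ m) T',
    fun i y => T ∘L b i y ∘L T',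
    fun i => hc ▸ contDiffOn_const.clm_comp ((h1 i).clm_comp contDiffOn_const),
    fun i => hc ▸ contDiffOn_const.clm_comp ((h2 i).clm_comp contDiffOn_const),
    fun i s y hy => ?_⟩⟩
  rw [hc] at hy
  have e : T' ∘L fderiv ℝ (L.r i s) y = fderiv ℝ ((q s).1 i) y := by
    rw [funext (hr i s)]
    exact (congrArg (T' ∘L ·) (T.hasFDerivAt.comp y
      (sm_diff ((q s).2.1.sm i y hy)).hasFDerivAt).fderiv).trans
      (ContinuousLinearMap.ext fun _ => hT _)
  rw [hr, hD, h3 i _ y hy]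
  exact (map_add T _ _).trans (congrArg₂ (· + ·) (congrArg (fun K => T (a i y K)) e.symm)
    (congrArg (fun v => T (b i y v)) ((congrArg T' (hr i s y)).trans (hT _)).symm))

end At

end Vale.Agent.P269.Hdx
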