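import Vale.Agent.P269.Hdx.PtB

/-!
# P269, Hodge decomposition: the Hermitian product of forms
-/

namespace Vale.Agent.P269.Hdx

open Hdg
open scoped ComplexConjugate ContDiff ComplexOrder
open Complex (I)

variable {m : ℕ} {κ : Λ m}

namespace PtC

theorem ind' {P : Λ m → Prop} (one : P 1) (smul : ∀ (c : ℂ) a, P a → P (c • a))
    (add : ∀ a b, P a → P b → P (a + b)) (mul : ∀ s j a, P a → P (io (dz s j) * a)) (a : Λ m) :
    P a := by
  refine ind one smul add (fun w a h => ?_) a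
  have : ∀ s, P (io (pr s w) * a) := fun s => by
    rw [pr_eq, map_sum, Finset.sum_mul]
    refine Finset.sum_induction _ P add (zero_smul ℂ (1 : Λ m) ▸ smul 0 1 one) fun j _ => ?_
    rw [map_smul, smul_mul_assoc]
    exact smul _ _ (mul s j a h)
  rw [← pr_add_pr w, map_add, add_mul]
  exact add _ _ (this true) (this false)

theorem sg_sq (s : Bool) : -sg s I * sg s I = 1 := by cases s <;> simp

theorem sg_not (s : Bool) : -sg (!s) I = sg s I := by cases s <;> simp

/-- Right multiplication by a basis covector. -/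
noncomputable abbrev rm (s : Bool) (j : Fin (m + 1)) : Module.End ℂ (Λ m) :=
  LinearMap.mulRight ℂ (io (dz s j))

theorem lw_rm (s : Bool) (j : Fin (m + 1)) : Lw κ * rm s j = rm s j * Lw κ :=
  LinearMap.ext fun a => (mul_assoc κ a _).symm

theorem hn_rm (s : Bool) (j : Fin (m + 1)) : Hn * rm s j - rm s j * Hn = rm s j :=
  LinearMap.ext fun a => by
    have := congrArg (a * io ·) (pr_add_pr (dz s j))
    simp only [map_add, mul_add] at this
    simp only [Hn, LinearMap.sub_apply, Module.End.mul_apply, LinearMap.mulRight_apply,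
      LinearMap.add_apply, LinearMap.smul_apply, Module.End.one_apply, num_mul, num_io, sub_mul,
      add_mul, smul_mul_assoc]
    rw [← this]
    abel

theorem lm_rm (s : Bool) (j : Fin (m + 1)) (a : Λ m) :
    (Lm om0 * rm (!s) j - rm (!s) j * Lm om0 : Module.End ℂ (Λ m)) a =
      -sg s I • par (ct (vec s (ee j)) a) := by
  simp only [LinearMap.sub_apply, Module.End.mul_apply, LinearMap.mulRight_apply, Lm_om0, ct_mul,
    ct_io, map_add, mul_smul_comm, mul_one, map_smul, ct_par, vec_ee_dz, Finset.sum_mul,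
    Finset.sum_add_distrib]
  cases s <;> simp

theorem ww_rm (s : Bool) (j : Fin (m + 1)) (a : Λ m) :
    Ww om0 (a * io (dz (!s) j)) = sg s I • par (ct (vec s (ee j)) (Ww om0 a)) := by
  have := LinearMap.congr_fun (pos_om0.sl2.wy_mul (lw_rm (!s) j) (hn_rm (!s) j)) a
  rw [LinearMap.neg_apply, Module.End.mul_apply _ (wy _ _ _), lm_rm, neg_smul, neg_neg] at this
  exact this

theorem ww_ct (s : Bool) (j : Fin (m + 1)) (a : Λ m) :
    sg s I • Ww om0 (par (ct (vec (!s) (ee j)) a)) = Ww om0 a * io (dz s j) := by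
  have := LinearMap.congr_fun (pos_om0.sl2.wy_mul' (lw_rm (!!s) j) (hn_rm (!!s) j)) a
  rw [Module.End.mul_apply, lm_rm, sg_not, map_smul, Bool.not_not] at this
  exact this

theorem top0_par_ct (f : Module.Dual ℂ (W m)) (x v : Λ m) :
    top0 (par (ct f x) * v) = top0 (x * ct f v) := by
  have := top0_ct f (par x * v)
  rw [ct_mul, ct_par, par_par, neg_mul, map_add, map_neg] at this
  exact neg_add_eq_zero.1 this

/-- The product before normalisation. -/
noncomputable def h0 (u v : Λ m) : ℂ := top0 (Ww om0 (tau u) * v)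

theorem h0_mul (s : Bool) (j : Fin (m + 1)) (u v : Λ m) :
    h0 (io (dz s j) * u) v = h0 u (ct (vec s (ee j)) v) := by
  rw [h0, h0, tau_mul, tau_dz, mul_smul_comm, map_smul, ww_rm, smul_smul, sg_sq, one_smul,
    top0_par_ct]

theorem h0_ct (s : Bool) (j : Fin (m + 1)) (u v : Λ m) :
    h0 (ct (vec s (ee j)) u) v = h0 u (io (dz s j) * v) := by
  rw [h0, h0, tau_ct, map_smul, ww_ct, mul_assoc]

end PtC

open PtC

theorem top0_Ww_ne : top0 (Ww (om0 : Λ m) 1) ≠ 0 := fun h => by
  have h1 : ∀ v : Λ m, h0 1 v = 0 := fun v => by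
    induction v using ind' with
    | one => rw [h0, tau_one, mul_one, h]
    | smul c a ha => rw [h0, mul_smul_comm, map_smul, ← h0, ha, smul_zero]
    | add a b ha hb => rw [h0, mul_add, map_add, ← h0, ← h0, ha, hb, add_zero]
    | mul s j a _ => rw [← h0_ct, ct_one, h0, map_zero, map_zero, zero_mul, map_zero]
  have h2 : ∀ u v : Λ m, h0 u v = 0 := fun u => by
    induction u using ind' with
    | one => exact h1
    | smul c a ha =>
      intro v
      rw [h0, map_smulₛₗ, map_smul, smul_mul_assoc, map_smul, ← h0, ha, smul_zero]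
    | add a b ha hb =>
      intro v
      rw [h0, map_add, map_add, add_mul, map_add, ← h0, ← h0, ha, hb, add_zero]
    | mul s j a ha => exact fun v => (h0_mul s j a v).trans (ha _)
  obtain ⟨a, ha⟩ := top0_ne (m := m)
  obtain ⟨b, rfl⟩ := ((Module.End.isUnit_iff _).1 pos_om0.sl2.isUnit_wy).2 a
  have := h2 (tau (par b)) 1
  rw [h0, tau_tau, par_par, mul_one] at this
  exact ha this

/-- The normalised coordinate on the forms of top degree. -/
noncomputable def top : Λ m →ₗ[ℂ] ℂ := (top0 (Ww (om0 : Λ m) 1))⁻¹ • top0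

theorem PtC.top_eq (a : Λ m) : top a = (top0 (Ww (om0 : Λ m) 1))⁻¹ * top0 a := rfl

theorem top_ct (f : Module.Dual ℂ (W m)) (a : Λ m) : top (ct f a) = 0 := by
  rw [top_eq, top0_ct, mul_zero]

theorem top_par (a : Λ m) : top (par a) = top a := by rw [top_eq, top_eq, top0_par]

theorem top_mc (T : E m →L[ℂ] E m) (a : Λ m) :
    top (mc T a) = ((|(T.restrictScalars ℝ).det| : ℝ) : ℂ) * top a := by
  rw [top_eq, top_eq, top0_mp, det_tr, mul_left_comm]

/-- The Hermitian product (times the volume density). -/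
noncomputable def hf (κ u v : Λ m) : ℂ := top (Ww κ (tau u) * v)

theorem hf_mul (s : Bool) (j : Fin (m + 1)) (u v : Λ m) :
    hf om0 (io (dz s j) * u) v = hf om0 u (ct (vec s (ee j)) v) :=
  congrArg ((top0 (Ww (om0 : Λ m) 1))⁻¹ * ·) (h0_mul s j u v)

theorem hf_ct (s : Bool) (j : Fin (m + 1)) (u v : Λ m) :
    hf om0 (ct (vec s (ee j)) u) v = hf om0 u (io (dz s j) * v) :=
  congrArg ((top0 (Ww (om0 : Λ m) 1))⁻¹ * ·) (h0_ct s j u v)

namespace PtC

theorem hf_one : hf om0 (1 : Λ m) 1 = 1 := by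
  rw [hf, tau_one, mul_one, top_eq, inv_mul_cancel₀ top0_Ww_ne]

theorem zero_l (κ v : Λ m) : hf κ 0 v = 0 := by rw [hf, map_zero, map_zero, zero_mul, map_zero]

theorem zero_r (κ u : Λ m) : hf κ u 0 = 0 := by rw [hf, mul_zero, map_zero]

theorem add_l (κ u u' v : Λ m) : hf κ (u + u') v = hf κ u v + hf κ u' v := by
  rw [hf, map_add, map_add, add_mul, map_add, hf, hf]

theorem add_r (κ u v v' : Λ m) : hf κ u (v + v') = hf κ u v + hf κ u v' := by
  rw [hf, mul_add, map_add, hf, hf]

theorem smul_l (κ : Λ m) (c : ℂ) (u v : Λ m) : hf κ (c • u) v = conj c * hf κ u v := by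
  rw [hf, map_smulₛₗ, map_smul, smul_mul_assoc, map_smul, hf, smul_eq_mul]

theorem smul_r (κ : Λ m) (c : ℂ) (u v : Λ m) : hf κ u (c • v) = c * hf κ u v := by
  rw [hf, mul_smul_comm, map_smul, hf, smul_eq_mul]

theorem symm0 (u v : Λ m) : conj (hf om0 v u) = hf om0 u v := by
  induction u using ind' generalizing v with
  | one =>
    induction v using ind' with
    | one => rw [hf_one, map_one]
    | smul c a ha => rw [smul_l, smul_r, map_mul, ha, Complex.conj_conj]
    | add a b ha hb => rw [add_l, add_r, map_add, ha, hb]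
    | mul s j a _ => rw [hf_mul, ← hf_ct, ct_one, zero_l, zero_r, map_zero]
  | smul c a ha => rw [smul_l, smul_r, map_mul, ha]
  | add a b ha hb => rw [add_l, add_r, map_add, ha, hb]
  | mul s j a ha => rw [← hf_ct, ha, hf_mul]

theorem pos_aux (t : Finset (Bool × Fin (m + 1))) (u : Λ m)
    (h : ∀ p ∉ t, ct (vec p.1 (ee p.2)) u = 0) : u = 0 ∨ 0 < (hf om0 u u).re := by
  induction t using Finset.induction_on generalizing u with
  | empty =>
    have h1 : ∀ s, u ∈ Eg s 0 := fun s => by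
      rw [mem_Eg, num_apply, Int.cast_zero, zero_smul]
      exact Finset.sum_eq_zero fun j _ => by rw [h (s, j) (Finset.notMem_empty _), mul_zero]
    rw [eq_sca (mem_Ty.2 ⟨h1 _, h1 _⟩), smul_l, smul_r, hf_one, mul_one,
      ← Complex.normSq_eq_conj_mul_self, Complex.ofReal_re, Complex.normSq_pos]
    exact (eq_or_ne (sca u) 0).imp_left fun e => by rw [e, zero_smul]
  | insert p t hp ih =>
    obtain ⟨s, j⟩ := p
    have e1 : ∀ a : Λ m, ct (vec s (ee j)) (io (dz s j) * a) =
        a - io (dz s j) * ct (vec s (ee j)) a := fun a => by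
      rw [ct_io_mul, vec_ee_dz, if_pos ⟨rfl, rfl⟩, one_smul]
    have k : ∀ a : Λ m, (∀ p ∉ insert (s, j) t, ct (vec p.1 (ee p.2)) a = 0) →
        ∀ p ∉ t, ct (vec p.1 (ee p.2)) (ct (vec s (ee j)) a) = 0 := fun a ha p h1 => by
      by_cases h2 : p = (s, j)
      · rw [h2, ct_ct]
      · rw [ct_comm, ha p (by simp [h1, h2]), map_zero, neg_zero]
    have i1 := ih _ (k u h)
    have i0 := ih _ (k (io (dz s j) * u) fun p h1 => by
      rw [ct_io_mul, h p h1, vec_ee_dz, if_neg fun e => h1 (by simp [← e.1, ← e.2])]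
      simp)
    have e2 : hf om0 u u = hf om0 (ct (vec s (ee j)) (io (dz s j) * u))
        (ct (vec s (ee j)) (io (dz s j) * u)) +
        hf om0 (ct (vec s (ee j)) u) (ct (vec s (ee j)) u) := by
      rw [hf_ct, hf_ct s j u, e1, mul_sub, io_io, sub_zero, hf_mul, ← add_r, e1, sub_add_cancel]
    rw [e2, Complex.add_re]
    rcases i0 with i0 | i0 <;> rcases i1 with i1 | i1
    · rw [e1, i1, mul_zero, sub_zero] at i0
      exact .inl i0
    · exact .inr (by rwa [i0, zero_l, Complex.zero_re, zero_add])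
    · exact .inr (by rwa [i1, zero_l, Complex.zero_re, add_zero])
    · exact .inr (add_pos i0 i1)

theorem hf_mc (T : E m ≃L[ℂ] E m) (u v : Λ m) :
    hf (mc (T : E m →L[ℂ] E m) om0) (mc (T : E m →L[ℂ] E m) u) (mc (T : E m →L[ℂ] E m) v) =
      ((|((T : E m →L[ℂ] E m).restrictScalars ℝ).det| : ℝ) : ℂ) * hf om0 u v := by
  rw [hf, tau_mc, pos_om0.Ww_mc, ← map_mul, top_mc, hf]

theorem det_pos (T : E m ≃L[ℂ] E m) : 0 < |((T : E m →L[ℂ] E m).restrictScalars ℝ).det| := by
  refine (abs_nonneg _).lt_of_ne' fun h => top0_Ww_ne (m := m) ?_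
  rw [← mc_mc_symm T (Ww om0 1), top0_mp, det_tr, h, Complex.ofReal_zero, zero_mul]

end PtC

theorem Pos.hf_symm (h : Pos κ) (u v : Λ m) : conj (hf κ v u) = hf κ u v := by
  obtain ⟨T, rfl⟩ := h.exists_mc
  rw [← mc_mc_symm T u, ← mc_mc_symm T v, hf_mc, hf_mc, map_mul, symm0, Complex.conj_ofReal]

theorem Pos.hf_pos (h : Pos κ) {u : Λ m} (hu : u ≠ 0) : 0 < (hf κ u u).re := by
  obtain ⟨T, rfl⟩ := h.exists_mc
  rw [← mc_mc_symm T u] at hu ⊢
  rw [hf_mc, Complex.re_ofReal_mul]
  exact mul_pos (det_pos T) ((pos_aux Finset.univ _ fun p hp =>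
    (hp (Finset.mem_univ p)).elim).resolve_left fun e => hu (by rw [e, map_zero]))

theorem exists_top_pow : ∃ c : ℂ, c ≠ 0 ∧ ∀ κ : Λ m, Pos κ → top (κ ^ (m + 1)) = c * hf κ 1 1 := by
  refine ⟨top ((om0 : Λ m) ^ (m + 1)), fun h => top0_Ww_ne (m := m) ?_, fun κ h => ?_⟩
  · have h1 : ∀ k : ℕ, (om0 : Λ m) ^ k ∈ Dg (2 * k) := fun k => by
      induction k with
      | zero => rw [mem_Dg, pow_zero, num_one, num_one]; simp
      | succ k ih =>
        have := Dg_mul ih (Ty_le_Dg pos_om0.ty)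
        rwa [← pow_succ, show 2 * (k : ℤ) + (1 + 1) = 2 * (k + 1 : ℕ) by push_cast; ring] at this
    have h2 : ∀ k : ℕ, (Lw (om0 : Λ m) ^ k) 1 = om0 ^ k := fun k => by
      rw [LinearMap.pow_mulLeft, LinearMap.mulLeft_apply, mul_one]
    have h3 : Submodule.span ℂ (Set.range fun k : ℕ => (Lw (om0 : Λ m) ^ k) 1) ≤
        LinearMap.ker top0 := Submodule.span_le.2 (by
      rintro _ ⟨k, rfl⟩
      change top0 ((Lw (om0 : Λ m) ^ k) 1) = 0
      rw [h2]
      by_cases e : k = m + 1
      · exact e ▸ (mul_eq_zero.1 h).resolve_left (inv_ne_zero top0_Ww_ne)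
      · exact top0_Dg (h1 k) (by omega))
    have h4 : Lm om0 (1 : Λ m) = 0 := by simp [Lm_om0, ct_one]
    refine h3 (wy_mem (L := Lw om0) (M := Lm om0) (Submodule.span ℂ _)
      (fun v hv => (Submodule.map_span_le _ _ _).2 ?_ (Submodule.mem_map_of_mem hv))
      (fun v hv => (Submodule.map_span_le _ _ _).2 ?_ (Submodule.mem_map_of_mem hv))
      (Submodule.subset_span ⟨0, rfl⟩))
    · rintro _ ⟨k, rfl⟩
      exact Submodule.subset_span ⟨k + 1, LinearMap.congr_fun (pow_succ' _ k) 1⟩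
    · rintro _ ⟨_ | k, rfl⟩
      · exact (show Lm om0 ((Lw (om0 : Λ m) ^ 0) 1) = 0 from h4) ▸ zero_mem _
      · rw [pos_om0.sl2.low_pow (μ := -((m : ℂ) + 1)) h4 (by rw [neg_smul]; simp [Hn, num_one]) k]
        exact Submodule.smul_mem _ _ (Submodule.subset_span ⟨k, rfl⟩)
  · obtain ⟨T, rfl⟩ := h.exists_mc
    have := hf_mc T 1 1
    rw [map_one] at this
    rw [← map_pow, top_mc, this, hf_one, mul_one, mul_comm]

end Vale.Agent.P269.Hdx
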