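import Vale.Agent.P269.Hdx.At
import Vale.Agent.P269.Hdx.PtC

/-!
# P269, Hodge decomposition: partitions of unity, the integral, Stokes' theorem
-/

set_option linter.unusedSectionVars false

namespace Vale.Agent.P269.Hdx.At

open Hdg Vale.Agent.P299.H863 Set Filter Topology MeasureTheory
open scoped ComplexConjugate ContDiff
open Complex (I)

variable {m : ℕ} {X ι : Type} [TopologicalSpace X] [T2Space X] [Fintype ι] {A : At m X ι}
  {χ : ι → E m → ℝ} {i : ι} {w : E m → Λ m}

namespace AtI

/-- `top` as a real continuous linear map. -/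
noncomputable def topL : Λ m →L[ℝ] ℂ := (LinearMap.toContinuousLinearMap top).restrictScalars ℝ

theorem top_rs (r : ℝ) (a : Λ m) : top (r • a) = (r : ℂ) * top a := map_smul top (r : ℂ) a

theorem cont_top {Ω : Set (E m)} (h : TestV Ω w) : Continuous fun y => top (w y) :=
  topL.continuous.comp h.smooth.continuous

theorem cs_top {Ω : Set (E m)} (h : TestV Ω w) : HasCompactSupport fun y => top (w y) :=
  h.cpt.comp_left (g := top) (map_zero _)

theorem int_top {Ω : Set (E m)} (h : TestV Ω w) : Integrable fun y => top (w y) :=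
  (cont_top h).integrable_of_hasCompactSupport (cs_top h)

theorem off {V : Type} [NormedAddCommGroup V] [NormedSpace ℝ V] {θ : E m → V}
    (h : TestV (A.U i) θ) {x : X} (hx : x ∉ A.O i) : x ∉ (A.e i).symm '' tsupport θ :=
  fun ⟨_, hy, e⟩ => hx (e ▸ (A.e i).map_target (h.supp hy))

open Classical in
variable (A) in
/-- A function on a chart, extended by zero to the manifold. -/
noncomputable def cut (j : ι) (θ : E m → ℝ) (x : X) : ℝ := if x ∈ A.O j then θ (A.e j x) else 0

theorem sm_cut {j : ι} {θ : E m → ℝ} (h : TestV (A.U j) θ) {y : E m} (hy : y ∈ A.U i) :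
    ContDiffAt ℝ ∞ (fun z => cut A j θ ((A.e i).symm z)) y := by
  classical
  have c := (A.e i).continuousAt_symm hy
  by_cases hj : (A.e i).symm y ∈ A.O j
  · have a := an_sm (A.hol i j _ ((A.e i).map_target hy) hj)
    rw [(A.e i).right_inv hy] at a
    exact (h.smooth.contDiffAt.comp y a).congr_of_eventuallyEq
      ((c.eventually ((A.e j).open_source.mem_nhds hj)).mono fun z hz => if_pos hz)
  · have k := h.cpt.isCompact.image_of_continuousOn ((A.e j).continuousOn_symm.mono h.supp)
    refine (contDiffAt_const (c := (0 : ℝ))).congr_of_eventuallyEq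
      ((c.eventually (k.isClosed.isOpen_compl.mem_nhds (off h hj))).mono fun z hz => ?_)
    exact ite_eq_right_iff.2 fun q => h.zero_off fun r => hz ⟨_, r, (A.e j).left_inv q⟩

theorem van {j : ι} {u : A.Sec} (h0 : ∀ x ∈ A.O i, x ∉ A.O j → u.1 i (A.e i x) = 0) (y : E m)
    (hy : y ∉ A.e i '' (A.O i ∩ A.O j)) : top (u.1 i y) = 0 := by
  by_cases k : y ∈ A.U i
  · have := h0 _ ((A.e i).map_target k) fun q =>
      hy ⟨_, ⟨(A.e i).map_target k, q⟩, (A.e i).right_inv k⟩
    rw [(A.e i).right_inv k] at this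
    rw [this, map_zero]
  · rw [u.2.2 i y k, map_zero]

end AtI

open AtI

open Classical in
variable (A) in
/-- A partition of unity. -/
structure PU (χ : ι → E m → ℝ) : Prop where
  test : ∀ i, TestV (A.U i) (χ i)
  nonneg : ∀ i y, 0 ≤ χ i y
  sum : ∀ x, ∑ i, (if x ∈ A.O i then χ i (A.e i x) else 0) = 1

variable (A) in
theorem exists_pu [CompactSpace X] : ∃ χ, A.PU χ := by
  obtain ⟨K, hK, hKO, hc⟩ := isCompact_univ.finite_compact_cover Finset.univ A.O
    (fun i _ => (A.e i).open_source) fun x _ => by simpa using A.cov x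
  choose θ h1 h2 h3 using fun i => exists_testV
    ((hK i).image_of_continuousOn ((A.e i).continuousOn.mono (hKO i))) (A.e i).open_target
    (image_subset_iff.2 fun x hx => (A.e i).map_source (hKO i hx))
  have hp : ∀ x, 0 < ∑ j, cut A j (θ j) x := fun x => by
    obtain ⟨i, hi⟩ : ∃ i, x ∈ K i := by simpa using hc.le (mem_univ x)
    refine Finset.sum_pos' (fun j _ => ?_) ⟨i, Finset.mem_univ _, ?_⟩
    · unfold cut
      split_ifs
      exacts [(h3 _ _).1, le_rfl]
    · rw [cut, if_pos (hKO i hi), h2 i _ (mem_image_of_mem _ hi)]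
      exact one_pos
  refine ⟨fun i y => θ i y • (∑ j, cut A j (θ j) ((A.e i).symm y))⁻¹,
    fun i => (h1 i).smul (A.e i).open_target fun y hy => ?_, fun i y => ?_, fun x => ?_⟩
  · exact ((ContDiffAt.sum fun j _ => sm_cut (h1 j) hy).inv (hp _).ne').contDiffWithinAt
  · exact mul_nonneg (h3 _ _).1 (inv_nonneg.2 (hp _).le)
  · rw [← mul_inv_cancel₀ (hp x).ne', Finset.sum_mul]
    refine Finset.sum_congr rfl fun i _ => ?_
    by_cases k : x ∈ A.O i
    · rw [if_pos k, (A.e i).left_inv k, show cut A i (θ i) x = _ from if_pos k]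
      rfl
    · rw [if_neg k, show cut A i (θ i) x = _ from if_neg k, zero_mul]

/-- Stokes' theorem in a chart -/
theorem integral_db {Ω : Set (E m)} (h : TestV Ω w) (s : Bool) : ∫ y, top (db s idE w y) = 0 := by
  have a : Integrable (fderiv ℝ w) :=
    (h.smooth.continuous_fderiv (by simp)).integrable_of_hasCompactSupport (h.cpt.fderiv ℝ)
  have b : ∫ y, fderiv ℝ w y = 0 := ContinuousLinearMap.ext fun v => by
    have := integral_smul_fderiv_eq_neg_fderiv_smul_of_integrable (μ := volume)
      (f := fun _ : E m => (1 : ℝ)) (g := w) (v := v) (by simp)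
      (by simpa using a.apply_continuousLinearMap v)
      (by simpa using h.smooth.continuous.integrable_of_hasCompactSupport h.cpt)
      (fun _ _ => differentiableAt_const _) fun x _ => sm_diff h.smooth.contDiffAt
    rw [ContinuousLinearMap.integral_apply a]
    simpa using this
  have := (topL.comp (al s)).integral_comp_comm a
  rw [b, map_zero] at this
  simp only [db_id]
  exact this

/-- the change of variables -/
theorem integral_chg {j : ι} {u : A.Sec} (h0 : ∀ x ∈ A.O i, x ∉ A.O j → u.1 i (A.e i x) = 0)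
    (h1 : ∀ x ∈ A.O j, x ∉ A.O i → u.1 j (A.e j x) = 0) :
    ∫ y, top (u.1 i y) = ∫ y, top (u.1 j y) := by
  have o : MeasurableSet (A.e i '' (A.O i ∩ A.O j)) := ((A.e i).isOpen_image_of_subset_source
    ((A.e i).open_source.inter (A.e j).open_source) inter_subset_left).measurableSet
  have t : ∀ x ∈ A.O i, A.t i j (A.e i x) = A.e j x := fun x hx => congrArg _ ((A.e i).left_inv hx)
  have e : A.e j '' (A.O j ∩ A.O i) = A.t i j '' (A.e i '' (A.O i ∩ A.O j)) := by
    rw [image_image, inter_comm]
    exact image_congr fun x hx => (t x hx.1).symm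
  rw [← setIntegral_eq_integral_of_forall_compl_eq_zero (van h0),
    ← setIntegral_eq_integral_of_forall_compl_eq_zero (van h1), e,
    integral_image_eq_integral_abs_det_fderiv_smul volume o
      (f' := fun y => (fderiv ℂ (A.t i j) y).restrictScalars ℝ)]
  · refine setIntegral_congr_fun o ?_
    rintro _ ⟨x, hx, rfl⟩
    simp only
    rw [u.2.1.cmp i j x hx.1 hx.2, t x hx.1]
    exact top_mc _ _
  · rintro _ ⟨x, hx, rfl⟩
    exact ((A.hol i j x hx.1 hx.2).differentiableAt.hasFDerivAt.restrictScalars ℝ).hasFDerivWithinAt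
  · rintro _ ⟨x, hx, rfl⟩ _ ⟨x', hx', rfl⟩ q
    rw [t x hx.1, t x' hx'.1] at q
    rw [(A.e j).injOn hx.2 hx'.2 q]

namespace PU

variable (p : A.PU χ)
include p

theorem test_smul (i : ι) {f : E m → Λ m} (hf : ∀ y ∈ A.U i, ContDiffAt ℝ ∞ f y) :
    TestV (A.U i) fun y => χ i y • f y :=
  (p.test i).smul (A.e i).open_target fun y hy => (hf y hy).contDiffWithinAt

theorem integrable (i : ι) {f : E m → Λ m} (hf : ∀ y ∈ A.U i, ContDiffAt ℝ ∞ f y) :
    Integrable fun y => (χ i y : ℂ) * top (f y) := by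
  simpa only [top_rs] using int_top (p.test_smul i hf)

theorem ext_cut (u : A.Sec) (j : ι) {x : X} (hx : x ∈ A.O i) :
    (A.ext j fun y => χ j y • u.1 j y).1 i (A.e i x) = cut A j (χ j) x • u.1 i (A.e i x) := by
  have h := p.test_smul j (u.2.1.sm j)
  by_cases k : x ∈ A.O j
  · rw [(A.ext j _).2.1.cmp i j x hx k, ext_self h, u.2.1.cmp i j x hx k,
      show cut A j (χ j) x = _ from if_pos k]
    exact map_smul (A.J i j x) (χ j (A.e j x) : ℂ) _
  · rw [ext_off h hx (off h k), show cut A j (χ j) x = _ from if_neg k, zero_smul]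

theorem sum_ext (u : A.Sec) : ∑ i, A.ext i (fun y => χ i y • u.1 i y) = u :=
  ext_U fun i y hy => by
    rw [← (A.e i).right_inv hy, Submodule.coe_sum, Finset.sum_apply, Finset.sum_apply,
      Finset.sum_congr rfl fun j _ => p.ext_cut u j ((A.e i).map_target hy), ← Finset.sum_smul,
      show ∑ j, cut A j (χ j) _ = 1 from p.sum _, one_smul]

omit p in
/-- The integral. -/
noncomputable def int (p : A.PU χ) : A.Sec →ₗ[ℂ] ℂ where
  toFun u := ∑ i, ∫ y, (χ i y : ℂ) * top (u.1 i y)
  map_add' u v := by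
    rw [← Finset.sum_add_distrib]
    refine Finset.sum_congr rfl fun i _ => ?_
    rw [← integral_add (p.integrable i (u.2.1.sm i)) (p.integrable i (v.2.1.sm i))]
    exact congrArg _ (funext fun y => (congrArg _ (map_add top _ _)).trans (mul_add _ _ _))
  map_smul' c u := by
    rw [Finset.smul_sum]
    refine Finset.sum_congr rfl fun i _ => ?_
    rw [← integral_smul]
    exact congrArg _ (funext fun y => (congrArg _ (map_smul top c _)).trans (mul_left_comm _ _ _))

theorem int_apply (u : A.Sec) : p.int u = ∑ i, ∫ y, (χ i y : ℂ) * top (u.1 i y) := rfl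

theorem int_ext (h : TestV (A.U i) w) : p.int (A.ext i w) = ∫ y, top (w y) := by
  obtain ⟨u, hu⟩ : ∃ u, u = A.ext i w := ⟨_, rfl⟩
  have a : u.1 i = w := hu ▸ ext_self h
  have t := fun j => p.test_smul j (u.2.1.sm j)
  have b : ∀ j, ∫ y, (χ j y : ℂ) * top (u.1 j y) =
      ∫ y, top ((A.ext j fun y => χ j y • u.1 j y).1 i y) := fun j => by
    rw [← integral_chg (i := j) (fun x hx k => ?_) fun x hx k => ext_off (t j) hx (off (t j) k),
      ext_self (t j)]
    · simp only [top_rs]
    · rw [ext_self (t j), hu]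
      simp only
      rw [ext_off h hx (off h k), smul_zero]
  rw [← hu, int_apply, Finset.sum_congr rfl fun j _ => b j, ← integral_finsetSum _ fun j _ =>
    int_top (TestV.mk' (A.e i).open_target h.cpt h.supp
      (fun y hy => ((A.ext j _).2.1.sm i y hy).contDiffWithinAt) fun y hy => ?_)]
  · refine congrArg _ (funext fun y => ?_)
    rw [← map_sum, ← Finset.sum_apply, ← Finset.sum_apply, ← Submodule.coe_sum, p.sum_ext, a]
  · by_cases k : y ∈ A.U i
    · rw [← (A.e i).right_inv k, p.ext_cut u j ((A.e i).map_target k), (A.e i).right_inv k, a,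
        h.zero_off hy, smul_zero]
    · exact (A.ext j _).2.2 i y k

/-- **Stokes' theorem** -/
theorem int_D (s : Bool) (u : A.Sec) : p.int (A.D s u) = 0 := by
  rw [← p.sum_ext u, map_sum, map_sum]
  refine Finset.sum_eq_zero fun i _ => ?_
  have h := p.test_smul i (u.2.1.sm i)
  rw [D_ext h, p.int_ext (test_db h s), integral_db h]

/-- integration by parts -/
theorem int_mul_D (s : Bool) (u v : A.Sec) :
    p.int (A.mul u (A.D s v)) = -p.int (A.mul (A.D s (A.parS u)) v) := by
  have := p.int_D s (A.mul (A.parS u) v)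
  rw [D_mul, parS_parS, map_add] at this
  exact eq_neg_of_add_eq_zero_right this

theorem int_conj {u v : A.Sec} (h : ∀ i, ∀ y ∈ A.U i, conj (top (u.1 i y)) = top (v.1 i y)) :
    conj (p.int u) = p.int v := by
  rw [int_apply, int_apply, map_sum]
  refine Finset.sum_congr rfl fun i _ => ?_
  rw [← integral_conj]
  refine congrArg _ (funext fun y => ?_)
  rw [map_mul, Complex.conj_ofReal]
  by_cases k : y ∈ A.U i
  · rw [h i y k]
  · rw [u.2.2 i y k, v.2.2 i y k, map_zero, map_zero]

theorem re_int (u : A.Sec) : (p.int u).re = ∑ i, ∫ y, χ i y * (top (u.1 i y)).re := by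
  rw [int_apply, Complex.re_sum]
  refine Finset.sum_congr rfl fun i _ => ?_
  exact (integral_re (p.integrable i (u.2.1.sm i))).symm.trans
    (congrArg _ (funext fun y => Complex.re_ofReal_mul _ _))

theorem re_nonneg {u : A.Sec} (h : ∀ i, ∀ y ∈ A.U i, 0 ≤ (top (u.1 i y)).re) (i : ι) (y : E m) :
    0 ≤ χ i y * (top (u.1 i y)).re := by
  refine mul_nonneg (p.nonneg i y) ?_
  by_cases k : y ∈ A.U i
  · exact h i y k
  · rw [u.2.2 i y k, map_zero]
    exact le_rfl

theorem int_nonneg {u : A.Sec} (h : ∀ i, ∀ y ∈ A.U i, 0 ≤ (top (u.1 i y)).re) :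
    0 ≤ (p.int u).re :=
  (p.re_int u).ge.trans' (Finset.sum_nonneg fun i _ => integral_nonneg (p.re_nonneg h i))

theorem int_pos {u : A.Sec} (h : ∀ i, ∀ y ∈ A.U i, 0 ≤ (top (u.1 i y)).re) {x : X}
    (hx : ∀ i, x ∈ A.O i → 0 < (top (u.1 i (A.e i x))).re) : 0 < (p.int u).re := by
  classical
  obtain ⟨i, -, hi⟩ := Finset.exists_ne_zero_of_sum_ne_zero ((p.sum x).trans_ne one_ne_zero)
  obtain ⟨k, hi⟩ := ite_ne_right_iff.1 hi
  have t := p.test_smul i (u.2.1.sm i)
  have e : (fun y => χ i y * (top (u.1 i y)).re) = fun y => (top (χ i y • u.1 i y)).re :=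
    funext fun y => by rw [top_rs, Complex.re_ofReal_mul]
  rw [re_int]
  refine Finset.sum_pos' (fun j _ => integral_nonneg (p.re_nonneg h j)) ⟨i, Finset.mem_univ _, ?_⟩
  refine Continuous.integral_pos_of_hasCompactSupport_nonneg_nonzero (x := A.e i x) ?_ ?_
    (p.re_nonneg h i) (mul_ne_zero hi (hx i k).ne')
  · exact e ▸ Complex.continuous_re.comp (cont_top t)
  · exact e ▸ (cs_top t).comp_left (g := Complex.re) rfl

end PU

end Vale.Agent.P269.Hdx.At
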