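import Vale.Agent.P269.Hdx.At
import Vale.Agent.P269.Hdg.Filt

/-!
# P269, Hodge decomposition: a holomorphic atlas of a complete intersection
-/

namespace Vale.Agent.P269.Hdx

open Hdg Set Filter Topology
open scoped ComplexConjugate ContDiff
open Complex (I)

variable {m N : ℕ} {ι : Type} [Fintype ι] [DecidableEq ι] {F : ι → MP N} {d : ι → ℕ}

/-- The charts of `A` are holomorphic sections `φ i` of the cone. -/
structure Rz {X κ : Type} [TopologicalSpace X] (F : ι → MP N) (A : At m X κ) (φ : κ → E m → E N) :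
    Prop where
  an : ∀ i, ∀ y ∈ A.U i, AnalyticAt ℂ (φ i) y
  mem : ∀ i, ∀ y ∈ A.U i, φ i y ∈ cone F
  imm : ∀ i, ∀ y ∈ A.U i, ∀ v, v ≠ 0 → ∀ t : ℂ, fderiv ℂ (φ i) y v ≠ t • φ i y
  cmp : ∀ i, ∃ c, ∀ j, ∀ x ∈ A.O i, x ∈ A.O j →
    lf c (φ j (A.e j x)) ≠ 0 ∧ φ i (A.e i x) = cpr c (φ j (A.e j x))

/-- local coordinates of the projective variety at `x` -/
theorem exists_coord (h : IsCI F d) (hn : m + 1 + Fintype.card ι = N) {x : E N} (hx : x ∈ cone F) :
    ∃ (φ : E m → E N) (P : E N →L[ℂ] E m), φ (P x) = x ∧ AnalyticAt ℂ φ (P x) ∧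
      (∀ᶠ y in 𝓝 (P x), φ y ∈ cone F ∧ lf x (φ y) = 1 ∧ P (φ y) = y) ∧
      ∀ᶠ z in 𝓝 x, z ∈ cone F → lf x z = 1 → φ (P z) = z := by
  obtain ⟨V, hV⟩ := exists_dual_at h hx
  let D : E N →L[ℂ] (ι → ℂ) × ℂ := (ContinuousLinearMap.pi fun j => dEval (F j) x).prod (lf x)
  have h0 : ∀ j, dEval (F j) x x = 0 := fun j => by rw [dEval_self (h.hom j), hx.2 j, mul_zero]
  have hD : D.toLinearMap.range = ⊤ := LinearMap.range_eq_top.2 fun a =>
    ⟨∑ j, a.1 j • V j + (a.2 - lf x (∑ j, a.1 j • V j)) • x, Prod.ext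
      (funext fun i => by simp [D, hV, h0]) (by simp [D, lf_self hx.1])⟩
  have hk : Module.finrank ℂ D.toLinearMap.ker = Module.finrank ℂ (E m) := by
    have := D.toLinearMap.finrank_range_add_finrank_ker
    rw [hD, finrank_top] at this
    simp only [Module.finrank_prod, Module.finrank_fintype_fun_eq_card, Fintype.card_fin,
      Module.finrank_self] at this ⊢
    omega
  obtain ⟨π, hπ⟩ := D.toLinearMap.ker.subtype.exists_leftInverse_of_injective (Submodule.ker_subtype _)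
  let P : E N →L[ℂ] E m :=
    LinearMap.toContinuousLinearMap ((LinearEquiv.ofFinrankEq _ _ hk).toLinearMap ∘ₗ π)
  have hi : Function.Injective (D.prod P).toLinearMap := (injective_iff_map_eq_zero _).2 fun v hv =>
    congrArg Subtype.val ((LinearMap.congr_fun hπ ⟨v, congrArg Prod.fst hv⟩).symm.trans
      ((LinearEquiv.ofFinrankEq _ _ hk).map_eq_zero_iff.1 (congrArg Prod.snd hv)))
  let T : E N ≃L[ℂ] ((ι → ℂ) × ℂ) × E m := (LinearMap.linearEquivOfInjective _ hi (by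
    simp only [Module.finrank_prod, Module.finrank_fintype_fun_eq_card, Fintype.card_fin,
      Module.finrank_self]
    omega)).toContinuousLinearEquiv
  let Θ : E N → ((ι → ℂ) × ℂ) × E m := fun z => ((fun j => MvPolynomial.eval z (F j), lf x z), P z)
  have han : AnalyticAt ℂ Θ x := ((AnalyticAt.pi fun j => analyticAt_eval (F j) x).prod
    ((lf x).analyticAt x)).prod (P.analyticAt x)
  have hder : HasFDerivAt Θ (T : E N →L[ℂ] _) x :=
    ((hasFDerivAt_pi.2 fun j => hasFDerivAt_eval (F j) x).prodMk (lf x).hasFDerivAt).prodMk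
      P.hasFDerivAt
  have hs : HasStrictFDerivAt Θ (T : E N →L[ℂ] _) x := hder.fderiv ▸ han.hasStrictFDerivAt
  have e : ∀ z ∈ cone F, lf x z = 1 → Θ z = ((0, 1), P z) := fun z h1 h2 =>
    Prod.ext (Prod.ext (funext h1.2) h2) rfl
  have e₀ := e x hx (lf_self hx.1)
  have a₀ : AnalyticAt ℂ (fun y : E m => (((0 : ι → ℂ), (1 : ℂ)), y)) (P x) :=
    analyticAt_const.prod analyticAt_id
  refine ⟨fun y => hs.localInverse _ _ _ ((0, 1), y), P,
    (congrArg _ e₀.symm).trans hs.localInverse_apply_image, ((hs.toOpenPartialHomeomorph Θ).analyticAt_symm'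
      hs.mem_toOpenPartialHomeomorph_source han hder.fderiv).comp_of_eq a₀ e₀.symm, ?_,
    hs.eventually_left_inverse.mono fun z h1 h2 h3 => (congrArg _ (e z h2 h3).symm).trans h1⟩
  filter_upwards [a₀.continuousAt.eventually (e₀ ▸ hs.eventually_right_inverse)] with y hy
  have h1 : lf x _ = 1 := congrArg (·.1.2) hy
  exact ⟨⟨fun h2 => one_ne_zero (h1.symm.trans ((congrArg _ h2).trans (map_zero _))),
    fun j => congrArg (·.1.1 j) hy⟩, h1, congrArg Prod.snd hy⟩

namespace Cht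

theorem cpr_app {x z : E N} (h : lf x z ≠ 0) :
    lf x (app (prP z) x) ≠ 0 ∧ cpr x (app (prP z) x) = cpr x z := by
  have hz : z ≠ 0 := fun e => h (by rw [e, map_zero])
  have h1 : (∑ j, conj (z j) * x j) * (nu z)⁻¹ ≠ 0 := mul_ne_zero (fun e => h (by
    have : lf x z = conj (∑ j, conj (z j) * x j) * (nu x)⁻¹ := by
      simp only [lf, map_sum, map_mul, Complex.conj_conj, Finset.sum_mul, sum_apply, smul_apply,
        ContinuousLinearMap.proj_apply, smul_eq_mul]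
      exact Finset.sum_congr rfl fun j _ => by ring
    rw [this, e, map_zero, zero_mul])) (inv_ne_zero (nu_ne hz))
  rw [app_prP, cpr_smul h1, map_smul]
  exact ⟨mul_ne_zero h1 h, rfl⟩

theorem lf_ne {x z : E N} (h : lf x (app (prP z) x) ≠ 0) : lf x z ≠ 0 := by
  rw [app_prP, map_smul] at h
  exact right_ne_zero_of_mul h

theorem lf_cpr {x z : E N} (h : lf x z ≠ 0) : lf x (cpr x z) = 1 := by
  rw [cpr, map_smul, smul_eq_mul, inv_mul_cancel₀ h]

theorem cpr_one {x z : E N} (h : lf x z = 1) : cpr x z = z := by rw [cpr, h, inv_one, one_smul]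

theorem exists_oph (h : IsCI F d) (hn : m + 1 + Fintype.card ι = N) {x : E N} (hx : x ∈ cone F) :
    ∃ (e : OpenPartialHomeomorph (prP '' cone F) (E m)) (φ : E m → E N) (P : E N →L[ℂ] E m),
      ⟨prP x, x, hx, rfl⟩ ∈ e.source ∧ (∀ y ∈ e.target, AnalyticAt ℂ φ y ∧ φ y ∈ cone F ∧
        lf x (φ y) = 1 ∧ P (φ y) = y ∧ (e.symm y).1 = prP (φ y)) ∧
      (∀ b z, lf x z ≠ 0 → b.1 = prP z → e b = P (cpr x z)) ∧
      ∀ b ∈ e.source, ∀ z, b.1 = prP z → lf x z ≠ 0 ∧ φ (e b) = cpr x z := by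
  classical
  obtain ⟨φ, P, h1, h2, h3, h4⟩ := exists_coord h hn hx
  obtain ⟨U, hU, oU, xU⟩ := eventually_nhds_iff.1 (h2.eventually_analyticAt.and h3)
  obtain ⟨V, hV, oV, xV⟩ := eventually_nhds_iff.1 h4
  let c : prP '' cone F → E N := fun b => cpr x (app b.1 x)
  let g : E m → prP '' cone F := fun y =>
    if hy : φ y ∈ cone F then ⟨_, _, hy, rfl⟩ else ⟨_, x, hx, rfl⟩
  have hg : ∀ y ∈ U, (g y).1 = prP (φ y) := fun y hy => congrArg _ (dif_pos (hU y hy).2.1)
  have ca : Continuous fun b : prP '' cone F => app b.1 x :=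
    (show Continuous fun b : TT N => app b x by unfold app; fun_prop).comp continuous_subtype_val
  have cc : ContinuousOn c {b | lf x (app b.1 x) ≠ 0} := fun b hb =>
    ((an_cpr hb).continuousAt.comp (f := fun b : prP '' cone F => app b.1 x)
      ca.continuousAt).continuousWithinAt
  have cφ : ContinuousOn φ U := fun y hy => (hU y hy).1.continuousAt.continuousWithinAt
  have k1 : ∀ b z, lf x z ≠ 0 → b.1 = prP z → c b = cpr x z := fun b z hz e =>
    (congrArg (fun b => cpr x (app b x)) e).trans (cpr_app hz).2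
  have k2 : ∀ b, lf x (app b.1 x) ≠ 0 → c b ∈ V → φ (P (c b)) = c b ∧ prP (c b) = b.1 := by
    rintro ⟨_, z, hz, rfl⟩ h5 h6
    have h7 := lf_ne h5
    refine ⟨hV _ h6 ?_ (lf_cpr h5), ?_⟩ <;> rw [k1 _ z h7 rfl]
    exacts [(cone_smul h (inv_ne_zero h7)).2 hz, prP_smul (inv_ne_zero h7) z]
  have k3 : ∀ y ∈ U, lf x (app (g y).1 x) ≠ 0 ∧ c (g y) = φ y := fun y hy => by
    have h5 : lf x (φ y) ≠ 0 := (hU y hy).2.2.1.trans_ne one_ne_zero
    exact ⟨hg y hy ▸ (cpr_app h5).1, (k1 _ _ h5 (hg y hy)).trans (cpr_one (hU y hy).2.2.1)⟩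
  have k4 : c ⟨_, x, hx, rfl⟩ = x :=
    (congrArg (cpr x) (app_prP_self hx.1)).trans (cpr_self hx.1)
  refine ⟨⟨⟨⟨fun b => P (c b), g, {b | lf x (app b.1 x) ≠ 0} ∩ c ⁻¹' (V ∩ P ⁻¹' U), U ∩ φ ⁻¹' V,
    fun b hb => ⟨hb.2.2, mem_of_eq_of_mem (s := V) (k2 b hb.1 hb.2.1).1 hb.2.1⟩,
    fun y hy => ⟨(k3 y hy.1).1, mem_of_eq_of_mem (s := V ∩ P ⁻¹' U) (k3 y hy.1).2
      ⟨hy.2, mem_of_eq_of_mem (s := U) (hU y hy.1).2.2.2 hy.1⟩⟩,
    fun b hb => Subtype.ext ((hg _ hb.2.2).trans ((congrArg prP (k2 b hb.1 hb.2.1).1).trans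
      (k2 b hb.1 hb.2.1).2)), fun y hy => (congrArg P (k3 y hy.1).2).trans (hU y hy.1).2.2.2⟩,
    P.continuous.comp_continuousOn (cc.mono inter_subset_left),
    IsInducing.subtypeVal.continuousOn_iff.2 (ContinuousOn.congr (fun y hy =>
      ((sm_prP (hU y hy.1).2.1.1).continuousAt.comp (hU y hy.1).1.continuousAt).continuousWithinAt)
      fun y hy => hg y hy.1)⟩,
    cc.isOpen_inter_preimage (isOpen_ne_fun ((lf x).continuous.comp ca) continuous_const)
      (oV.inter (oU.preimage P.continuous)), cφ.isOpen_inter_preimage oU oV⟩, φ, P,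
    ⟨(cpr_app ((lf_self hx.1).trans_ne one_ne_zero)).1,
      mem_of_eq_of_mem (s := V ∩ P ⁻¹' U) k4 ⟨xV, xU⟩⟩, fun y hy => ⟨(hU y hy.1).1, (hU y hy.1).2.1,
      (hU y hy.1).2.2.1, (hU y hy.1).2.2.2, hg y hy.1⟩, fun b z hz e => congrArg P (k1 b z hz e),
    fun b hb z e => ?_⟩
  have h5 : lf x z ≠ 0 := lf_ne (e ▸ hb.1)
  exact ⟨h5, (k2 b hb.1 hb.2.1).1.trans (k1 b z h5 e)⟩

omit [Fintype ι] [DecidableEq ι] in
theorem isCompact_prP (h : IsCI F d) : IsCompact (prP '' cone F) := by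
  have : prP '' cone F =
      prP '' (Metric.sphere (0 : E N) 1 ∩ ⋂ j, {z | MvPolynomial.eval z (F j) = 0}) := by
    refine Subset.antisymm ?_ (image_mono fun z hz =>
      ⟨ne_zero_of_sphere hz.1, fun j => mem_iInter.1 hz.2 j⟩)
    rintro _ ⟨z, hz, rfl⟩
    exact ⟨_, ⟨normalize_mem hz.1, mem_iInter.2 ((cone_smul h (normalize_ne hz.1)).2 hz).2⟩,
      prP_smul (normalize_ne hz.1) z⟩
  exact this ▸ isCompact_image_prP (isClosed_iInter fun j => isClosed_eq
    (continuous_iff_continuousAt.2 fun z => (analyticAt_eval (F j) z).continuousAt) continuous_const)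

end Cht

theorem exists_rz (h : IsCI F d) (hn : m + 1 + Fintype.card ι = N) :
    ∃ (X : Type) (_ : TopologicalSpace X) (_ : T2Space X) (_ : CompactSpace X) (κ : Type)
      (_ : Fintype κ) (A : At m X κ) (φ : κ → E m → E N),
      Rz F A φ ∧ ((cone F).Nonempty → Nonempty X) := by
  have : CompactSpace (prP '' cone F) := isCompact_iff_compactSpace.1 (Cht.isCompact_prP h)
  choose x hx ex using fun b : prP '' cone F => b.2
  choose e φ P h1 h2 h3 h4 using fun b => Cht.exists_oph h hn (hx b)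
  obtain ⟨t, ht⟩ := isCompact_univ.elim_finite_subcover (fun b => (e b).source)
    (fun b => (e b).open_source) fun b _ => mem_iUnion.2
      ⟨b, mem_of_eq_of_mem (Subtype.ext (ex b).symm) (h1 b)⟩
  have k : ∀ i, ∀ b ∈ (e i).source, b.1 = prP (φ i (e i b)) := fun i b hb =>
    (congrArg _ ((e i).left_inv hb).symm).trans (h2 i _ ((e i).map_source hb)).2.2.2.2
  refine ⟨prP '' cone F, inferInstance, inferInstance, inferInstance, t, inferInstance,
    ⟨fun i => e i.1, fun b => ?_, fun i j b hi hj => ?_⟩, fun i => φ i.1,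
    ⟨fun i y hy => (h2 i.1 y hy).1, fun i y hy => (h2 i.1 y hy).2.1, fun i y hy v hv τ e' => hv ?_,
      fun i => ⟨x i.1, fun j b hi hj => h4 i.1 b hi _ (k j.1 b hj)⟩⟩,
    fun ⟨z, hz⟩ => ⟨⟨_, z, hz, rfl⟩⟩⟩
  · obtain ⟨i, hi, hb⟩ := mem_iUnion₂.1 (ht (mem_univ b))
    exact ⟨⟨i, hi⟩, hb⟩
  · have h5 := (e i.1).map_source hi
    have h6 := (h4 j.1 b hj _ (k i.1 b hi)).1
    have h7 := (h2 i.1 _ h5).1
    refine (((P j.1).analyticAt _).comp ((an_cpr h6).comp h7)).congr ?_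
    filter_upwards [(e i.1).open_target.mem_nhds h5, ((lf (x j.1)).continuous.continuousAt.comp
      h7.continuousAt).eventually_ne h6] with y h8 h9
    exact (h3 j.1 _ _ h9 (h2 i.1 y h8).2.2.2.2).symm
  · have h5 := (h2 i.1 y hy).1.differentiableAt.hasFDerivAt
    have h6 := (e i.1).open_target.mem_nhds hy
    have h7 := (((lf (x i.1)).hasFDerivAt.comp y h5).congr_of_eventuallyEq
      (f₁ := fun _ => 1) (mem_of_superset h6 fun z hz => (h2 i.1 z hz).2.2.1.symm)).unique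
      (hasFDerivAt_const _ _)
    have h8 := (((P i.1).hasFDerivAt.comp y h5).congr_of_eventuallyEq
      (f₁ := id) (mem_of_superset h6 fun z hz => (h2 i.1 z hz).2.2.2.1.symm)).unique
      (hasFDerivAt_id _)
    have h9 : lf (x i.1) (fderiv ℂ (φ i.1) y v) = 0 := DFunLike.congr_fun h7 v
    have h10 : P i.1 (fderiv ℂ (φ i.1) y v) = v := DFunLike.congr_fun h8 v
    rw [e', map_smul, (h2 i.1 y hy).2.2.1, smul_eq_mul, mul_one] at h9
    rw [← h10, e', h9, zero_smul, map_zero]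

end Vale.Agent.P269.Hdx
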