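import Vale.Agent.P269.Hdg.Filt

/-!
# Every basic form is the form of a smooth cochain
-/

namespace Vale.Agent.P269.Hdx

open Vale.Agent.P269.Hdg P291Z Topology Filter
open scoped ComplexConjugate ContDiff

variable {N : ℕ} {s : Bool} {j b : Fin (N + 1)} {x : E N} {p q k : ℤ} {u : SM N}

/-- The entries of the orthogonal projector onto a line, or their conjugates. -/
noncomputable def Pf (s : Bool) (j b : Fin (N + 1)) (y : E N) : ℂ := sg s (y j * lf y (ee b))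

theorem lf_ee (y : E N) : lf y (ee b) = conj (y b) * (nu y)⁻¹ := by
  simp [lf, ee, Pi.single_apply]

theorem sm_Pf (hx : x ≠ 0) : ContDiffAt ℝ ∞ (Pf s j b) x := by
  have h1 := (contDiffAt_apply ℝ ℂ j x).mul
    ((contDiffAt_conj (contDiffAt_apply ℝ ℂ b x)).mul ((contDiffAt_nu x).inv (nu_ne hx)))
  have h2 := (sgL s).contDiff.contDiffAt.comp x h1
  refine h2.congr_of_eventuallyEq (Eventually.of_forall fun y => ?_)
  simp [Pf, lf_ee]

theorem Pf_smul {t : ℂ} (ht : t ≠ 0) (y : E N) : Pf s j b (t • y) = Pf s j b y := by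
  rw [Pf, Pf, lf_smul ht]
  congr 1
  simp only [Pi.smul_apply, smul_eq_mul, _root_.smul_apply]
  field_simp

theorem sum_Pf (hx : x ≠ 0) : ∑ b, Pf s j b x * sg s (x b) = sg s (x j) := by
  have h1 : ∑ b, lf x (ee b) * x b = 1 := by
    rw [← lf_self hx]
    conv_rhs => rw [← sum_ee x, map_sum]
    exact Finset.sum_congr rfl fun b _ => by rw [sum_ee, map_smul, smul_eq_mul, mul_comm]
  simp only [Pf, ← map_mul, ← map_sum, mul_assoc, ← Finset.mul_sum, h1, mul_one]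

theorem dz_eq (hx : x ≠ 0) :
    dz s j = ∑ b, sg s (x b) • fderiv ℝ (Pf s j b) x + sg s (x j) • cv s (lf x) := by
  have h0 : ∀ b, HasFDerivAt (fun y : E N => sg s (y b)) (dz s b) x := fun b =>
    (dz s b).hasFDerivAt.congr_of_eventuallyEq (Eventually.of_forall fun y => by simp)
  have h1 := HasFDerivAt.fun_sum (u := Finset.univ) fun b _ =>
    (sm_diff (sm_Pf (s := s) (j := j) (b := b) hx)).hasFDerivAt.mul (h0 b)
  have h2 := (h0 j).unique (h1.congr_of_eventuallyEq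
    ((ne_zero_ev hx).mono fun y hy => (sum_Pf hy).symm))
  rw [h2, Finset.sum_add_distrib, add_comm, cv_eq_sum, Finset.smul_sum]
  congr 1
  exact Finset.sum_congr rfl fun b _ => by rw [smul_smul, Pf, map_mul]

theorem num_eq (hx : x ≠ 0) {o : Λ N} (h0 : ct (vec s x) o = 0) :
    num s o = ∑ j, ∑ b, io (fderiv ℝ (Pf s j b) x) * ct (vec s (x b • ee j)) o := by
  have h1 : ∑ j, sg s (x j) • (io (cv s (lf x)) * ct (vec s (ee j)) o) = 0 := by
    rw [vec_eq_sum] at h0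
    simp only [map_sum, map_smul, LinearMap.sum_apply, LinearMap.smul_apply] at h0
    simp only [← mul_smul_comm, ← Finset.mul_sum, h0, mul_zero]
  rw [num_apply, ← add_zero (∑ j, ∑ b, _), ← h1, ← Finset.sum_add_distrib]
  refine Finset.sum_congr rfl fun j _ => ?_
  conv_lhs => rw [dz_eq hx]
  simp only [map_add, map_sum, map_smul, add_mul, Finset.sum_mul, smul_mul_assoc, vec_smul,
    LinearMap.smul_apply, mul_smul_comm]

theorem sm_vf (j b : Fin (N + 1)) (x : E N) (_ : x ≠ 0) :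
    ContDiffAt ℝ ∞ (fun y : E N => y b • (ee j : E N)) x :=
  sm_smul (contDiffAt_apply ℝ ℂ b x) contDiffAt_const

/-- Contraction with the vector field `y_b ∂_j`. -/
noncomputable def CV (s : Bool) (j b : Fin (N + 1)) : SM N →ₗ[ℂ] SM N :=
  CT s (fun y => y b • ee j) (sm_vf j b)

theorem CV_Om (hu : u ∈ Om p q) : CV s j b u ∈ Om (p - dl true s) (q - dl false s) := by
  have h0 : ∀ s' x, x ≠ 0 → ct (vec s' x) (u.1 x) = 0 := Ak_ct (Om_le_Ak hu)
  have h1 : ∀ s' x, x ≠ 0 → ct (vec s' x) ((CV s j b u).1 x) = 0 := fun s' x hx => by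
    rw [CV, CT_apply, ct_comm, h0 s' x hx]; simp
  refine ⟨⟨fun x hx => ⟨ct_mem_Ty (hu.1.1 x hx).1 s _, h1 _ x hx⟩, ?_⟩, h1 _⟩
  have := hu.1.2.ct s (ξ := fun y => y b • ee j) (a' := 1) fun t y _ _ => by simp [smul_smul]
  rwa [show 0 - p + 1 * dl true s = 0 - (p - dl true s) by ring,
    show -q + 1 * dl false s = -(q - dl false s) by ring] at this

theorem CV_Ak (hu : u ∈ Ak (k + 1)) : CV s j b u ∈ Ak k :=
  Ak_ind ((Ak k).comap (CV s j b)) (fun u h => Ak_of_zero fun x hx => by simp [CV, h x hx])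
    (fun p q e u hu => by
      have := Om_le_Ak (CV_Om (s := s) (j := j) (b := b) hu)
      rwa [show p - dl true s + (q - dl false s) = k by cases s <;> simp <;> omega] at this) hu

/-- Forms of smooth cochains of degree `k`. -/
def Im (k : ℕ) : Submodule ℂ (SM N) where
  carrier := {u | ∃ a : Coch (E N), IsSm a ∧ IsDeg k a ∧ ∀ x ≠ 0, Dm k a x = u.1 x}
  zero_mem' := ⟨0, IsSm.zero, fun _ _ => rfl, fun x _ => Df_zero⟩
  add_mem' := by
    rintro u v ⟨a, h1, h2, h3⟩ ⟨a', h1', h2', h3'⟩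
    exact ⟨a + a', h1.add h1', h2.add h2', fun x hx => by
      rw [Dm_add h1 h1' hx, h3 x hx, h3' x hx]; rfl⟩
  smul_mem' := by
    rintro c u ⟨a, h1, h2, h3⟩
    exact ⟨c • a, h1.smul c, h2.smul c, fun x hx => by rw [Dm_smul c h1 hx, h3 x hx]; rfl⟩

theorem Im_congr {k : ℕ} {u v : SM N} (hu : u ∈ Im k) (e : ∀ x ≠ 0, v.1 x = u.1 x) : v ∈ Im k :=
  hu.imp fun _ h => ⟨h.1, h.2.1, fun x hx => (h.2.2 x hx).trans (e x hx).symm⟩

theorem isSm_fun {g : E N → ℂ} (hg : ∀ y ≠ 0, ContDiffAt ℝ ∞ g y)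
    (hm : ∀ (t : ℂ) y, t ≠ 0 → y ≠ 0 → g (t • y) = g y) :
    IsSm (ofG (k := 0) fun y : Fin 1 → E N => g (y 0)) :=
  isSm_ofG (fun y hy => (hg _ (hy 0)).comp y (contDiffAt_apply ℝ (E N) 0 y))
    fun _ _ hy ht => hm _ _ (ht 0) (hy 0)

theorem Dm_fun (g : E N → ℂ) (x : E N) :
    Dm 0 (ofG (k := 0) fun y : Fin 1 → E N => g (y 0)) x = g x • (1 : Λ N) := by
  rw [Dm_zero, ← ofG_ofFn (k := 0) (fun y : Fin 1 → E N => g (y 0)) fun _ => x]
  rfl

/-- The differential of an entry of the projector. -/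
noncomputable def dP (s : Bool) (j b : Fin (N + 1)) : SM N :=
  ⟨fun y => io (fderiv ℝ (Pf s j b) y), fun _ hx =>
    (LinearMap.toContinuousLinearMap io).contDiff.restrict_scalars ℝ |>.contDiffAt.comp _
      (sm_fderiv (sm_Pf hx))⟩

theorem mul_dP {k : ℕ} (hu : u ∈ Im k) : ML u (dP s j b) ∈ Im (k + 1) := by
  obtain ⟨a, h1, h2, h3⟩ := hu
  have e1 := isSm_fun (fun _ => sm_Pf (s := s) (j := j) (b := b)) fun t y ht _ => Pf_smul ht y
  have e2 := (isDeg_ofG (k := 0) fun y : Fin 1 → E N => Pf s j b (y 0)).δ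
  have e3 : ∀ y ≠ 0, Dm (0 + 1) (δ (ofG (k := 0) fun y : Fin 1 → E N => Pf s j b (y 0))) y =
      io (fderiv ℝ (Pf s j b) y) := fun y hy => by
    rw [Dm_delta e1 hy, funext (Dm_fun _), dd_scalar (sm_diff (sm_Pf hy))]
  refine ⟨_, h1.mul e1.delta, (h2.mul e2).cast (by simp), fun x hx => ?_⟩
  obtain ⟨c, hc⟩ := Dm_mul (l := 0 + 1) h1 e1.delta h2 (e2.cast (by simp)) hx
  rw [dd_congr ((ne_zero_ev hx).mono e3), dd_io_fderiv (sm_Pf hx), mul_zero, add_zero, h3 x hx,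
    e3 x hx] at hc
  exact hc

/-- Every basic form is the form of a smooth cochain. -/
theorem Ak_le_Im (k : ℕ) {u : SM N} (hu : u ∈ Ak k) : u ∈ Im k := by
  induction k generalizing u with
  | zero =>
    have h0 : ∀ y ≠ 0, u.1 y ∈ Ty 0 0 := fun y hy => Ty_of_Dg_zero (hu.2 y hy)
    refine ⟨_, isSm_fun (g := fun y => sca (u.1 y)) (fun y hy => sm_sca (u.sm hy))
      fun t y ht hy => ?_, isDeg_ofG _,
      fun x hx => (Dm_fun (fun y => sca (u.1 y)) x).trans (eq_sca (h0 x hx)).symm⟩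
    have := (hu.1 0 0).1.2 t y ht hy
    rw [PT_apply, PT_apply, pt_self (h0 _ hy), pt_self (h0 _ (smul_ne_zero ht hy))] at this
    simp [this]
  | succ k ih =>
    have h1 : ∀ s j b, CV s j b u ∈ Ak (k : ℤ) := fun s j b => CV_Ak (by simpa using hu)
    have h2 : ((k + 1 : ℕ) : ℂ)⁻¹ • ∑ s, ∑ j, ∑ b,
        ((-1 : ℂ) ^ (k : ℤ)) • ML (CV s j b u) (dP s j b) ∈ Im (k + 1) :=
      Submodule.smul_mem _ _ (sum_mem fun s _ => sum_mem fun j _ => sum_mem fun b _ =>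
        Submodule.smul_mem _ _ (mul_dP (ih (h1 s j b))))
    refine Im_congr h2 fun x hx => ?_
    have h3 := mem_Dg.1 (hu.2 x hx)
    rw [num_eq hx (Ak_ct hu _ hx), num_eq hx (Ak_ct hu _ hx)] at h3
    have h4 : ∀ s j b, io (fderiv ℝ (Pf s j b) x) * ct (vec s (x b • ee j)) (u.1 x) =
        ((-1 : ℂ) ^ (k : ℤ)) • (ML (CV s j b u) (dP s j b)).1 x := fun s j b => by
      rw [io_mul_eq, par_of_Dg (a := ct _ (u.1 x)) ((h1 s j b).2 x hx), smul_mul_assoc]; rfl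
    simp only [h4] at h3
    simp only [Submodule.coe_smul, Submodule.coe_sum, Pi.smul_apply, Finset.sum_apply,
      Fintype.sum_bool, Submodule.coe_add, Pi.add_apply]
    rw [h3, Int.cast_natCast, inv_smul_smul₀ (by exact_mod_cast k.succ_ne_zero)]

theorem exists_DM (hu : u ∈ Ak k) : ∃ a : smA N, IsDeg k a.1 ∧ ∀ x ≠ 0, (DM a).1 x = u.1 x := by
  by_cases hk : k < 0
  · exact ⟨0, fun _ _ => rfl, fun x hx => by rw [map_zero, Ak_neg hk hu hx]; rfl⟩
  lift k to ℕ using by omega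
  obtain ⟨a, h1, h2, h3⟩ := Ak_le_Im k hu
  exact ⟨⟨a, h1⟩, h2, fun x hx => (DM_of_isDeg (a := ⟨a, h1⟩) h2 hx).trans (h3 x hx)⟩

end Vale.Agent.P269.Hdx
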