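import Vale.Agent.P269.Hdx.EA

/-!
# The class of a closed pure form has that Hodge type
-/

namespace Vale.Agent.P269.Hdx

open Vale.Agent.P269.Hdg P291Z Topology Filter
open scoped ComplexConjugate ContDiff

variable {N : ℕ} {x : E N} {k : ℕ}

/-- Evaluation of a covector. -/
noncomputable def evW (v : Fin k → E N) : W N →ₗ[ℂ] (Fin k → ℂ) where
  toFun w j := w (v j)
  map_add' _ _ := rfl
  map_smul' _ _ := rfl

open Classical in
/-- Evaluation of a form on `k` vectors. -/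
noncomputable def evΛ (v : Fin k → E N) : Λ N →ₗ[ℂ] ℂ :=
  ExteriorAlgebra.liftAlternating
    (Function.update (0 : ∀ i, W N [⋀^Fin i]→ₗ[ℂ] ℂ) k
      (Matrix.detRowAlternating.compLinearMap (evW v)))

theorem evΛ_wl (v : Fin k → E N) (w : Fin k → W N) : evΛ v (wl (List.ofFn w)) =
    ∑ σ : Equiv.Perm (Fin k), ((Equiv.Perm.sign σ : ℤ) : ℂ) * ∏ i, w i (v (σ i)) := by
  have h1 : wl (List.ofFn w) = ExteriorAlgebra.ιMulti ℂ k w := by
    rw [ExteriorAlgebra.ιMulti_apply, wl, List.map_ofFn]; rfl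
  rw [h1]
  refine (ExteriorAlgebra.liftAlternating_apply_ιMulti _ w).trans ?_
  rw [Function.update_self]
  change Matrix.det (Matrix.of fun i j => w i (v j)) = _
  rw [← Matrix.det_transpose, Matrix.det_apply']
  rfl

theorem evΛ_mp_Df {f : (Fin (k + 1) → E N) → ℂ} (hf : ContDiffAt ℝ ∞ f fun _ => x)
    (A : E N →L[ℝ] E N) (v : Fin k → E N) :
    evΛ v (mp (tr A) (Df f x)) = form f x fun i => A (v i) := by
  rw [mp_Df hf, map_sum, form]
  simp only [map_smul, evΛ_wl, smul_eq_mul, Finset.mul_sum]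
  rw [Finset.sum_comm]
  refine Finset.sum_congr rfl fun σ _ => ?_
  have h1 : ∀ i : Fin k, (Pi.single i.succ (A (v (σ i))) : Fin (k + 1) → E N) =
      ∑ j, (Module.finBasis ℝ (E N)).repr (v (σ i)) j • Pi.single i.succ (A (eR j)) := fun i => by
    conv_lhs => rw [← (Module.finBasis ℝ (E N)).sum_repr (v (σ i)), ← sl_apply, map_sum, map_sum]
    simp only [map_smul, sl_apply, eR]
  simp only [h1]
  rw [ContinuousMultilinearMap.map_sum, Finset.mul_sum]
  refine Finset.sum_congr rfl fun τ _ => ?_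
  rw [ContinuousMultilinearMap.map_smul_univ]
  simp [eD, mul_comm, mul_assoc]

theorem exists_contDiff {Y : Type} [NormedAddCommGroup Y] [NormedSpace ℝ Y]
    [FiniteDimensional ℝ Y] {g : Y → ℂ} {y : Y} (hg : ∀ᶠ z in 𝓝 y, ContDiffAt ℝ ∞ g z) :
    ∃ f : Y → ℂ, ContDiff ℝ ∞ f ∧ f =ᶠ[𝓝 y] g := by
  obtain ⟨r, hr, h1⟩ := Metric.nhds_basis_closedBall.eventually_iff.1 hg
  let φ : ContDiffBump y := ⟨r / 2, r, by positivity, by linarith⟩
  refine ⟨fun z => φ z • g z, contDiff_iff_contDiffAt.2 fun z => ?_,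
    φ.eventuallyEq_one.mono fun z hz => by simp [hz]⟩
  by_cases hz : z ∈ Metric.closedBall y r
  · exact φ.contDiff.contDiffAt.smul (h1 hz)
  · refine contDiffAt_const.congr_of_eventuallyEq (f := fun _ => 0) ?_
    filter_upwards [Metric.isClosed_closedBall.isOpen_compl.mem_nhds hz] with w hw
    rw [φ.zero_of_le_dist (le_of_lt (not_le.1 hw)), zero_smul]

variable {ι : Type} [Fintype ι] [DecidableEq ι] {F : ι → MP N} {d : ι → ℕ}
  {X : Type} [TopologicalSpace X] {π : cone F → X}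

theorem mp_prj (h : IsCI F d) (hx : x ∈ cone F) {A : E N →L[ℝ] E N} (hA : ∀ v, A v ∈ tang F x)
    {o : Λ N} (ho : o ∈ ann (pl (fullL F) x)) : mp (tr A) o = 0 :=
  mp_of_ann (h.dualL_full.hasDual hx) (forall_pl.2 fun a ha => by
    obtain ⟨j, hj⟩ := of_mem_fullL ha
    ext v
    simp [df, hj, mem_tang.1 (hA v) j]) ho

/-- The converse of `Df_type`. -/
theorem form_type (h : IsCI F d) (hx : x ∈ cone F) {p q : ℕ} {f : (Fin (p + q + 1) → E N) → ℂ}
    (hf : ContDiffAt ℝ ∞ f fun _ => x) {o : Λ N} (ho : o ∈ Ty p q)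
    (e : Df f x - o ∈ ann (pl (fullL F) x)) (t : ℂ) (v : Fin (p + q) → E N)
    (hv : ∀ i, v i ∈ tang F x) : form f x (t • v) = t ^ p * conj t ^ q * form f x v := by
  obtain ⟨P, h1, h2, -⟩ := exists_prj h hx
  have h3 : mp (tr (P.restrictScalars ℝ)) (Df f x) ∈ Ty p q := by
    have := mp_prj h hx (A := P.restrictScalars ℝ) h1 e
    rw [map_sub, sub_eq_zero] at this
    rw [this]
    exact mp_tr_mem P ho
  have h4 := congrArg (evΛ v) (mp_sc h3 t (conj t))
  rw [← tr_scal, mp_mp, tr_comp, map_smul, evΛ_mp_Df hf, evΛ_mp_Df hf] at h4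
  have h5 : form f x (fun i => t • v i) = t ^ p * conj t ^ q * form f x fun i => v i := by
    simpa [h2 _ (hv _), scal] using h4
  exact h5

variable (h : IsCI F d) (hπ : IsProj π)

/-- The class of a closed form of pure type has that Hodge type. -/
theorem isHodge_cmp {p q : ℕ} {u : SM N} (hu : u ∈ (Ac h).Z ((p + q : ℕ) : ℤ)) (h1 : u ∈ Om p q) :
    IsHodge F π p q (cmp h hπ _ (Cx.cl u hu)) := by
  obtain ⟨a, ha, e⟩ := exists_SmZ h hu
  obtain ⟨w, hw, e1⟩ := (dR_B h).1 e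
  obtain ⟨b, hb, e2⟩ := exists_DM hw
  let a' : smA N := a + ⟨δ b.1, IsSm.delta b.2⟩
  have hδ : IsDeg ((p + q : ℕ) : ℤ) (δ b.1) := hb.δ.cast (by simp)
  have h2 : SmZ F ((p + q : ℕ) : ℤ) a' := ⟨ha.1.add hδ, fun z => by
    change δ (a.1 + δ b.1) ∈ _
    rw [map_add, δ_δ, add_zero]; exact ha.2 z⟩
  have h3 : ∀ y ∈ cone F, u.1 y - (DM a').1 y ∈ ann (pl (fullL F) y) := fun y hy => by
    have e3 : (DM ⟨δ b.1, IsSm.delta b.2⟩).1 y = (DD w).1 y := by
      rw [DM_δ rfl hb hy.1, DD_apply _ hy.1, DD_apply _ hy.1]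
      exact dd_congr ((ne_zero_ev hy.1).mono e2)
    rw [map_add, Submodule.coe_add, Pi.add_apply, e3, ← sub_sub]
    exact e1 y hy
  have h4 := h2.cyc h hπ
  rw [cmp_eq h hπ hu h2 (Cx.nul_le_B ((dR_nul h).2 h3))]
  refine ⟨⟨rs hπ a'.1, h4⟩, h2.1.pull _, (hcls_val _).symm, fun x => ?_⟩
  obtain ⟨f, hf, e3⟩ := exists_contDiff (IsSm.ofFn_ev a'.2 fun _ : Fin (p + q + 1) => x.2.1)
  refine ⟨f, hf, ?_, form_type h x.2 hf.contDiffAt (h1.1.1 x.1 x.2.1).1 ?_⟩
  · have ht : Tendsto (fun (y : Fin (p + q + 1) → cone F) i => (y i).1) (𝓝 fun _ => x)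
        (𝓝 fun _ => x.1) := (by fun_prop : Continuous _).tendsto _
    filter_upwards [ht.eventually e3] with y hy
    rw [hy, ← Function.comp_def π, ← List.map_ofFn, rs_val hπ a'.2, List.map_ofFn]
    rfl
  · rw [Df_congr e3, ← neg_sub]
    have := h3 x.1 x.2
    rw [DM_of_isDeg h2.1 x.2.1] at this
    exact neg_mem this

end Vale.Agent.P269.Hdx
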