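import Vale.Agent.P269.Hdx.EB
import Vale.Agent.P269.Hdg.Final

/-!
# The conjugate complete intersection
-/

namespace Vale.Agent.P269.Hdx

open Vale.Agent.P269.Hdg Topology Filter MvPolynomial Module
open scoped ComplexConjugate ContDiff

variable {N : ℕ} {ι : Type} {F F' : ι → MP N} {d : ι → ℕ} {x : E N}

theorem eval_cj (f : MP N) (x : E N) :
    eval x (map (starRingEnd ℂ) f) = conj (eval (cjE N x) f) := by
  induction f using MvPolynomial.induction_on with
  | C a => simp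
  | add p q hp hq => simp [hp, hq]
  | mul_X p i hp => simp [hp]

/-- The equations `F'` are conjugate to the equations `F`. -/
def Cj (F F' : ι → MP N) : Prop := ∀ j, F' j = map (starRingEnd ℂ) (F j)

theorem Cj.symm (c : Cj F F') : Cj F' F := fun j => by
  rw [c j, MvPolynomial.map_map, show (starRingEnd ℂ).comp (starRingEnd ℂ) = RingHom.id ℂ from
    RingHom.ext Complex.conj_conj, MvPolynomial.map_id]

theorem Cj.mem (c : Cj F F') (hx : x ∈ cone F') : cjE N x ∈ cone F :=
  ⟨cjE_ne hx.1, fun j => by simpa [c j, eval_cj, -eval_map] using hx.2 j⟩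

theorem Cj.isCI (c : Cj F F') [Fintype ι] (h : IsCI F d) : IsCI F' d := by
  refine ⟨fun j => c j ▸ (h.hom j).map _, h.pos, fun x hx => ?_⟩
  rw [Fintype.linearIndependent_iff]
  intro g hg j
  have := Fintype.linearIndependent_iff.1 (h.jac _ (c.mem hx)) (fun j => conj (g j))
    (funext fun i => ?_) j
  · simpa using this
  · have := congrArg conj (congrFun hg i)
    simpa [c _, pderiv_map, eval_cj, -eval_map] using this

theorem Cj.tang (c : Cj F F') {v : E N} (hv : v ∈ tang F' x) : cjE N v ∈ tang F (cjE N x) :=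
  fun j => by
    have := congrArg conj (hv j)
    simpa [c _, pderiv_map, eval_cj, -eval_map] using this

/-- The homeomorphism of the cones. -/
noncomputable def Cj.hom (c : Cj F F') : cone F' ≃ₜ cone F where
  toFun y := ⟨cjE N y.1, c.mem y.2⟩
  invFun y := ⟨cjE N y.1, c.symm.mem y.2⟩
  left_inv _ := Subtype.ext (cjE_cjE _)
  right_inv _ := Subtype.ext (cjE_cjE _)
  continuous_toFun := ((cjE N).continuous.comp continuous_subtype_val).subtype_mk _
  continuous_invFun := ((cjE N).continuous.comp continuous_subtype_val).subtype_mk _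

variable {X : Type} [TopologicalSpace X] {π : cone F → X} {π' : cone F' → X}

theorem Cj.isProj (c : Cj F F') (hπ : IsProj π) : IsProj (π ∘ c.hom) := by
  refine ⟨hπ.quot.comp c.hom.isQuotientMap, fun x y => (hπ.fib _ _).trans
    ⟨fun ⟨t, e⟩ => ⟨conj t, ?_⟩, fun ⟨t, e⟩ => ⟨conj t, ?_⟩⟩⟩
  · have := congrArg (cjE N) e
    rwa [cjE_smul, show ∀ z, cjE N (c.hom z).1 = z.1 from fun z => cjE_cjE _,
      show ∀ z, cjE N (c.hom z).1 = z.1 from fun z => cjE_cjE _] at this
  · exact (cjE_smul t x.1).symm.trans (congrArg (cjE N) e)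

variable [Fintype ι] [DecidableEq ι]

theorem Cj.nl (c : Cj F F') (h : IsCI F d) {u : SM N} (hu : u ∈ Nl F) : CJ u ∈ Nl F' := by
  intro y hy
  obtain ⟨P, h1, -, h2⟩ := exists_prj (c.isCI h) hy
  have h3 := mp_prj h (c.mem hy) (A := (cjE N).comp (P.restrictScalars ℝ))
    (fun v => c.tang (h1 v)) (hu _ (c.mem hy))
  have h4 := h2 ((CJ u).1 y)
  rw [CJ_apply, mp_mp, tr_comp, h3, zero_sub] at h4
  exact neg_mem_iff.1 h4

/-- Conjugation as a map of de Rham complexes. -/
noncomputable def Cj.cx (c : Cj F F') (h : IsCI F d) (h' : IsCI F' d) : Cx.Hom (Ac h) (Ac h') :=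
  ⟨CJ, 1, one_ne_zero, fun _ _ hu => (CJ_Fk (Fk_of_Ak (s := true) le_rfl hu)).1,
    fun _ hu => (Ac_nul h').2 (c.nl h ((Ac_nul h).1 hu)), fun _ u _ => by
      rw [one_smul]
      exact (Ac_nul h').2 (Z0_le_Nl fun x hx => sub_eq_zero.2 (DD_CJ u hx).symm)⟩

theorem Cj.finrank_le (c : Cj F F') (h : IsCI F d) (h' : IsCI F' d) (hπ : IsProj π)
    (hπ' : IsProj π') (s : Bool) (r k : ℤ) :
    finrank ℂ (FH h hπ s r k) ≤ finrank ℂ (FH h' hπ' (!s) r k) := by
  have h0 : (c.cx h h').Inj k := fun u _ hu =>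
    mem_of_eq ((c.symm.cx h' h).map_B hu) (CJ_CJ u).symm
  have h1 : Function.Injective (cmp h' hπ' k ∘ₗ (c.cx h h').map k) := by
    rw [LinearMap.coe_comp]
    exact (cmp_inj h' hπ').comp ((c.cx h h').inj_iff.1 h0)
  rw [FH, LinearMap.range_comp, ← (Submodule.equivMapOfInjective _ (cmp_inj h hπ) _).finrank_eq,
    (Submodule.equivMapOfInjective _ h1 _).finrank_eq]
  refine Submodule.finrank_mono ?_
  rintro _ ⟨_, ⟨z, rfl⟩, rfl⟩
  obtain ⟨u, hu, rfl⟩ := Cx.exists_cl z
  exact (mem_FH h' hπ').2 ⟨_, (c.cx h h').map_Z ((toA h s r).map_Z hu), CJ_Fk hu.1, rfl⟩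

end Vale.Agent.P269.Hdx
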