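import Vale.Agent.P269.Hdx.EC
import Vale.Agent.P269.Hdg.PrimGeo

/-!
# The dimensions of the Hodge filtration in the middle degree
-/

namespace Vale.Agent.P269.Hdx

open Vale.Agent.P269.Hdg Module

variable {N : ℕ} {ι : Type} [Fintype ι] [DecidableEq ι] {F : ι → MP N} {d : ι → ℕ}
  {X : Type} [TopologicalSpace X] {π : cone F → X} (h : IsCI F d) (hπ : IsProj π)
  {n : ℕ} (hn : n + Fintype.card ι = N)

theorem deg_le (k : ℤ) (r : ℕ) : finrank ℂ (P291Z.H.deg X k) ≤
    finrank ℂ (FH h hπ true r k) + ∑ i ∈ Finset.range r, (Wc h i).h (k - i) := by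
  induction r with
  | zero => rw [Nat.cast_zero, FH_zero]; simp
  | succ r ih =>
    have := finrank_FH_le h hπ r k
    rw [Finset.sum_range_succ]
    push_cast
    omega

/-- The expected Hodge numbers in the middle degree. -/
noncomputable def mh (N : ℕ) (d : ι → ℕ) (n r : ℕ) : ℤ :=
  hp N (Finset.univ.val.map d) r + if 2 * r = n then 1 else 0

include hn

omit [DecidableEq ι] in
include h in
theorem mh_symm {r : ℕ} (hr : r ≤ n) : mh N d n (n - r) = mh N d n r := by
  have := hp_symm (N := N) h.pos_map r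
  rw [dm_map hn] at this
  rw [mh, mh, Nat.cast_sub hr, this]
  congr 1
  exact if_congr (by omega) rfl rfl

variable (hb : ∀ j ≤ n, ∃ c : P291Z.H X, P291Z.H.IsDeg (2 * j : ℕ) c ∧ c ≠ 0)
include hπ hb

theorem Wc_diag {j : ℕ} (hj : j ≤ n) (hj' : 2 * j ≠ n) : (Wc h j).h j = 1 := by
  have h1 := deg_le h hπ (2 * j) (n + 1)
  rw [lefschetz h hπ hn hb (by omega), if_pos ⟨even_two_mul _, by omega, by omega⟩,
    (Submodule.eq_bot_iff _).2 fun _ => FH_big (by omega), finrank_bot,
    Finset.sum_eq_single_of_mem j (by simp; omega) fun i _ hi => by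
      have := Wc_h h (p := i) (q := 2 * j - i) (by omega)
      rwa [if_neg (by omega), Nat.le_zero] at this,
    show 2 * (j : ℤ) - j = j by ring] at h1
  have h2 := Wc_h h (p := j) (q := j) (by omega)
  rw [if_pos rfl] at h2
  omega

theorem Wc_mid {r : ℕ} (hr : r ≤ n) : ((Wc h r).h (n - r) : ℤ) = mh N d n r := by
  obtain ⟨s, rfl⟩ : ∃ s, n = r + s := ⟨n - r, by omega⟩
  have h0 : ∀ q : ℤ, q ≠ s → q ≠ r → (Wc h r).h q = 0 := fun q h1 h2 => by
    have := Wc_h h (p := r) (q := q) (by omega)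
    rwa [if_neg (by omega), Nat.le_zero] at this
  have h1 := Wc_chi h r
  rw [coe_degL, ← cz_nat, cz_eq, dm_map hn, if_pos (by omega), sn_add, sn_nat, sn_nat,
    pow_add] at h1
  have h3 : ((-1 : ℤ) ^ r) * (-1) ^ r = 1 := by rw [← mul_pow]; simp
  have h4 : ((-1 : ℤ) ^ s) * (-1) ^ s = 1 := by rw [← mul_pow]; simp
  rw [mh, show ((r + s : ℕ) : ℤ) - r = s by omega]
  split_ifs with e
  · obtain rfl : s = r := by omega
    rw [Cx.chi_eq_sum {(s : ℤ)} fun q hq => h0 q (by simpa using hq) (by simpa using hq),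
      Finset.sum_singleton, Int.coe_negOnePow_natCast] at h1
    linear_combination (-1) ^ s * h1 + (1 + (1 + (-1) ^ s * (-1) ^ s) * hp N _ s - _) * h4
  · rw [Cx.chi_eq_sum {(s : ℤ), (r : ℤ)} fun q hq => h0 q (by simp at hq; omega)
      (by simp at hq; omega), Finset.sum_pair (by omega), Int.coe_negOnePow_natCast,
      Int.coe_negOnePow_natCast, Wc_diag h hπ hn hb hr e] at h1
    push_cast at h1
    linear_combination (-1) ^ s * h1 + ((-1) ^ s * (-1) ^ s * hp N _ r) * h3 + (hp N _ r - _) * h4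

include h in
theorem sum_mh : ∑ r ∈ Finset.range (n + 1), mh N d n r = finrank ℂ (P291Z.H.deg X n) := by
  rw [finrank_mid h hπ hn hb, card_eig]
  push_cast
  rw [card_ms h.pos_map, dm_map hn]
  simp only [mh, Finset.sum_add_distrib]
  rw [add_comm]
  congr 1
  · split_ifs with e
    · obtain ⟨k, rfl⟩ := e
      rw [Finset.sum_eq_single_of_mem k (by simp) fun i _ hi => if_neg (by omega),
        if_pos (by omega)]
    · exact Finset.sum_eq_zero fun i _ => if_neg fun e' => e ⟨i, by omega⟩
  · refine Finset.sum_bij (fun r _ => (r : ℤ)) (fun r hr => by simpa using hr)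
      (fun _ _ _ _ e => Nat.cast_injective e) (fun r hr => ?_) fun _ _ => rfl
    simp only [Finset.mem_Icc] at hr
    exact ⟨r.toNat, by simp; omega, by omega⟩

theorem FH_lower {r : ℕ} (hr : r ≤ n + 1) : (finrank ℂ (P291Z.H.deg X n) : ℤ) ≤
    finrank ℂ (FH h hπ true r n) + ∑ i ∈ Finset.range r, mh N d n i := by
  have := deg_le h hπ n r
  rw [← Finset.sum_congr rfl fun i hi => Wc_mid h hπ hn hb (r := i) (by simp at hi; omega)]
  exact_mod_cast this

theorem FH_lower' (s : Bool) {r : ℕ} (hr : r ≤ n + 1) : (finrank ℂ (P291Z.H.deg X n) : ℤ) ≤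
    finrank ℂ (FH h hπ s r n) + ∑ i ∈ Finset.range r, mh N d n i := by
  cases s
  · have c : Cj F fun j => MvPolynomial.map (starRingEnd ℂ) (F j) := fun _ => rfl
    have h1 := FH_lower (c.isCI h) (c.isProj hπ) hn hb hr
    have h2 := c.symm.finrank_le (c.isCI h) h (c.isProj hπ) hπ true r n
    rw [Bool.not_true] at h2
    omega
  · exact FH_lower h hπ hn hb hr

/-- Complementary steps of the Hodge filtrations have complementary dimensions. -/
theorem FH_count (s : Bool) {r r' : ℕ} (e : r + r' = n + 1) : finrank ℂ (P291Z.H.deg X n) ≤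
    finrank ℂ (FH h hπ true r n) + finrank ℂ (FH h hπ s r' n) := by
  have h1 := FH_lower h hπ hn hb (r := r) (by omega)
  have h2 := FH_lower' h hπ hn hb s (r := r') (by omega)
  have h3 := sum_mh h hπ hn hb
  rw [← e, Finset.sum_range_add, ← Finset.sum_range_reflect (fun i => mh N d n (r + i)),
    Finset.sum_congr (s₁ := Finset.range r') rfl (g := fun i => mh N d n i) fun i hi => by
      have := Finset.mem_range.1 hi
      rw [show r + (r' - 1 - i) = n - i by omega, mh_symm h hn (by omega)]] at h3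
  omega

end Vale.Agent.P269.Hdx
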