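import Vale.Agent.P269.Hdg.Filt

/-!
# The analytic input of the Hodge decomposition
-/

namespace Vale.Agent.P269.Hdx

open Vale.Agent.P269.Hdg

/-- There is an integration functional `I` on forms, vanishing on forms that restrict to zero and
on exact forms of top degree, not zero in top degree, for which a `∂`-exact and `\bar ∂`-closed
pure form is orthogonal to all `\bar ∂`-closed pure forms. -/
def Key {N : ℕ} {ι : Type} [Fintype ι] (F : ι → MP N) (n : ℕ) : Prop :=
  ∃ I : SM N →ₗ[ℂ] ℂ, (∀ u ∈ Nl F, I u = 0) ∧ (∀ u ∈ Ak (2 * (n : ℤ) - 1), I (DD u) = 0) ∧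
    (∃ u ∈ Ak (2 * (n : ℤ)), I u ≠ 0) ∧
    ∀ p q p' q' : ℤ, ∀ g ∈ Om p q, ∀ b ∈ Om p' q', DB false (DB true g) ∈ Nl F →
      DB false b ∈ Nl F → I (ML (DB true g) b) = 0

end Vale.Agent.P269.Hdx
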