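import Vale.Agent.P269.Hdx.ED
import Vale.Agent.P269.Hdx.KeyD

/-!
# The Hodge decomposition of a complete intersection, from the analytic input
-/

namespace Vale.Agent.P269.Hdx

open Vale.Agent.P269.Hdg Module Filter

theorem perp_le {M : Type} [AddCommGroup M] [Module ℂ M] {U U' V : Submodule ℂ M}
    [FiniteDimensional ℂ V] (B : M →ₗ[ℂ] M →ₗ[ℂ] ℂ) (hU : U ≤ V) (hU' : U' ≤ V)
    (nd : ∀ c ∈ V, (∀ v ∈ V, B c v = 0) → c = 0) (h0 : ∀ c ∈ U', ∀ u ∈ U, B c u = 0)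
    (hd : finrank ℂ V ≤ finrank ℂ U' + finrank ℂ U) {c : M} (hc : c ∈ V)
    (h1 : ∀ u ∈ U, B c u = 0) : c ∈ U' := by
  let B' : V →ₗ[ℂ] Dual ℂ V := B.domRestrict₁₂ V V
  have inj : Function.Injective B' := (injective_iff_map_eq_zero _).2 fun c e =>
    Subtype.ext (nd c c.2 fun v hv => LinearMap.congr_fun e ⟨v, hv⟩)
  let K := (U.comap V.subtype).dualAnnihilator.comap B'
  have h2 : finrank ℂ K ≤ finrank ℂ (U.comap V.subtype).dualAnnihilator :=
    LinearMap.finrank_le_finrank_of_injective (f := B'.restrict fun _ hx => hx)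
      fun x y e => Subtype.ext (inj (congrArg Subtype.val e))
  have h3 := Subspace.finrank_add_finrank_dualAnnihilator_eq (U.comap V.subtype)
  have h4 := (Submodule.comapSubtypeEquivOfLe hU).finrank_eq
  have h5 := (Submodule.comapSubtypeEquivOfLe hU').finrank_eq
  have h6 : U'.comap V.subtype = K := Submodule.eq_of_le_of_finrank_le
    (fun x hx => (Submodule.mem_dualAnnihilator _).2 fun u hu => h0 _ hx _ hu) (by omega)
  have h7 : (⟨c, hc⟩ : V) ∈ K := (Submodule.mem_dualAnnihilator _).2 fun u hu => h1 _ hu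
  rwa [← h6] at h7

theorem sup_eq_of {M : Type} [AddCommGroup M] [Module ℂ M] {U U' V : Submodule ℂ M}
    [FiniteDimensional ℂ V] (hU : U ≤ V) (hU' : U' ≤ V) (h0 : U ⊓ U' = ⊥)
    (hd : finrank ℂ V ≤ finrank ℂ U + finrank ℂ U') : U ⊔ U' = V := by
  have := Submodule.finiteDimensional_of_le hU
  have := Submodule.finiteDimensional_of_le hU'
  have h1 := Submodule.finrank_sup_add_finrank_inf_eq U U'
  rw [h0, finrank_bot] at h1
  exact Submodule.eq_of_le_of_finrank_le (sup_le hU hU') (by omega)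

variable {N : ℕ} {p q k : ℤ} {u v : SM N}

theorem PT_DD (p q : ℤ) (u : SM N) {x : E N} (hx : x ≠ 0) : (PT p q (DD u)).1 x =
    (DB true (PT (p - 1) q u)).1 x + (DB false (PT p (q - 1) u)).1 x := by
  have h1 := pt_db (s := true) (L := idE) (p - 1) q (u.df hx)
  have h2 := pt_db (s := false) (L := idE) p (q - 1) (u.df hx)
  simp only [dl_self, dl_ft, dl_tf, sub_add_cancel, add_zero] at h1 h2
  rw [PT_apply, DD_apply _ hx, dd, map_add, h1, h2, DB_apply _ _ hx, DB_apply _ _ hx]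
  rfl

theorem sub_PT (hu : u ∈ Fk true p k) : u - PT p (k - p) u ∈ Fk true (p + 1) k := by
  refine ⟨sub_mem hu.1 (PT_Ak hu.1 _ _), fun p' q' e x hx => ?_⟩
  rw [Submodule.coe_sub, Pi.sub_apply, map_sub, PT_apply, pt_of_mem (pt_mem _ _ _)]
  split_ifs with e'
  · rw [e'.1, e'.2, sub_self]
  · rw [sub_zero]
    by_cases e'' : p' + q' = k
    · exact hu.2 p' q' (by simp only [cond_true] at e ⊢; omega) x hx
    · exact pt_of_Dg (hu.1.2 x hx) e''

theorem Ak_split (e : p + q = k + 1) (hu : u ∈ Ak k) : u ∈ Fk true p k ⊔ Fk false q k :=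
  Ak_ind _ (fun _ h => Submodule.mem_sup_left (Fk_of_zero h)) (fun p' q' e' u hu => by
    by_cases h : p ≤ p'
    · exact Submodule.mem_sup_left (Om_le_Fk hu e' h)
    · exact Submodule.mem_sup_right (Om_le_Fk hu e' (by simp only [cond_false]; omega))) hu

variable {ι : Type} [Fintype ι] {F : ι → MP N} {d : ι → ℕ}

theorem PT_Nl (hu : u ∈ Nl F) (p q : ℤ) : PT p q u ∈ Nl F := fun y hy =>
  ann_pl_pt _ y (hu y hy) p q

theorem Nl_congr (hu : u ∈ Nl F) (e : ∀ x ≠ 0, v.1 x = u.1 x) : v ∈ Nl F := fun y hy =>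
  e y hy.1 ▸ hu y hy

theorem ML_Nl (hu : u ∈ Nl F) (v : SM N) : ML u v ∈ Nl F := fun y hy => ann_mul_right (hu y hy) _

theorem sub_PT_Nl (e : p + q = k) (hu : u ∈ Fk true p k) (hv : v ∈ Fk false q k)
    (h0 : u - v ∈ Nl F) : u - PT p q u ∈ Nl F := fun y hy => by
  rw [Submodule.coe_sub, Pi.sub_apply, PT_apply, ← sum_pt (u.1 y - _)]
  refine sum_mem fun i _ => sum_mem fun j _ => ?_
  rw [map_sub, pt_of_mem (pt_mem _ _ _)]
  split_ifs with e'
  · rw [e'.1, e'.2, sub_self]; exact zero_mem _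
  rw [sub_zero]
  by_cases h1 : i + j = k
  · by_cases h2 : i < p
    · rw [hu.2 i j h2 y hy.1]; exact zero_mem _
    · have := ann_pl_pt _ y (h0 y hy) i j
      rwa [Submodule.coe_sub, Pi.sub_apply, map_sub,
        hv.2 i j (by simp only [cond_false]; omega) y hy.1, sub_zero] at this
  · rw [pt_of_Dg (hu.1.2 y hy.1) h1]; exact zero_mem _

variable [DecidableEq ι] (h : IsCI F d)
include h

theorem DB_Nl (s : Bool) (hu : u ∈ Nl F) : DB s u ∈ Nl F := fun _ hy =>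
  stab_DB h s h.dualL_full (mem_fullL _) u hy (Eventually.of_forall hu)

theorem DD_Nl (hu : u ∈ Nl F) : DD u ∈ Nl F := add_mem (DB_Nl h true hu) (DB_Nl h false hu)

omit h [DecidableEq ι] in
theorem DB_low (hu : u ∈ Fk true p k) (hd : DD u ∈ Nl F) (q : ℤ) :
    DB false (PT p q u) ∈ Nl F :=
  Nl_congr (PT_Nl hd p (q + 1)) fun x hx => by
    rw [PT_DD _ _ _ hx, add_sub_cancel_right,
      DB_of_zero true (fun y hy => hu.2 _ _ (by simp) y hy) hx, zero_add]

theorem mem_Z : u ∈ (Ac h).Z k ↔ u ∈ Ak k ∧ DD u ∈ Nl F := dR_Z h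

theorem mem_B : u ∈ (Ac h).B k ↔ ∃ w ∈ Ak (k - 1), u - DD w ∈ Nl F := dR_B h

variable {X : Type} [TopologicalSpace X] {π : cone F → X} (hπ : IsProj π) {c : P291Z.H X}

/-- A class in `F^p` and in the conjugate of `F^q` has Hodge type `(p, q)`. -/
theorem isHodge_of_FH {p q : ℕ} (e : (p : ℤ) + q = k) (h1 : c ∈ FH h hπ true p k)
    (h2 : c ∈ FH h hπ false q k) : IsHodge F π p q c := by
  obtain rfl : k = (p + q : ℕ) := by omega
  obtain ⟨a, ha, h3, rfl⟩ := (mem_FH h hπ).1 h1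
  obtain ⟨b, hb, h4, e'⟩ := (mem_FH h hπ).1 h2
  obtain ⟨w, hw, h5⟩ := (mem_B h).1 ((Cx.cl_eq_cl ha hb).1 (cmp_inj h hπ e'.symm))
  obtain ⟨w', hw', w'', hw'', rfl⟩ := Submodule.mem_sup.1 (Ak_split (p := p) (q := q) (by omega) hw)
  have h6 : a - DD w' ∈ Fk true p (p + q : ℕ) := sub_mem h3 (by simpa using DD_Fk hw')
  have h7 := sub_PT_Nl e h6 (add_mem h4 (by simpa using DD_Fk hw''))
    (mem_of_eq h5 (by rw [map_add]; abel))
  have h8 : DD (a - DD w') ∈ Nl F := by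
    rw [map_sub]
    exact sub_mem ((mem_Z h).1 ha).2 (Z0_le_Nl fun x hx => DD_DD _ hx)
  have h9 : PT p q (a - DD w') ∈ (Ac h).Z (p + q : ℕ) := (mem_Z h).2 ⟨PT_Ak h6.1 _ _,
    mem_of_eq (sub_mem h8 (DD_Nl h h7)) (by rw [map_sub DD (a - DD w'), sub_sub_cancel])⟩
  rw [(Cx.cl_eq_cl ha h9).2 ((mem_B h).2 ⟨w', hw'.1, mem_of_eq h7 (sub_right_comm _ _ _)⟩)]
  exact isHodge_cmp h hπ h9 (h6.1.1 p q)

variable {n : ℕ} (hn : n + Fintype.card ι = N) {I : SM N →ₗ[ℂ] ℂ} (I0 : ∀ u ∈ Nl F, I u = 0)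
  (I1 : ∀ u ∈ Ak (2 * (n : ℤ) - 1), I (DD u) = 0)
include hn I0 I1

theorem cmp_top (h1 : 1 ≤ n) (I2 : ∃ u ∈ Ak (2 * (n : ℤ)), I u ≠ 0) (hk : k = 2 * n)
    (hu : u ∈ (Ac h).Z k) (h0 : I u = 0) : cmp h hπ k (Cx.cl u hu) = 0 := by
  subst hk
  obtain ⟨v, hv, h2⟩ := I2
  have h3 : v ∈ (Ac h).Z (2 * n) := (mem_Z h).2 ⟨hv, Ak_Nl h (by omega) (DD_Ak hv)⟩
  have h4 : ∀ w : SM N, w ∈ (Ac h).B (2 * n) → I w = 0 := fun w hw => by
    obtain ⟨z, hz, e⟩ := (mem_B h).1 hw
    have := I0 _ e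
    rwa [map_sub, I1 z hz, sub_zero] at this
  obtain ⟨t, ht⟩ := deg_smul h hπ hn (k := 2 * n) (by omega)
    ((cmp_range h hπ).1 ⟨Cx.cl v h3, rfl⟩) (fun e => h2 (h4 v ((Cx.cl_eq_zero h3).1
      (cmp_inj h hπ (e.trans (map_zero _).symm))))) ((cmp_range h hπ).1 ⟨Cx.cl u hu, rfl⟩)
  have h5 := h4 (u - t • v) ((Cx.cl_eq_cl hu (Submodule.smul_mem _ t h3)).1
    (cmp_inj h hπ (ht.trans (map_smul _ _ _).symm)))
  rw [map_sub, map_smul, h0, zero_sub, neg_eq_zero, smul_eq_zero] at h5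
  rw [ht, h5.resolve_right h2, zero_smul]

theorem I_mul (I3 : ∀ p q p' q' : ℤ, ∀ g ∈ Om p q, ∀ b ∈ Om p' q', DB false (DB true g) ∈ Nl F →
      DB false b ∈ Nl F → I (ML (DB true g) b) = 0) (e : p + q = n) {a a' w b : SM N}
    (ha : a ∈ Fk true p n) (hd : DD a ∈ Nl F) (ha' : a' ∈ Fk false (q + 1) n) (hw : w ∈ Ak (n - 1))
    (h0 : a - a' - DD w ∈ Nl F) (hb : b ∈ Fk true q n) (hd' : DD b ∈ Nl F) : I (ML a b) = 0 := by
  have h1 : PT p q a - DB true (PT (p - 1) q w) - DB false (PT p (q - 1) w) ∈ Nl F :=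
    Nl_congr (PT_Nl h0 p q) fun x hx => by
      simp only [map_sub, Submodule.coe_sub, Pi.sub_apply]
      rw [PT_DD _ _ _ hx, PT_apply p q a', ha'.2 p q (by simp) x hx, sub_zero, sub_sub]
  have h2 := DB_low hb hd' p
  have h3 : DB false (DB true (PT (p - 1) q w)) ∈ Nl F := by
    have := sub_mem (sub_mem (DB_low ha hd q) (DB_Nl h false h1))
      (Z0_le_Nl (u := DB false (DB false (PT p (q - 1) w))) fun x hx => DB_DB_self false _ hx)
    refine mem_of_eq this ?_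
    rw [map_sub, map_sub]; abel
  have h4 := I3 _ _ _ _ _ (hw.1 _ _) _ (hb.1.1 q p) h3 h2
  have h5 := ML_Om (hw.1 p (q - 1)) (hb.1.1 q p)
  have h6 : ML (DB false (PT p (q - 1) w)) (PT q p b) - DD (ML (PT p (q - 1) w) (PT q p b)) ∈
      Nl F := fun y hy => by
    have := Om_ann h (DB_Om' h5) (by omega) hy
    rw [DD, LinearMap.add_apply, Submodule.coe_sub, Pi.sub_apply, Submodule.coe_add, Pi.add_apply,
      DB_apply false (ML _ _) hy.1, show (ML (PT p (q - 1) w) (PT q p b)).1 =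
        fun z => (PT p (q - 1) w).1 z * (PT q p b).1 z from rfl,
      db_mul (SM.df _ hy.1) (SM.df _ hy.1), ← DB_apply _ _ hy.1, ← DB_apply _ _ hy.1, ML_apply]
    exact mem_of_eq (neg_mem (add_mem this (ann_mul_left (h2 y hy) _))) (by abel)
  have h7 := I0 _ h6
  rw [map_sub, I1 _ (by
    have := Om_le_Ak h5
    rwa [show p + q + (q - 1 + p) = 2 * n - 1 by omega] at this), sub_zero] at h7
  have h8 := sub_PT ha
  have h9 := sub_PT hb
  rw [show n - p = q by omega] at h8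
  rw [show n - q = p by omega] at h9
  have e1 := I0 _ (Fk_Nl h (by omega) (ML_Fk h8 hb))
  have e2 := I0 _ (Fk_Nl h (by omega)
    (ML_Fk (Om_le_Fk (s := true) (r := p) (ha.1.1 p q) e le_rfl) h9))
  have e3 := I0 _ (ML_Nl h1 (PT q p b))
  have e4 : ML a b = ML (a - PT p q a) b + ML (PT p q a) (b - PT q p b) +
      ML (PT p q a - DB true (PT (p - 1) q w) - DB false (PT p (q - 1) w)) (PT q p b) +
      ML (DB true (PT (p - 1) q w)) (PT q p b) + ML (DB false (PT p (q - 1) w)) (PT q p b) :=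
    Subtype.ext (funext fun y => by
      simp only [Submodule.coe_sub, Submodule.coe_add, Pi.sub_apply, Pi.add_apply, ML_apply]
      noncomm_ring)
  rw [e4]
  simp only [map_add, e1, e2, e3, h4, h7, add_zero]

omit I0 I1
variable (hK : 1 ≤ n → Key F n) {J : P291Z.H X →ₗ[ℂ] ℂ}
  (hJ : ∀ k c, k ≠ 2 * (n : ℤ) → P291Z.H.IsDeg k c → J c = 0)
  (pd : ∀ c, (∀ c', J (c * c') = 0) → c = 0)
  (hb : ∀ j ≤ n, ∃ c : P291Z.H X, P291Z.H.IsDeg (2 * j : ℕ) c ∧ c ≠ 0)
include hK hJ pd hb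

omit hK in
/-- `F^{p+1}` is the orthogonal complement of `F^{n-p}`. -/
theorem mem_FH_of_perp {p q : ℕ} (e : p + q = n) (hc : P291Z.H.IsDeg n c)
    (h0 : ∀ b ∈ FH h hπ true q n, c * b = 0) : c ∈ FH h hπ true (p + 1) n := by
  have := fin_deg h hπ n
  refine perp_le (V := P291Z.H.deg X n) (U := FH h hπ true q n)
    ((LinearMap.mul ℂ _).compr₂ J) (fun _ => FH_deg) (fun _ => FH_deg)
    (fun a ha h1 => pd a fun b => ?_) (fun a ha b hb => ?_)
    (FH_count h hπ hn hb true (r := p + 1) (by omega)) hc fun b hb => ?_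
  · refine P291Z.H.induction_deg (P := fun b => J (a * b) = 0) b (by simp)
      (fun b b' e e' => by rw [mul_add, map_add, e, e', add_zero]) fun k => ?_
    by_cases hk : k = n
    · exact h1 _ (hk ▸ P291Z.H.isDeg_comp k b)
    · exact hJ _ _ (by omega) (P291Z.H.IsDeg.mul ha (P291Z.H.isDeg_comp k b))
  · change J (a * b) = 0
    rw [FH_big (by omega) (FH_mul ha hb), map_zero]
  · change J (c * b) = 0
    rw [h0 b hb, map_zero]

/-- The Hodge filtration and its conjugate are opposed. -/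
theorem FH_inf (m : ℕ) {p : ℕ} (e : p + m = n + 1) (h1 : c ∈ FH h hπ true p n)
    (h2 : c ∈ FH h hπ false m n) : c = 0 := by
  induction m generalizing p with
  | zero => exact FH_big (by omega) h1
  | succ q ih =>
    by_cases hp : p = 0
    · exact FH_big (by omega) h2
    obtain ⟨I, I0, I1, I2, I3⟩ := hK (by omega)
    refine ih (p := p + 1) (by omega) (mem_FH_of_perp h hπ hn hJ pd hb (q := q) (by omega)
      (FH_deg h1) fun b hb => ?_) (FH_mono (by omega) h2)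
    obtain ⟨a, ha, h3, rfl⟩ := (mem_FH h hπ).1 h1
    obtain ⟨a', ha', h4, e'⟩ := (mem_FH h hπ).1 h2
    obtain ⟨w, hw, h5⟩ := (mem_B h).1 ((Cx.cl_eq_cl ha ha').1 (cmp_inj h hπ e'.symm))
    obtain ⟨b, hb', h6, rfl⟩ := (mem_FH h hπ).1 hb
    rw [← cmp_mul]
    exact cmp_top h hπ hn I0 I1 (by omega) I2 (by ring) _
      (I_mul h hn I0 I1 I3 (by omega) h3 ((mem_Z h).1 ha).2 h4 hw h5 h6 ((mem_Z h).1 hb').2)

theorem disjoint_of_key {p q : ℤ} (e : p + q = n + 1) :
    Disjoint (FH h hπ true p n) (FH h hπ false q n) :=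
  Submodule.disjoint_def.2 fun c h1 h2 => by
    by_cases hp : p < 0
    · exact FH_big (by omega) h2
    by_cases hq : q < 0
    · exact FH_big (by omega) h1
    lift p to ℕ using by omega
    lift q to ℕ using by omega
    exact FH_inf h hπ hn hK hJ pd hb q (by omega) h1 h2

omit hK hJ pd
variable (hO : ∀ p q : ℤ, p + q = n + 1 → Disjoint (FH h hπ true p n) (FH h hπ false q n))
include hO

theorem mid_span (m : ℕ) {p : ℕ} (e : p + m = n + 1) (h1 : c ∈ FH h hπ true p n) :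
    c ∈ Submodule.span ℂ {c | ∃ p q, IsHodge F π p q c} := by
  induction m generalizing p c with
  | zero => rw [FH_big (by omega) h1]; exact zero_mem _
  | succ q ih =>
    have := fin_deg h hπ n
    have h2 := sup_eq_of (V := P291Z.H.deg X n) (fun _ => FH_deg) (fun _ => FH_deg)
      (hO (p + 1 : ℕ) q (by omega)).eq_bot
      (FH_count h hπ hn hb false (r := p + 1) (r' := q) (by omega))
    obtain ⟨a, ha, b, hb', rfl⟩ := Submodule.mem_sup.1 (h2.ge (FH_deg h1))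
    refine add_mem (ih (by omega) ha) (Submodule.subset_span ⟨p, q, isHodge_of_FH h hπ
      (by omega) ?_ hb'⟩)
    exact mem_of_eq (sub_mem h1 (FH_mono (by omega) ha)) (add_sub_cancel_left _ _).symm

omit hb in
/-- **The Hodge decomposition**: cohomology has a basis of classes of pure Hodge type. -/
theorem exists_basis {l : P291Z.H X} (hl : Is11 h hπ l) (h0 : l ^ n ≠ 0) :
    ∃ (B : ℕ) (φ : Basis (Fin B) ℂ (P291Z.H X)) (p q : Fin B → ℕ),
      ∀ a, IsHodge F π (p a) (q a) (φ a) := by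
  have h1 : ∀ j ≤ n, l ^ j ≠ 0 := fun j hj e => h0 (by
    rw [← Nat.add_sub_cancel' hj, pow_add, e, zero_mul])
  have h2 : ∀ j : ℕ, P291Z.H.IsDeg (2 * j) (l ^ j) := fun j => FH_deg (FH_pow (hl true) j)
  have h3 : ⊤ ≤ Submodule.span ℂ {c | ∃ p q, IsHodge F π p q c} := fun c _ => by
    refine P291Z.H.induction_deg c (zero_mem _) (fun _ _ => add_mem) fun k => ?_
    have hk := P291Z.H.isDeg_comp k c
    by_cases e : k = n
    · exact mid_span h hπ hn (fun j hj => ⟨_, by simpa using h2 j, h1 j hj⟩) hO (n + 1)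
        (p := 0) (by omega) (FH_of_deg (by simp) (e ▸ hk))
    rcases Int.even_or_odd k with ⟨j, rfl⟩ | e'
    swap
    · rw [deg_odd h hπ hn e e' hk]; exact zero_mem _
    by_cases h4 : j < 0
    · rw [hk.eq_zero (by omega)]; exact zero_mem _
    by_cases h5 : (n : ℤ) < j
    · rw [deg_big h hπ hn (by omega) hk]; exact zero_mem _
    lift j to ℕ using by omega
    obtain ⟨t, ht⟩ := deg_smul h hπ hn e (two_mul (j : ℤ) ▸ h2 j) (h1 j (by omega)) hk
    rw [ht]
    exact Submodule.smul_mem _ _ (Submodule.subset_span ⟨j, j, isHodge_of_FH h hπ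
      (two_mul _).symm (FH_pow (hl true) j) (FH_pow (hl false) j)⟩)
  have := fin_H h hπ hn
  let b := Basis.ofSpan h3
  have := FiniteDimensional.fintypeBasisIndex b
  have h4 : ∀ a, ∃ p q, IsHodge F π p q (b a) := fun a =>
    Basis.ofSpan_subset h3 ⟨a, rfl⟩
  choose p q h5 using h4
  exact ⟨_, b.reindex (Fintype.equivFin _), _, _, fun a => by
    rw [Basis.reindex_apply]; exact h5 _⟩

end Vale.Agent.P269.Hdx
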