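import Vale.Agent.P269.Hdx.EE
import Vale.Agent.P269.Br.Hg
import Vale.Agent.P269.Pub.HdgEx

/-!
# Hodge bases of the complete intersections of the statement
-/

set_option linter.style.haveILetI false

namespace Vale.Agent.P269

open P291Z Hdg Hdx Br.Hg Module

theorem St.hdgEx_of' (hO : ∀ (N c : ℕ) (d : Fin c → ℕ) (F : Fin c → MP N) (h : SmCI F d),
    (ci F).cone.Nonempty → ∀ p q : ℤ, p + q = (N - c : ℕ) + 1 →
      Disjoint (FH (isCI h) (isProj_prj (d := d)) true p (N - c : ℕ))
        (FH (isCI h) isProj_prj false q (N - c : ℕ))) : St.HdgEx := fun N c d F h hne => by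
  obtain ⟨B, φ, p, q, hφ⟩ := exists_basis (isCI h) isProj_prj (card_eq h hne) (hO N c d F h hne)
    (is11 h) fun e => (lf h hne).norm _ rfl (by rw [e, map_zero])
  let e := LinearEquiv.ofBijective (ciH F d).toLinearMap ciH_bij
  refine ⟨B, φ.map e.symm, p, q, fun a => isHodge_ci.2 ?_⟩
  let f : C((ci F).X, (ciF F d).X (ciF F d).cone) :=
    ⟨_, ((ci F).xi fun k _ => d k).symm.continuous⟩
  have h1 := isHodge_map (π := piC F) (π' := Br.Hg.prj d F) f (fun _ => rfl) (hφ a)
  have h2 : φ.map e.symm a = H.map f (φ a) := by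
    rw [Basis.map_apply, LinearEquiv.symm_apply_eq]
    exact ((H.map_map _ _ _).trans (H.map_id ((ci F).xi fun k _ => d k).symm_apply_apply _)).symm
  rwa [h2]

/-- Hodge bases exist if the Hodge filtration is opposed to its conjugate. -/
theorem St.hdgEx_of (hO : ∀ {N : ℕ} {ι : Type} [Fintype ι] [DecidableEq ι] {F : ι → MP N}
    {d : ι → ℕ} (h : IsCI F d) {n : ℕ}, n + Fintype.card ι = N →
    ∀ {X : Type} [TopologicalSpace X] {π : cone F → X} (hπ : IsProj π) {k p q : ℤ},
      p + q = k + 1 → Disjoint (FH h hπ true p k) (FH h hπ false q k)) : St.HdgEx :=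
  St.hdgEx_of' fun _ _ _ _ h hne _ _ e => hO (isCI h) (card_eq h hne) isProj_prj e

/-- Hodge bases exist if the analytic input holds. -/
theorem St.hdgEx_of_key (hK : ∀ {N : ℕ} {ι : Type} [Fintype ι] [DecidableEq ι] {F : ι → MP N}
    {d : ι → ℕ}, IsCI F d → ∀ {n : ℕ}, n + Fintype.card ι = N → 1 ≤ n → Key F n) : St.HdgEx :=
  St.hdgEx_of' fun N c _ _ h hne _ _ e => disjoint_of_key (isCI h) isProj_prj (card_eq h hne)
    (hK (isCI h) (card_eq h hne)) (J := (ps h).J) (fun k x hk hx => (ps h).pd.deg k hk x hx)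
    (fun x hx => (ps h).ext_left fun y => by rw [hx, zero_mul, map_zero])
    (fun j (hj : j ≤ N - c) => (lf h hne).exists_ne (j := j) (Nat.cast_le.2 hj)) e

end Vale.Agent.P269
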