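import Vale.Agent.P269.Hdg.Filt

/-!
# P269, Hodge decomposition: the Fubini-Study form
-/

namespace Vale.Agent.P269.Hdx

open Hdg Set Filter Topology
open scoped ComplexConjugate ContDiff ComplexOrder
open Complex (I)

namespace FS

variable {N : ℕ} {x : E N}

/-- The hermitian product with `y`. -/
noncomputable def hp (y : E N) : E N →L[ℂ] ℂ := ∑ j, conj (y j) • ContinuousLinearMap.proj j

theorem hp_apply (y v : E N) : hp y v = ∑ j, conj (y j) * v j := by simp [hp]

theorem hp_self (y : E N) : hp y y = nu y := by simp [hp_apply, nu, mul_comm]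

theorem conj_nu (y : E N) : conj (nu y) = nu y := by simp [nu, mul_comm]

theorem nu_sub (v x : E N) (t : ℂ) :
    nu (v - t • x) = nu v - t * conj (hp x v) - conj t * hp x v + t * conj t * nu x := by
  simp only [nu, hp_apply, map_sum, Finset.mul_sum, ← Finset.sum_sub_distrib,
    ← Finset.sum_add_distrib]
  refine Finset.sum_congr rfl fun j _ => ?_
  simp only [Pi.sub_apply, Pi.smul_apply, smul_eq_mul, map_sub, map_mul, Complex.conj_conj]
  ring

/-- The form `\bar ∂ ν`. -/
noncomputable def bt : E N →L[ℝ] Λ N := ∑ j, (dz true j).smulRight (io (dz false j))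

theorem bt_apply (y : E N) : bt y = ∑ j, dz true j y • io (dz false j) := by simp [bt]

theorem bt_eq (y : E N) : bt y = io (cv false (hp y)) := by
  rw [bt_apply, cv_eq_sum, map_sum]
  simp [hp_apply, ee, Pi.single_apply]

theorem fd_nu (x : E N) : HasFDerivAt nu (cv true (hp x) + cv false (hp x)) x := by
  have h := HasFDerivAt.fun_sum (u := Finset.univ) fun j _ =>
    (dz true j).hasFDerivAt.fun_mul ((dz false j).hasFDerivAt (x := x))
  refine (h.congr_fderiv ?_).congr_of_eventuallyEq (.of_forall fun y => by simp [nu])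
  ext v
  simp [hp_apply, Finset.sum_add_distrib, add_comm]

theorem sm_inv (hx : x ≠ 0) : ContDiffAt ℝ ∞ (fun y => (nu y)⁻¹) x :=
  (contDiffAt_nu x).inv (nu_pos hx).ne'

/-- The form `\bar ∂ log ν`. -/
noncomputable def th (N : ℕ) : SM N :=
  ⟨fun y => (nu y)⁻¹ • bt y, fun _ hx => sm_smul (sm_inv hx) bt.contDiff.contDiffAt⟩

theorem db_th (s : Bool) (hx : x ≠ 0) : (DB s (th N)).1 x =
    (nu x)⁻¹ • ∑ j, io (pr s (dz true j)) * io (dz false j) -
      (nu x ^ 2)⁻¹ • (io (cv s (hp x)) * bt x) := by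
  have h : HasFDerivAt (fun y => (nu y)⁻¹) _ x :=
    (hasDerivAt_inv (nu_pos hx).ne').comp_hasFDerivAt x (fd_nu x)
  rw [DB_apply _ _ hx, th, db_smul h.differentiableAt bt.differentiableAt, h.fderiv, db_id,
    bt.fderiv, al_of_eq s _ _ _ bt_apply, ContinuousLinearMap.comp_id, map_smul, map_add, pr_cv,
    pr_cv, add_comm, sub_eq_add_neg, map_smul, smul_mul_assoc, neg_smul]
  cases s <;> simp

theorem db_false : DB false (th N) = 0 := Subtype.ext (funext fun x => by
  by_cases hx : x = 0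
  · exact if_pos hx
  · rw [db_th _ hx, bt_eq, io_sq]
    simp [dz, pr_cv])

theorem db_true (hx : x ≠ 0) : (DB true (th N)).1 x =
    (nu x)⁻¹ • ∑ j, io (dz true j) * io (dz false j) -
      (nu x ^ 2)⁻¹ • (io (cv true (hp x)) * io (cv false (hp x))) := by
  rw [db_th _ hx, bt_eq]
  simp [dz, pr_cv]

theorem ct_true (hx : x ≠ 0) (v : E N) : ct (vec true v) ((DB true (th N)).1 x) =
    (nu x)⁻¹ • io (cv false (hp v)) - ((nu x ^ 2)⁻¹ * hp x v) • io (cv false (hp x)) := by
  rw [db_true hx, ← bt_eq v, bt_apply]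
  simp [ct_io_mul, ct_io, vec_dz, vec_cv, smul_smul]

theorem ct_false (hx : x ≠ 0) : ct (vec false x) ((DB true (th N)).1 x) = 0 := by
  have h := db_ct_euler true false ((th N).df hx)
  rw [db_congr (v := fun _ => 1) ((ne_zero_ev hx).mono fun y hy => by
    simp [th, bt_eq, ct_io, vec_cv, hp_self, conj_nu, smul_smul, (nu_pos hy).ne']), db_const] at h
  rw [DB_apply _ _ hx]
  simpa using h

theorem hm_th : Hm 0 (-1) (th N).1 := fun t x ht hx => by
  have hc : conj t ≠ 0 := by simpa
  have : bt (t • x) = t • bt x := by simp [bt_apply, Finset.smul_sum, smul_smul]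
  simp only [th, this, nu_smul, smul_smul]
  congr 1
  have := (nu_pos hx).ne'
  field_simp

theorem om : DB true (th N) ∈ Om 1 1 := by
  refine ⟨⟨fun x hx => ⟨?_, ct_false hx⟩, ?_⟩, fun x hx => ?_⟩
  · simpa using DB_ty (u := th N) (p := 0) (q := 1) true (fun y _ => Submodule.smul_mem _ _
      (by rw [bt_eq]; exact io_cv_mem_Ty false _)) hx
  · simpa using DB_hm true (hm_th (N := N))
  · have := (nu_pos hx).ne'
    rw [ct_true hx, hp_self, ← sub_smul, show (nu x)⁻¹ - (nu x ^ 2)⁻¹ * nu x = 0 by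
      field_simp; ring, zero_smul]

end FS

open FS in
theorem exists_fs (N : ℕ) : ∃ κ ∈ (Om 1 1 : Submodule ℂ (SM N)),
    (∀ s, ∀ x ≠ 0, (DB s κ).1 x = 0) ∧ ∀ x ≠ 0, ∀ v, (∀ t : ℂ, v ≠ t • x) →
      0 < -I * sca (ct (vec false v) (ct (vec true v) (κ.1 x))) := by
  refine ⟨I • DB true (th N), Submodule.smul_mem _ _ om, fun s x hx => ?_, fun x hx v hv => ?_⟩
  · rw [map_smul, Submodule.coe_smul, Pi.smul_apply]
    cases s
    · rw [DB_DB _ _ _ hx, db_false, map_zero]
      simp
    · rw [DB_DB_self _ _ hx, smul_zero]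
  · have h0 := (nu_pos hx).ne'
    refine (mul_pos (inv_pos.2 (nu_pos hx))
      (nu_pos (sub_ne_zero.2 (hv (hp x v / nu x))))).trans_eq ?_
    rw [Submodule.coe_smul, Pi.smul_apply, map_smul, map_smul, map_smul, ct_true hx, nu_sub,
      smul_eq_mul, ← mul_assoc, neg_mul, Complex.I_mul_I]
    simp only [map_sub, map_smul, ct_io, vec_cv, if_true, sg_false, hp_self, conj_nu, map_one,
      smul_eq_mul, map_div₀]
    field_simp
    ring

end Vale.Agent.P269.Hdx
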