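import Vale.Agent.P269.Hdx.PtB
import Vale.Agent.P269.Hdg.Filt

/-!
# P269, Hodge decomposition: pull-back of forms between spaces of different dimension
-/

namespace Vale.Agent.P269.Hdx

open Hdg Set Filter Topology
open scoped ComplexConjugate ContDiff ComplexOrder
open Complex (I)

variable {m N : ℕ}

/-- The transpose. -/
noncomputable def tq (L : E m →L[ℝ] E N) : W N →ₗ[ℂ] W m where
  toFun w := w.comp L
  map_add' a b := by ext; simp
  map_smul' c a := by ext; simp

/-- The pull-back along a linear map. -/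
noncomputable def mq (L : E m →L[ℝ] E N) : Λ N →ₐ[ℂ] Λ m := ExteriorAlgebra.map (tq L)

/-- The pull-back of a form. -/
noncomputable def pq (φ : E m → E N) (u : E N → Λ N) (y : E m) : Λ m := mq (fderiv ℝ φ y) (u (φ y))

theorem mq_io (L : E m →L[ℝ] E N) (w : W N) : mq L (io w) = io (tq L w) :=
  ExteriorAlgebra.map_apply_ι (tq L) w

theorem mq_mp (L : E m →L[ℝ] E N) (M : E N →L[ℝ] E N) (a : Λ N) :
    mq L (mp (tr M) a) = mq (M.comp L) a := by
  have := ExteriorAlgebra.map_comp_map (tr M) (tq L)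
  exact DFunLike.congr_fun this a

theorem mp_mq (L : E m →L[ℝ] E N) (T : E m →L[ℝ] E m) (a : Λ N) :
    mp (tr T) (mq L a) = mq (L.comp T) a := by
  have := ExteriorAlgebra.map_comp_map (tq L) (tr T)
  exact DFunLike.congr_fun this a

theorem sca_mq (L : E m →L[ℝ] E N) (a : Λ N) : sca (mq L a) = sca a := by
  induction a using ind with
  | one => simp
  | smul c a h => simp [h]
  | add a b ha hb => simp [ha, hb]
  | mul w a _ => simp [mq_io, sca_io]

namespace Pb

theorem tq_apply (L : E m →L[ℝ] E N) (w : W N) (v : E m) : tq L w v = w (L v) := rfl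

theorem vec_tq (s : Bool) (v : E m) (L : E m →L[ℂ] E N) (w : W N) :
    vec s v (tq (L.restrictScalars ℝ) w) = vec s (L v) w := by
  simp [vec_apply, tq_apply]

theorem pr_tq (s : Bool) (L : E m →L[ℂ] E N) (w : W N) :
    pr s (tq (L.restrictScalars ℝ) w) = tq (L.restrictScalars ℝ) (pr s w) := by
  ext v
  rw [pr_apply, tq_apply, pr_apply]
  exact vec_tq s v L w

theorem num_mq (s : Bool) (L : E m →L[ℂ] E N) (a : Λ N) :
    num s (mq (L.restrictScalars ℝ) a) = mq (L.restrictScalars ℝ) (num s a) := by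
  induction a using ind with
  | one => simp [num_one]
  | smul c a h => simp [h]
  | add a a' ha hb => simp only [map_add, ha, hb]
  | mul v a ih => simp only [map_mul, mq_io, num_io_mul, ih, pr_tq, map_add]

theorem mq_Eg (L : E m →L[ℂ] E N) {s : Bool} {r : ℤ} {a : Λ N} (ha : a ∈ Eg s r) :
    mq (L.restrictScalars ℝ) a ∈ Eg s r := by
  rw [mem_Eg] at *
  rw [num_mq, ha, map_smul]

theorem sm_mq {Y : Type} [NormedAddCommGroup Y] [NormedSpace ℝ Y] {A : Y → E m →L[ℝ] E N} {x : Y}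
    (hA : ContDiffAt ℝ ∞ A x) (a : Λ N) : ContDiffAt ℝ ∞ (fun y => mq (A y) a) x := by
  induction a using ind with
  | one => simpa using contDiffAt_const
  | smul c a h => simpa using h.const_smul c
  | add a b ha hb => simpa using ha.add hb
  | mul w a h =>
    simp only [map_mul, mq_io]
    exact (ioL.contDiff.contDiffAt.comp x (contDiffAt_const.clm_comp hA)).mul h

/-- Coordinates on the exterior algebra. -/
noncomputable def co (b : Finset (Fin (Module.finrank ℂ (W N)))) : Λ N →L[ℝ] ℂ :=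
  (LinearMap.toContinuousLinearMap ((bΛ N).coord b)).restrictScalars ℝ

theorem sum_co (a : Λ N) : ∑ b, co b a • bΛ N b = a := (bΛ N).sum_repr a

theorem pq_eq (φ : E m → E N) (u : E N → Λ N) :
    pq φ u = fun y => ∑ b, co b (u (φ y)) • mq (fderiv ℝ φ y) (bΛ N b) := by
  funext y
  unfold pq
  conv_lhs => rw [← sum_co (u (φ y)), map_sum]
  simp only [map_smul]

variable {φ : E m → E N} {y : E m}

theorem tq_fderiv {g : E N → ℂ} (hφ : DifferentiableAt ℝ φ y) (hg : DifferentiableAt ℝ g (φ y)) :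
    tq (fderiv ℝ φ y) (fderiv ℝ g (φ y)) = fderiv ℝ (fun z => g (φ z)) y :=
  (fderiv_fun_comp y hg hφ).symm

theorem tq_fderiv' (w : W N) (hφ : DifferentiableAt ℝ φ y) :
    tq (fderiv ℝ φ y) w = fderiv ℝ (fun z => w (φ z)) y :=
  ((w.hasFDerivAt.comp y hφ.hasFDerivAt).fderiv).symm

theorem db_mq_const (s : Bool) (hφ : AnalyticAt ℂ φ y) (a : Λ N) :
    db s idE (fun z => mq (fderiv ℝ φ z) a) y = 0 := by
  have hs := fun a => sm_diff (sm_mq (sm_fderiv (an_sm hφ)) a)
  have key : ∀ (s' : Bool) (w : W N),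
      db s idE (fun z => mq (fderiv ℝ φ z) (io (pr s' w))) y = 0 := by
    intro s' w
    have : (fun z => mq (fderiv ℝ φ z) (io (pr s' w))) =ᶠ[𝓝 y]
        fun z => io (fderiv ℝ (fun z => pr s' w (φ z)) z) :=
      (sm_ev (an_sm hφ)).mono fun z hz => by simp only [mq_io, tq_fderiv' _ hz]
    rw [db_congr this]
    refine db_io_fderiv s' s ((pr s' w).contDiff.contDiffAt.comp y (an_sm hφ)) ?_
    filter_upwards [hφ.eventually_analyticAt] with z hz
    rw [← tq_fderiv' _ (sm_diff (an_sm hz)), an_fderiv hz, pr_tq, pr_pr]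
    cases s' <;> simp
  induction a using ind with
  | one => simp [db_const]
  | smul c a h => simp only [map_smul]; rw [db_csmul c (hs a), h, smul_zero]
  | add a b ha hb => simp only [map_add]; rw [db_add (hs a) (hs b), ha, hb, add_zero]
  | mul w a h =>
    simp only [map_mul]
    rw [db_mul (hs _) (hs _), h, mul_zero, add_zero, ← pr_add_pr w]
    simp only [map_add]
    rw [db_add (hs _) (hs _), key, key, add_zero, zero_mul]

theorem db_eq (s : Bool) {u : E N → Λ N} {x : E N} (hu : DifferentiableAt ℝ u x) :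
    db s idE u x = ∑ b, io (pr s (fderiv ℝ (fun z => co b (u z)) x)) * bΛ N b := by
  have hc : ∀ b, DifferentiableAt ℝ (fun z => co b (u z)) x := fun b =>
    (co b).differentiableAt.comp x hu
  have : u = fun z => ∑ b, co b (u z) • bΛ N b := funext fun z => (sum_co _).symm
  conv_lhs => rw [this]
  rw [db_sum _ fun b _ => (hc b).smul_const _]
  refine Finset.sum_congr rfl fun b _ => ?_
  rw [db_smul (hc b) (differentiableAt_const _), db_const, smul_zero, add_zero,
    ContinuousLinearMap.comp_id]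

end Pb

open Pb

theorem ct_mq (L : E m →L[ℂ] E N) (s : Bool) (v : E m) (a : Λ N) :
    ct (vec s v) (mq (L.restrictScalars ℝ) a) = mq (L.restrictScalars ℝ) (ct (vec s (L v)) a) := by
  induction a using ind with
  | one => simp [ct_one]
  | smul c a h => simp [h]
  | add a a' ha hb => simp only [map_add, ha, hb]
  | mul w a h => rw [map_mul, mq_io, ct_io_mul, ct_io_mul, h, vec_tq]; simp [mq_io]

theorem mq_mem (L : E m →L[ℂ] E N) {p q : ℤ} {a : Λ N} (ha : a ∈ Ty p q) :
    mq (L.restrictScalars ℝ) a ∈ Ty p q := ⟨mq_Eg L ha.1, mq_Eg L ha.2⟩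

theorem mq_of_ann {l : List (W N)} (hl : HasDual l) {L : E m →L[ℝ] E N} (h : ∀ w ∈ l, tq L w = 0)
    {a : Λ N} (ha : a ∈ ann l) : mq L a = 0 := by
  induction l generalizing a with
  | nil => simp [ann_nil.1 ha]
  | cons w l ih =>
    obtain ⟨⟨f, h1, h2⟩, hl⟩ := hl
    have := ih hl (fun v hv => h v (by simp [hv])) (ann_sub h1 h2 ha)
    rwa [map_sub, map_mul, mq_io, h w (by simp), map_zero, zero_mul, sub_zero] at this

variable {φ : E m → E N} {u v : E N → Λ N} {y : E m}

theorem sm_pq (hφ : ContDiffAt ℝ ∞ φ y) (hu : ContDiffAt ℝ ∞ u (φ y)) : ContDiffAt ℝ ∞ (pq φ u) y := by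
  rw [pq_eq]
  exact ContDiffAt.sum fun b _ =>
    sm_smul ((co b).contDiff.contDiffAt.comp y (hu.comp y hφ)) (sm_mq (sm_fderiv hφ) _)

theorem db_pq (s : Bool) (hφ : AnalyticAt ℂ φ y) (hu : DifferentiableAt ℝ u (φ y)) :
    db s idE (pq φ u) y = pq φ (db s idE u) y := by
  have hd := sm_diff (an_sm hφ)
  have hc : ∀ b, DifferentiableAt ℝ (fun z => co b (u z)) (φ y) := fun b =>
    (co b).differentiableAt.comp _ hu
  have hc' : ∀ b, DifferentiableAt ℝ (fun z => co b (u (φ z))) y := fun b => (hc b).comp y hd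
  have hs := fun a => sm_diff (sm_mq (sm_fderiv (an_sm hφ)) a)
  rw [pq_eq φ u, db_sum _ fun b _ => (hc' b).fun_smul (hs _), pq, db_eq s hu, map_sum]
  refine Finset.sum_congr rfl fun b _ => ?_
  rw [db_smul (hc' b) (hs _), db_mq_const s hφ, smul_zero, add_zero, ContinuousLinearMap.comp_id,
    map_mul, mq_io, ← tq_fderiv hd (hc b), an_fderiv hφ, pr_tq]

theorem pq_pb {f : E N → E N} (hφ : DifferentiableAt ℝ φ y) (hf : DifferentiableAt ℝ f (φ y)) :
    pq φ (pb f u) y = pq (f ∘ φ) u y := by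
  rw [pq, pb, mq_mp, pq, fderiv_comp y hf hφ]; rfl

theorem pb_pq {t : E m → E m} (ht : DifferentiableAt ℝ t y) (hφ : DifferentiableAt ℝ φ (t y)) :
    pb t (pq φ u) y = pq (φ ∘ t) u y := by
  rw [pb, pq, mp_mq, pq, fderiv_comp y hφ ht]; rfl

theorem pq_congr {ψ : E m → E N} (h : φ =ᶠ[𝓝 y] ψ) : pq φ u y = pq ψ u y := by
  rw [pq, pq, h.fderiv_eq, h.eq_of_nhds]

/-- forms which vanish on the cone -/
theorem pq_null {ι : Type} [Fintype ι] [DecidableEq ι] {F : ι → MP N} {d : ι → ℕ} (h : IsCI F d)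
    (hφ : AnalyticAt ℂ φ y) (hm : ∀ᶠ z in 𝓝 y, φ z ∈ cone F)
    (hu : u (φ y) ∈ ann (pl (fullL F) (φ y))) : pq φ u y = 0 := by
  refine mq_of_ann (h.dualL_full.hasDual hm.self_of_nhds) (forall_pl.2 fun a ha => ?_) hu
  obtain ⟨j, hj⟩ := of_mem_fullL ha
  rw [hj, ← fderiv_sg_eval, tq_fderiv (sm_diff (an_sm hφ)) (sm_diff (sm_sg_eval _ _ _))]
  have : (fun z => sgL a.1 (MvPolynomial.eval (φ z) (F j))) =ᶠ[𝓝 y] fun _ => 0 :=
    hm.mono fun z hz => by simp [hz.2 j]
  rw [this.fderiv_eq, fderiv_fun_const]; rfl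

theorem pos_pq (hφ : AnalyticAt ℂ φ y) (h1 : u (φ y) ∈ Ty 1 1) (h2 : ∀ v, v ≠ 0 →
    0 < -I * sca (ct (vec false (fderiv ℂ φ y v)) (ct (vec true (fderiv ℂ φ y v)) (u (φ y))))) :
    Pos (pq φ u y) := by
  rw [pq, an_fderiv hφ]
  refine ⟨mq_mem _ h1, fun v hv => ?_⟩
  rw [ct_mq, ct_mq, sca_mq]
  exact h2 v hv

end Vale.Agent.P269.Hdx
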