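import Vale.Agent.P269.Hdx.L2
import Vale.Agent.P269.Hdx.Pb
import Vale.Agent.P269.Hdx.FS
import Vale.Agent.P269.Hdx.Chart
import Vale.Agent.P269.Hdx.KeyD

/-!
# P269, Hodge decomposition: the analytic input
-/

set_option linter.unusedSectionVars false

namespace Vale.Agent.P269.Hdx

open Hdg Set Filter Topology MeasureTheory
open scoped ContDiff

variable {N n m : ℕ} {ι : Type} [Fintype ι] [DecidableEq ι] {F : ι → MP N} {d : ι → ℕ}

namespace Rz

variable {X κ : Type} [TopologicalSpace X] {A : At m X κ} {φ : κ → E m → E N} (r : Rz F A φ)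
  {i : κ} {y : E m} {u v : SM N} {k l : ℤ}
include r

theorem ne (hy : y ∈ A.U i) : φ i y ≠ 0 := (r.mem i y hy).1

theorem sm (u : SM N) (hy : y ∈ A.U i) : ContDiffAt ℝ ∞ (pq (φ i) u.1) y :=
  sm_pq (an_sm (r.an i y hy)) (u.sm (r.ne hy))

theorem ok (hu : u ∈ Ak k) : A.Ok fun i => pq (φ i) u.1 := by
  refine ⟨fun i y hy => r.sm u hy, fun i j x hi hj => ?_⟩
  obtain ⟨c, hc⟩ := r.cmp i
  have ht : AnalyticAt ℂ (A.t i j) (A.e i x) := A.hol i j x hi hj
  have e0 : A.t i j (A.e i x) = A.e j x := by rw [At.t, (A.e i).left_inv hi]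
  have hj' : A.e j x ∈ A.U j := (A.e j).map_source hj
  have h1 : AnalyticAt ℂ (φ j) (A.t i j (A.e i x)) := e0 ▸ r.an j _ hj'
  have h2 := (hc j x hi hj).1
  have ev : φ i =ᶠ[𝓝 (A.e i x)] cpr c ∘ (φ j ∘ A.t i j) := by
    have c1 : ContinuousAt (A.e i).symm (A.e i x) :=
      (A.e i).continuousAt_symm ((A.e i).map_source hi)
    have c2 : ∀ᶠ z in 𝓝 (A.e i x), (A.e i).symm z ∈ A.O j :=
      c1.eventually (((A.e j).open_source).mem_nhds (by rwa [(A.e i).left_inv hi]))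
    filter_upwards [c2, (A.e i).open_target.mem_nhds ((A.e i).map_source hi)] with z z1 z2
    have := (hc j _ ((A.e i).map_target z2) z1).2
    rwa [(A.e i).right_inv z2] at this
  have d1 : DifferentiableAt ℝ (A.t i j) (A.e i x) := sm_diff (an_sm ht)
  have d2 : DifferentiableAt ℝ (φ j) (A.t i j (A.e i x)) := sm_diff (an_sm h1)
  have h3 : lf c ((φ j ∘ A.t i j) (A.e i x)) ≠ 0 := by rwa [Function.comp_apply, e0]
  have h4 : (φ j ∘ A.t i j) (A.e i x) ≠ 0 := by rw [Function.comp_apply, e0]; exact r.ne hj'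
  change pq (φ i) u.1 (A.e i x) = _
  rw [pq_congr ev, ← pq_pb (d2.comp _ d1) (sm_diff (an_sm (an_cpr h3))), pq, pb_cpr_eq hu h3 h4,
    ← pq, ← pb_pq d1 d2, pb, an_fderiv ht, e0]
  rfl

/-- The restriction of a form on projective space. -/
noncomputable def res (hu : u ∈ Ak k) : A.Sec := (r.ok hu).mk'

theorem res_apply (hu : u ∈ Ak k) (hy : y ∈ A.U i) : (r.res hu).1 i y = pq (φ i) u.1 y :=
  (r.ok hu).mk'_apply hy

theorem res_DB (s : Bool) (hu : u ∈ Ak k) : r.res (DB_Ak s hu) = A.D s (r.res hu) :=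
  At.ext_U fun i y hy => by
    rw [r.res_apply _ hy, At.D_apply hy, res, db_congr ((r.ok hu).mk'_ev hy),
      db_pq s (r.an i y hy) (u.df (r.ne hy)), pq, pq, DB_apply s u (r.ne hy)]

theorem res_ML (hu : u ∈ Ak k) (hv : v ∈ Ak l) :
    r.res (ML_Ak hu hv) = A.mul (r.res hu) (r.res hv) :=
  At.ext_U fun i y hy => by
    rw [At.mul_apply, r.res_apply _ hy, r.res_apply _ hy, r.res_apply _ hy, pq, pq, pq, ML_apply,
      map_mul]

theorem null (h : IsCI F d) (hu : u ∈ Nl F) (hy : y ∈ A.U i) : pq (φ i) u.1 y = 0 :=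
  pq_null h (r.an i y hy) (Eventually.mono ((A.e i).open_target.mem_nhds hy) fun z hz => r.mem i z hz)
    (hu _ (r.mem i y hy))

theorem res_null (h : IsCI F d) (hu : u ∈ Ak k) (h0 : u ∈ Nl F) : r.res hu = 0 :=
  At.ext_U fun i y hy => by rw [r.res_apply _ hy, r.null h h0 hy]; rfl

variable [T2Space X] [Fintype κ] {χ : κ → E m → ℝ} (p : A.PU χ)

/-- The integral of a form on projective space. -/
noncomputable def int : SM N →ₗ[ℂ] ℂ where
  toFun u := ∑ i, ∫ y, (χ i y : ℂ) * top (pq (φ i) u.1 y)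
  map_add' u v := by
    rw [← Finset.sum_add_distrib]
    refine Finset.sum_congr rfl fun i _ => ?_
    rw [← integral_add (p.integrable i fun _ => r.sm u) (p.integrable i fun _ => r.sm v)]
    congr 1; funext y
    simp only [pq, Submodule.coe_add, Pi.add_apply, map_add, mul_add]
  map_smul' c u := by
    rw [RingHom.id_apply, smul_eq_mul, Finset.mul_sum]
    refine Finset.sum_congr rfl fun i _ => ?_
    rw [← integral_const_mul]
    congr 1; funext y
    simp only [pq, Submodule.coe_smul, Pi.smul_apply, map_smul, smul_eq_mul]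
    ring

theorem int_congr {f : κ → E m → Λ m} (e : ∀ i, ∀ y ∈ A.U i, pq (φ i) u.1 y = f i y) :
    r.int p u = ∑ i, ∫ y, (χ i y : ℂ) * top (f i y) := by
  refine Finset.sum_congr rfl fun i _ => ?_
  congr 1; funext y
  by_cases hy : y ∈ A.U i
  · rw [e i y hy]
  · rw [(p.test i).zero_off fun h => hy ((p.test i).supp h)]; simp

theorem int_res (hu : u ∈ Ak k) : r.int p u = p.int (r.res hu) :=
  r.int_congr p fun _ _ hy => (r.res_apply hu hy).symm

end Rz

theorem exists_pow {κ : SM N} (h : κ ∈ Ak 2) (j : ℕ) :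
    ∃ u : SM N, u ∈ Ak (2 * (j : ℤ)) ∧ ∀ x, u.1 x = κ.1 x ^ j := by
  induction j with
  | zero => exact ⟨oneS, by simpa using Om_le_Ak (oneS_Om (N := N)), fun _ => (pow_zero _).symm⟩
  | succ j ih =>
    obtain ⟨u, h1, h2⟩ := ih
    refine ⟨ML u κ, ?_, fun x => by rw [ML_apply, h2, pow_succ]⟩
    have := ML_Ak h1 h
    rwa [show 2 * (j : ℤ) + 2 = 2 * ((j + 1 : ℕ) : ℤ) by push_cast; ring] at this

theorem key (h : IsCI F d) (hn : n + Fintype.card ι = N) (h1 : 1 ≤ n) (hne : (cone F).Nonempty) :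
    Key F n := by
  obtain ⟨m, rfl⟩ : ∃ m, n = m + 1 := ⟨n - 1, by omega⟩
  obtain ⟨X, _, _, _, κ, _, A, φ, r, hX⟩ := exists_rz h hn
  have := hX hne
  obtain ⟨χ, p⟩ := A.exists_pu
  obtain ⟨w, w1, w2, w3⟩ := exists_fs N
  have wa : w ∈ Ak 2 := by simpa using Om_le_Ak w1
  have hk : At.Kh (r.res wa) := by
    refine ⟨fun i y hy => ?_, fun s => ?_⟩
    · rw [r.res_apply _ hy]
      exact pos_pq (r.an i y hy) (w1.1.1 _ (r.ne hy)).1 fun v hv =>
        w3 _ (r.ne hy) _ (r.imm i y hy v hv)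
    · rw [← r.res_DB]
      exact r.res_null h _ (Z0_le_Nl (w2 s))
  refine ⟨r.int p, fun u hu => ?_, fun u hu => ?_, ?_, fun a b a' b' g hg c hc e1 e2 => ?_⟩
  · rw [r.int_congr p (f := 0) fun i y hy => r.null h hu hy]; simp
  · change r.int p (DB true u + DB false u) = 0
    rw [map_add, r.int_res p (DB_Ak _ hu), r.int_res p (DB_Ak _ hu), r.res_DB _ hu, r.res_DB _ hu,
      p.int_D, p.int_D, add_zero]
  · obtain ⟨u, u1, u2⟩ := exists_pow wa (m + 1)
    refine ⟨u, u1, ?_⟩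
    rw [r.int_res p u1]
    refine hk.int_ne p fun i y hy => ?_
    rw [r.res_apply _ hy, r.res_apply _ hy, pq, pq, u2, map_pow]
  · have ga := Om_le_Ak hg
    have ca := Om_le_Ak hc
    rw [r.int_res p (ML_Ak (DB_Ak true ga) ca), r.res_ML (DB_Ak true ga) ca, r.res_DB _ ga]
    refine hk.key p ?_ ?_
    · rw [← r.res_DB, ← r.res_DB]; exact r.res_null h _ e1
    · rw [← r.res_DB]; exact r.res_null h _ e2

end Vale.Agent.P269.Hdx
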