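import Vale.Agent.P269.Hdx.L2A
import Vale.Agent.P269.Hdx.AtF
import Vale.Agent.P269.Hdx.Abs

/-!
# P269, Hodge decomposition: the `∂∂̄`-lemma in weak form on a compact Kaehler manifold
-/

set_option linter.unusedSectionVars false

namespace Vale.Agent.P269.Hdx.At.Kh

open Hdg Vale.Agent.P299.H863 Set Filter Topology MeasureTheory
open scoped ComplexConjugate ContDiff
open Complex (I)

variable {m : ℕ} {X ι : Type} [TopologicalSpace X] [T2Space X] [Fintype ι] {A : At m X ι}
  {χ : ι → E m → ℝ} {κ : A.Sec} (h : Kh κ) (p : A.PU χ)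

omit h p in
theorem exists_G : ∃ (n : ℕ) (e : Fin n → Λ m) (Φ : Fin n → Λ m →L[ℝ] VV m →L[ℂ] VV m),
    ∀ κ v w, inner ℂ v ((∑ b, Φ b (Ww κ (e b))) w) = hf κ ((eV m).symm v) ((eV m).symm w) := by
  let e := stdOrthonormalBasis ℂ (VV m)
  refine ⟨_, fun b => tau ((eV m).symm (e b)), fun b => (LinearMap.toContinuousLinearMap (𝕜 := ℂ)
    ⟨⟨fun a => (LinearMap.toContinuousLinearMap (top ∘ₗ LinearMap.mulLeft ℂ a ∘ₗ
      (eV m).symm.toLinearEquiv.toLinearMap)).smulRight (e b), fun _ _ => ?_⟩,
        fun _ _ => ?_⟩).restrictScalars ℝ, fun κ v w => ?_⟩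
  · exact ContinuousLinearMap.ext fun w => by simp [add_mul, add_smul]
  · exact ContinuousLinearMap.ext fun w => by simp [mul_smul]
  · conv_rhs => rw [← e.sum_repr' v]
    simp [hf, Finset.sum_mul, mul_comm]

theorem ip_eq_zero {u : A.Sec} (e : h.ip p u u = 0) : u = 0 :=
  by_contra fun k => (h.ip_pos p k).ne' (congrArg Complex.re e)

/-- The smooth forms with the `L²` product. -/
def Hs (_h : Kh κ) (_p : A.PU χ) : Type := A.Sec

noncomputable instance : AddCommGroup (h.Hs p) := inferInstanceAs (AddCommGroup A.Sec)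

noncomputable instance : Module ℂ (h.Hs p) := inferInstanceAs (Module ℂ A.Sec)

/-- The `L²` product. -/
@[reducible] noncomputable def core : InnerProductSpace.Core ℂ (h.Hs p) where
  inner u v := h.ip p u v
  conj_inner_symm := h.ip_symm p
  re_inner_nonneg u := by
    by_cases e : (show A.Sec from u) = 0
    · change 0 ≤ (h.ip p (show A.Sec from u) u).re
      simp [ip, e]
    · exact (h.ip_pos p e).le
  add_left (u v w : A.Sec) := show h.ip p (u + v) w = h.ip p u w + h.ip p v w by
    simp only [ip, map_add, LinearMap.add_apply]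
  smul_left (u v : A.Sec) r := show h.ip p (r • u) v = conj r * h.ip p u v by
    simp only [ip, map_smulₛₗ, LinearMap.smul_apply, RingHom.id_apply, smul_eq_mul]
  definite _ := h.ip_eq_zero p

noncomputable instance : NormedAddCommGroup (h.Hs p) :=
  InnerProductSpace.Core.toNormedAddCommGroup (cd := h.core p)

noncomputable instance : InnerProductSpace ℂ (h.Hs p) :=
  InnerProductSpace.ofCore (h.core p).toCore

theorem inner_eq (u v : h.Hs p) : inner ℂ u v = h.ip p u v := rfl

theorem exists_locSp : ∃ L : LocSp volume (⟨A.U, fun i => (A.e i).open_target, χ, p.test⟩ : Cov (E m) ι)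
    (VV m) (h.Hs p), ∀ i s y, L.r i s y = eV m ((show A.Sec from s).1 i y) := by
  obtain ⟨n, e, Φ, k⟩ := exists_G (m := m)
  have t : ∀ {i} {w : E m → VV m}, TestV (A.U i) w → TestV (A.U i) fun y => (eV m).symm (w y) :=
    fun hw => hw.clm (A.e _).open_target
      (Φ := fun _ => (eV m).symm.toContinuousLinearMap.restrictScalars ℝ) contDiffOn_const
  exact ⟨{
    r := fun i (s : A.Sec) y => eV m (s.1 i y)
    r_add := fun _ _ _ _ _ => map_add (eV m) _ _
    r_smul := fun _ _ _ _ _ => map_smul (eV m) _ _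
    r_smooth := fun i (s : A.Sec) y hy =>
      (((eV m).toContinuousLinearMap.restrictScalars ℝ).contDiff.contDiffAt.comp y
        (s.2.1.sm i y hy)).contDiffWithinAt
    ext := fun i w => A.ext i fun y => (eV m).symm (w y)
    r_ext := fun i w hw y _ => by rw [ext_self (t hw), ContinuousLinearEquiv.apply_symm_apply]
    G := fun i y => ∑ b, Φ b (Ww (κ.1 i y) (e b))
    G_smooth := fun i y hy => (ContDiffAt.sum fun b _ => (Φ b).contDiff.contDiffAt.comp y
      (sm_Ww (κ.2.1.sm i y hy) (h.pos i y hy) _)).contDiffWithinAt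
    G_symm := fun i y hy v w => by rw [← inner_conj_symm, k, k, (h.pos i y hy).hf_symm]
    G_pos := fun i y hy v hv => by
      rw [k]
      exact (h.pos i y hy).hf_pos ((eV m).symm.map_ne_zero_iff.2 hv)
    inner_ext := fun i w s hw => (h.ip_ext p (t hw) s).trans (by
      simp only [k, ContinuousLinearEquiv.symm_apply_apply])
    sum_ext := fun s : A.Sec => .trans (Finset.sum_congr rfl fun i _ => congrArg (A.ext i)
      (funext fun y => ((eV m).symm.map_smul (χ i y : ℂ) _).trans
        (congrArg _ ((eV m).symm_apply_apply _)))) (p.sum_ext s) }, fun _ _ _ => rfl⟩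

include h in
/-- **the `∂∂̄`-lemma in weak form** -/
theorem key {g b : A.Sec} (h1 : A.D false (A.D true g) = 0) (h2 : A.D false b = 0) :
    p.int (A.mul (A.D true g) b) = 0 := by
  have kp : KP (S := h.Hs p) (A.D true) (A.D false) (h.Dt true) (h.Dt false) h.M I :=
    ⟨h.ip_D p true, h.ip_D p false, D_D_self false, D_D false true, fun _ => rfl,
      fun (u : A.Sec) => show conj I • (h.M (A.D true u) - A.D true (h.M u)) =
        -(I • (h.M (A.D true u) - A.D true (h.M u))) by
          rw [Complex.conj_I]; exact neg_smul I (h.M (A.D true u) - A.D true (h.M u))⟩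
  obtain ⟨L, hL⟩ := h.exists_locSp p
  obtain ⟨T⟩ := ((FO.D false).add ((((FO.D true).left h.MF).sub ((FO.D true).right h.MF)).smul
    (sg false I))).locOp rfl L id hL (D := (A.D false + h.Dt false : Module.End ℂ A.Sec))
      fun _ => rfl
  obtain ⟨z, hz⟩ := h.surj (-A.parS g)
  have a : h.Wy (A.tauS (h.Dt true z)) = A.D true g := by
    rw [h.Wy_Dt, hz, map_neg, map_neg, neg_neg, parS_parS]
  have c : h.Dt false (h.Dt true z) = 0 := h.ip_eq_zero p (by
    rw [ip, h.Wy_Dt, a, ← parS_D, h1, map_zero, map_zero, LinearMap.zero_apply, map_zero])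
  rw [← a]
  exact (h.ip_D p true z b).symm.trans (kp.key L.smoothing (T.smoothingComm T kp.symm) h2 c)

end Vale.Agent.P269.Hdx.At.Kh
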