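import Vale.Agent.P269.Hdx.AtI

/-!
# P269, Hodge decomposition: the Kaehler identities
-/

set_option linter.unusedSectionVars false

namespace Vale.Agent.P269.Hdx.At

open Hdg Vale.Agent.P299.H863 Set Filter Topology MeasureTheory
open scoped ComplexConjugate ContDiff
open Complex (I)

variable {m : ℕ} {X ι : Type} [TopologicalSpace X] [T2Space X] [Fintype ι] {A : At m X ι}
  {χ : ι → E m → ℝ} {i : ι} {y : E m} {κ : A.Sec}

/-- A Kaehler form. -/
structure Kh (κ : A.Sec) : Prop where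
  pos : ∀ i, ∀ y ∈ A.U i, Pos (κ.1 i y)
  cl : ∀ s, A.D s κ = 0

namespace L2A

/-- the value of a natural family -/
noncomputable def ev (i : ι) (y : E m) : A.Fm →ₐ[ℂ] Module.End ℂ (Λ m) :=
  (Pi.evalAlgHom ℂ _ y).comp ((Pi.evalAlgHom ℂ _ i).comp A.Fm.val)

theorem op_eq {Φ Ψ : A.Fm} (h : ∀ i, ∀ y ∈ A.U i, ev i y Φ = ev i y Ψ) : A.op Φ = A.op Ψ :=
  LinearMap.ext fun u => ext_U fun i y hy => (DFunLike.congr_fun (h i y hy) (u.1 i y) :)

/-- left multiplication as a natural family -/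
noncomputable def LF (κ : A.Sec) : A.Fm :=
  ⟨fun i y => Lw (κ.1 i y), fun i y hy _ => (κ.2.1.sm i y hy).mul contDiffAt_const,
    fun i j x hi hj a => by
      rw [LinearMap.mulLeft_apply, LinearMap.mulLeft_apply, map_mul, κ.2.1.cmp i j x hi hj]⟩

theorem op_LF (κ : A.Sec) : A.op (LF κ) = A.mul κ := rfl

theorem nat {Φ : Λ m → Module.End ℂ (Λ m)} (h : ∀ κ, Pos κ → ∀ (T : E m ≃L[ℂ] E m) a,
    Φ (mc (T : E m →L[ℂ] E m) κ) (mc (T : E m →L[ℂ] E m) a) = mc (T : E m →L[ℂ] E m) (Φ κ a))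
    (k : Kh κ) (i j : ι) (x : X) (hi : x ∈ A.O i) (hj : x ∈ A.O j) (a : Λ m) :
    Φ (κ.1 i (A.e i x)) (A.J i j x a) = A.J i j x (Φ (κ.1 j (A.e j x)) a) := by
  obtain ⟨T, e⟩ := exists_J hi hj
  rw [κ.2.1.cmp i j x hi hj, J, e]
  exact h _ (k.pos j _ ((A.e j).map_source hj)) T a

theorem exists_ne {u : A.Sec} (hu : u ≠ 0) : ∃ x, ∀ i, x ∈ A.O i → u.1 i (A.e i x) ≠ 0 := by
  by_contra! h
  refine hu (ext_U fun i y hy => ?_)
  obtain ⟨j, a, b⟩ := h ((A.e i).symm y)
  have := u.2.1.cmp i j _ ((A.e i).map_target hy) a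
  rwa [(A.e i).right_inv hy, b, map_zero] at this

theorem aux {V : Type} [AddCommGroup V] [Module ℂ V] {a b : ℂ} (h : a * b = 1) (x y : V) :
    a • (-(b • x) - b • -y) = -(x - y) := by
  rw [← smul_neg, ← smul_sub, smul_smul, h, one_smul, neg_sub_neg, neg_sub]

end L2A

open L2A

namespace Kh

variable (h : Kh κ)

/-- The dual Lefschetz operator as a natural family. -/
noncomputable def MF : A.Fm := ⟨fun i y => Lm (κ.1 i y),
  fun i y hy => sm_Lm (κ.2.1.sm i y hy) (h.pos i y hy), nat (fun _ => Pos.Lm_mc) h⟩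

/-- The Weyl element as a natural family. -/
noncomputable def WF : A.Fm := ⟨fun i y => Ww (κ.1 i y),
  fun i y hy => sm_Ww (κ.2.1.sm i y hy) (h.pos i y hy), nat (fun _ => Pos.Ww_mc) h⟩

/-- The dual Lefschetz operator. -/
noncomputable abbrev M : Module.End ℂ A.Sec := A.op h.MF

/-- The Weyl element. -/
noncomputable abbrev Wy : Module.End ℂ A.Sec := A.op h.WF

/-- The formal adjoints of `∂`, `∂̄`. -/
noncomputable def Dt (s : Bool) : Module.End ℂ A.Sec :=
  sg s I • (h.M * A.D (!s) - A.D (!s) * h.M)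

theorem sl2 : Sl2 (m + 2) (A.mul κ) h.M (A.numS true + A.numS false - ((m : ℂ) + 1) • 1) :=
  have k : ∀ Φ : A.Fm, (∀ i, ∀ y ∈ A.U i, ev i y Φ ^ (m + 2) = 0) → A.op Φ ^ (m + 2) = 0 :=
    fun _ e => (map_pow _ _ _).symm.trans ((op_eq fun i y hy =>
      (map_pow _ _ _).trans ((e i y hy).trans (map_zero _).symm)).trans (map_zero _))
  ⟨LinearMap.ext fun u => ext_U fun i y hy =>
      (DFunLike.congr_fun (h.pos i y hy).sl2.lm (u.1 i y) :),
    LinearMap.ext fun u => ext_U fun i y hy =>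
      (DFunLike.congr_fun (h.pos i y hy).sl2.hl (u.1 i y) :),
    LinearMap.ext fun u => ext_U fun i y hy =>
      (DFunLike.congr_fun (h.pos i y hy).sl2.hm (u.1 i y) :),
    k (LF κ) fun i y hy => (h.pos i y hy).sl2.nl, k _ fun i y hy => (h.pos i y hy).sl2.nm⟩

theorem Wy_eq : h.Wy = wy (m + 2) (A.mul κ) h.M := by
  have e := map_wy (B := Module.End ℂ A.Sec) A.op (m + 2) (LF κ) h.MF
  rw [op_LF] at e
  rw [← e]
  exact op_eq fun i y _ => (map_wy (ev i y) _ (LF κ) h.MF).symm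

include h in
theorem parS_eq : A.parS κ = κ := ext_U fun i y hy => (h.pos i y hy).par_eq

theorem Wy_D (s : Bool) : h.Wy * (h.M * A.D s - A.D s * h.M) = A.D s * h.Wy := by
  rw [h.Wy_eq]
  refine h.sl2.wy_mul' (LinearMap.ext fun u => ?_) (LinearMap.ext fun u => ?_)
  · rw [Module.End.mul_apply, Module.End.mul_apply, D_mul, h.cl, h.parS_eq, map_zero,
      LinearMap.zero_apply, zero_add]
  · simp only [LinearMap.sub_apply, LinearMap.add_apply, Module.End.mul_apply,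
      LinearMap.smul_apply, Module.End.one_apply, numS_D, map_sub, map_add, map_smul]
    cases s <;> simp

theorem surj (v : A.Sec) : ∃ u, h.Wy (A.tauS u) = v :=
  let ⟨w, e⟩ := ((Module.End.isUnit_iff _).1 (h.Wy_eq ▸ h.sl2.isUnit_wy)).2 v
  ⟨A.tauS (A.parS w), by rwa [tauS_tauS, parS_parS]⟩

theorem tauS_M (u : A.Sec) : A.tauS (h.M u) = -h.M (A.tauS u) :=
  ext_U fun i y hy => (h.pos i y hy).tau_Lm _

theorem parS_M (u : A.Sec) : A.parS (h.M u) = h.M (A.parS u) := ext_U fun _ _ _ => par_Lm _ _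

theorem parS_Wy (u : A.Sec) : A.parS (h.Wy u) = h.Wy (A.parS u) :=
  ext_U fun i y hy => (h.pos i y hy).par_Ww _

/-- **the Kaehler identities** -/
theorem Wy_Dt (s : Bool) (u : A.Sec) :
    h.Wy (A.tauS (h.Dt s u)) = -A.D s (A.parS (h.Wy (A.tauS u))) := by
  have e := DFunLike.congr_fun (h.Wy_D s) (A.parS (A.tauS u))
  simp only [LinearMap.sub_apply, Module.End.mul_apply] at e
  rw [h.parS_Wy, ← e, ← map_neg h.Wy]
  refine congrArg h.Wy ?_
  rw [Dt, LinearMap.smul_apply, LinearMap.sub_apply, Module.End.mul_apply, Module.End.mul_apply,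
    map_smulₛₗ, map_sub, h.tauS_M, tauS_D, tauS_D, h.tauS_M, Bool.not_not, map_neg, h.parS_M,
    map_neg, map_smul]
  exact aux (by cases s <;> simp) _ _

variable (p : A.PU χ)

/-- The `L²` product. -/
noncomputable def ip (u v : A.Sec) : ℂ := p.int (A.mul (h.Wy (A.tauS u)) v)

theorem ip_D (s : Bool) (u v : A.Sec) : h.ip p u (A.D s v) = h.ip p (h.Dt s u) v := by
  rw [ip, ip, p.int_mul_D, h.Wy_Dt, map_neg, LinearMap.neg_apply, map_neg]

theorem ip_symm (u v : A.Sec) : conj (h.ip p v u) = h.ip p u v :=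
  p.int_conj fun i y hy => (h.pos i y hy).hf_symm _ _

theorem ip_pos {u : A.Sec} (hu : u ≠ 0) : 0 < (h.ip p u u).re := by
  obtain ⟨x, e⟩ := exists_ne hu
  refine p.int_pos (fun i y hy => ?_) fun i hi =>
    (h.pos i _ ((A.e i).map_source hi)).hf_pos (e i hi)
  by_cases a : u.1 i y = 0
  · rw [mul_apply, a, mul_zero, map_zero, Complex.zero_re]
  · exact ((h.pos i y hy).hf_pos a).le

theorem ip_ext {w : E m → Λ m} (hw : TestV (A.U i) w) (u : A.Sec) :
    h.ip p (A.ext i w) u = ∫ y, hf (κ.1 i y) (w y) (u.1 i y) := by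
  rw [ip, tauS_ext hw, op_ext (test_tau hw), mul_ext (test_op (test_tau hw) _),
    p.int_ext (test_mul (test_op (test_tau hw) _) _)]
  rfl

include h in
theorem int_ne [Nonempty X] {u : A.Sec} (hu : ∀ i, ∀ y ∈ A.U i, u.1 i y = κ.1 i y ^ (m + 1)) :
    p.int u ≠ 0 := by
  obtain ⟨c, c0, e⟩ := exists_top_pow (m := m)
  obtain ⟨x⟩ := ‹Nonempty X›
  obtain ⟨j, hj⟩ := A.cov x
  obtain ⟨a, ha⟩ := top0_ne (m := m)
  have k := h.ip_pos p (u := A.one) fun b => ha (by
    rw [← mul_one a, ← one_apply ((A.e j).map_source hj), b]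
    exact (congrArg _ (mul_zero a)).trans (map_zero _))
  have : p.int u = p.int (c • A.mul (h.Wy (A.tauS A.one)) A.one) :=
    Finset.sum_congr rfl fun i _ => congrArg _ (funext fun y => congrArg _ (by
      by_cases hy : y ∈ A.U i
      · rw [hu i y hy, e _ (h.pos i y hy), ← one_apply hy]
        exact (map_smul top c _).symm
      · rw [u.2.2 i y hy, (c • A.mul (h.Wy (A.tauS A.one)) A.one).2.2 i y hy]))
  rw [this, map_smul]
  exact mul_ne_zero c0 fun b => k.ne' (congrArg Complex.re b)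

end Kh

end Vale.Agent.P269.Hdx.At
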