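import Vale.Agent.P269.Hdg.Forms

/-!
# P269, Hodge decomposition: conjugation and the top degree part in the exterior algebra
-/

namespace Vale.Agent.P269.Hdx

open Hdg
open scoped ComplexConjugate ContDiff
open Complex (I)

variable {m : ℕ}

/-- The pull-back along a complex linear map. -/
noncomputable abbrev mc (T : E m →L[ℂ] E m) : Λ m →ₐ[ℂ] Λ m := mp (tr (T.restrictScalars ℝ))

namespace PtA

theorem exists_hom {B : Type} [Ring B] (i : ℂ →+* B) (hi : ∀ c x, i c * x = x * i c) (f : W m →+ B)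
    (hf : ∀ (c : ℂ) w, f (c • w) = i c * f w) (h : ∀ w, f w * f w = 0) :
    ∃ φ : Λ m →+* B, (∀ c, φ (algebraMap ℂ _ c) = i c) ∧ ∀ w, φ (io w) = f w := by
  let _ := i.toAlgebra' hi
  let φ := ExteriorAlgebra.lift ℂ ⟨⟨⟨f, f.map_add⟩, hf⟩, h⟩
  exact ⟨φ.toRingHom, φ.commutes, ExteriorAlgebra.lift_ι_apply ℂ _ h⟩

/-- The conjugation on covectors. -/
noncomputable def kap : W m →ₛₗ[starRingEnd ℂ] W m where
  toFun w := (sgL false).comp (w.comp (scal I))
  map_add' a b := by ext; simp
  map_smul' c a := by ext; simp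

theorem kap_apply (w : W m) (v : E m) : kap w v = conj (w (I • v)) := rfl

theorem kap_cv (s : Bool) (l : E m →L[ℂ] ℂ) : kap (cv s l) = (-sg s I) • cv (!s) l := by
  ext v
  cases s <;> simp [kap_apply]

theorem I_I (v : E m) : I • I • v = -v := by rw [smul_smul, Complex.I_mul_I, neg_one_smul]

theorem kap_kap (w : W m) : kap (kap w) = -w := by
  ext v
  simp [kap_apply, I_I]

theorem vec_kap (s : Bool) (v : E m) (w : W m) : sg s I * vec (!s) v (kap w) = conj (vec s v w) := by
  have := Complex.I_mul_I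
  cases s <;> simp only [vec_apply, kap_apply, I_I, map_neg, map_div₀, map_sub, map_mul, map_ofNat,
    Bool.not_true, Bool.not_false, sg_true, sg_false, Complex.conj_I, neg_neg]
  · linear_combination (-conj (w v) / 2) * this
  · linear_combination (-conj (w v) / 2) * this

theorem det_tr (L : E m →L[ℝ] E m) : LinearMap.det (tr L) = (L.det : ℂ) := by
  classical
  let e := Module.finBasis ℝ (E m)
  let φ : W m ≃ₗ[ℂ] (Fin (Module.finrank ℝ (E m)) → ℂ) := .ofBijective
    ⟨⟨fun w i => w (e i), fun _ _ => rfl⟩, fun _ _ => rfl⟩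
    ⟨fun a b h => ContinuousLinearMap.coe_injective (e.ext (congrFun h)), fun c =>
      ⟨(e.constr ℝ c).toContinuousLinearMap, funext fun i => e.constr_basis ℝ c i⟩⟩
  have h : φ ∘ₗ tr L ∘ₗ φ.symm = Matrix.toLin'
      ((LinearMap.toMatrix e e L).map Complex.ofRealHom).transpose := by
    refine LinearMap.ext (φ.surjective.forall.2 fun w => funext fun i => ?_)
    change φ (tr L (φ.symm (φ w))) i = _
    rw [φ.symm_apply_apply]
    change w (L (e i)) = ∑ j, (LinearMap.toMatrix e e L j i : ℂ) * w (e j)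
    conv_lhs => rw [← e.sum_repr (L (e i)), map_sum]
    simp [LinearMap.toMatrix_apply]
  rw [← LinearMap.det_conj _ φ, h, LinearMap.det_toLin', Matrix.det_transpose,
    ← RingHom.mapMatrix_apply, ← RingHom.map_det, LinearMap.det_toMatrix]
  rfl

end PtA

open PtA

theorem exists_tau : ∃ τ : Λ m →ₛₗ[starRingEnd ℂ] Λ m, τ 1 = 1 ∧ (∀ a b, τ (a * b) = τ b * τ a) ∧
    ∀ s j, τ (io (dz s j)) = (-sg s I) • io (dz (!s) j) := by
  obtain ⟨φ, h1, h2⟩ := exists_hom ((algebraMap ℂ (Λ m)ᵐᵒᵖ).comp (starRingEnd ℂ))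
    (fun c x => Algebra.commutes (conj c) x) ⟨⟨fun w => .op (io (kap w)), by simp⟩, by simp⟩
    (fun c w => (congrArg MulOpposite.op ((congrArg io (map_smulₛₗ kap c w)).trans
      ((map_smul io _ _).trans ((Algebra.smul_def _ _).trans (Algebra.commutes _ _))))))
    fun w => congrArg MulOpposite.op (io_sq _)
  refine ⟨⟨⟨fun a => (φ a).unop, by simp⟩, fun c a => ?_⟩, by simp, by simp, fun s j => ?_⟩
  · simp [Algebra.smul_def, h1, Algebra.commutes]
  · exact (congrArg MulOpposite.unop (h2 _)).trans ((congrArg io (kap_cv s _)).trans (map_smul _ _ _))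

/-- The conjugate linear anti-automorphism `dz ↦ -i dz̄`, `dz̄ ↦ i dz`. -/
noncomputable def tau : Λ m →ₛₗ[starRingEnd ℂ] Λ m := exists_tau.choose

theorem tau_one : tau (1 : Λ m) = 1 := exists_tau.choose_spec.1

theorem tau_mul (a b : Λ m) : tau (a * b) = tau b * tau a := exists_tau.choose_spec.2.1 a b

theorem tau_dz (s : Bool) (j : Fin (m + 1)) : tau (io (dz s j)) = (-sg s I) • io (dz (!s) j) :=
  exists_tau.choose_spec.2.2 s j

theorem PtA.tau_io (w : W m) : tau (io w) = io (kap w) := by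
  have : ∀ s j, tau (io (dz s j)) = io (kap (dz s j : W m)) := fun s j =>
    (tau_dz s j).trans ((congrArg io (kap_cv s _)).trans (map_smul _ _ _)).symm
  rw [← pr_add_pr w, pr_eq, pr_eq]
  simp only [map_add, map_sum, map_smulₛₗ, this, RingHom.id_apply]

theorem PtA.tau_mp {A : W m →ₗ[ℂ] W m} (h : ∀ w, kap (A w) = A (kap w)) (a : Λ m) :
    tau (mp A a) = mp A (tau a) := by
  induction a using ind with
  | one => rw [map_one, tau_one, map_one]
  | smul c a k => rw [map_smul, map_smulₛₗ, map_smulₛₗ tau, map_smul, k]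
  | add a b ha hb => simp only [map_add, ha, hb]
  | mul w a k => rw [map_mul, tau_mul, tau_mul, map_mul, k, mp_io, tau_io, tau_io, mp_io, h]

theorem tau_cv (s : Bool) (l : E m →L[ℂ] ℂ) : tau (io (cv s l)) = (-sg s I) • io (cv (!s) l) := by
  rw [tau_io, kap_cv, map_smul]

theorem tau_tau (a : Λ m) : tau (tau a) = par a := by
  induction a using ind with
  | one => rw [tau_one, tau_one, map_one]
  | smul c a k => rw [map_smulₛₗ tau, map_smulₛₗ tau, k, Complex.conj_conj, map_smul]
  | add a b ha hb => simp only [map_add, ha, hb]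
  | mul w a k => rw [tau_mul, tau_mul, k, tau_io, tau_io, kap_kap, map_neg, map_mul, par_io]

theorem tau_par (a : Λ m) : tau (par a) = par (tau a) :=
  tau_mp (fun w => map_neg kap w) a

theorem tau_mc (T : E m →L[ℂ] E m) (a : Λ m) : tau (mc T a) = mc T (tau a) :=
  tau_mp (fun w => ContinuousLinearMap.ext fun v => congrArg (fun y => conj (w y)) (map_smul T I v)) a

theorem tau_ct (s : Bool) (v : E m) (a : Λ m) :
    tau (ct (vec s v) a) = sg s I • par (ct (vec (!s) v) (tau a)) := by
  induction a using ind with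
  | one => rw [tau_one, ct_one, ct_one, map_zero, map_zero, smul_zero]
  | smul c a k => rw [map_smul, map_smulₛₗ, map_smulₛₗ tau, map_smul, map_smul, k, smul_comm]
  | add a b ha hb => simp only [map_add, ha, hb, smul_add]
  | mul w a k =>
    rw [ct_io_mul, map_sub, map_smulₛₗ, tau_mul, tau_mul, k, tau_io, ct_mul, ct_io, ← vec_kap,
      mul_smul_comm, mul_one, map_add, map_smul, par_par, map_mul, par_io, smul_add, smul_smul,
      mul_neg, smul_neg, smul_mul_assoc, neg_add_eq_sub]

/-- `tau` as a real linear map -/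
noncomputable def PtA.tauL : Λ m →L[ℝ] Λ m := LinearMap.toContinuousLinearMap
  ⟨⟨tau, tau.map_add⟩, fun r a => (map_smulₛₗ tau (r : ℂ) a).trans (by rw [Complex.conj_ofReal]; rfl)⟩

theorem PtA.vv_tau (s : Bool) (v : E m) (K : E m →L[ℝ] Λ m) :
    vv (!s) v (tauL.comp K) = tau (vv s v K) := by
  rw [vv, vv, map_smulₛₗ tau, map_sub, map_smulₛₗ tau, map_inv₀, map_ofNat,
    show conj (sg s I) = sg (!s) I by cases s <;> simp]
  rfl

theorem sm_tau {Y : Type} [NormedAddCommGroup Y] [NormedSpace ℝ Y] {u : Y → Λ m} {x : Y}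
    (h : ContDiffAt ℝ ∞ u x) : ContDiffAt ℝ ∞ (fun y => tau (u y)) x :=
  tauL.contDiff.contDiffAt.comp x h

theorem tau_db (s : Bool) {u : E m → Λ m} {x : E m} (h : DifferentiableAt ℝ u x) :
    tau (db s idE u x) = (-sg s I) • db (!s) idE (fun y => par (tau (u y))) x := by
  have a : HasFDerivAt (fun y => tau (u y)) _ x := tauL.hasFDerivAt.comp x h.hasFDerivAt
  rw [db_id, db_id, show (fderiv ℝ (fun y => par (tau (u y))) x) = _ from
    fderiv_T par.toLinearMap a.differentiableAt, a.fderiv, al_apply, al_apply, map_sum,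
    Finset.smul_sum]
  refine Finset.sum_congr rfl fun j _ => ?_
  rw [vv_comp, vv_tau, tau_mul, tau_dz, mul_smul_comm, ← io_mul_par]
  rfl

theorem par_db (s : Bool) {u : E m → Λ m} {x : E m} (h : DifferentiableAt ℝ u x) :
    par (db s idE u x) = -db s idE (fun y => par (u y)) x := by
  rw [db_id, db_id, show (fderiv ℝ (fun y => par (u y)) x) = _ from fderiv_T par.toLinearMap h,
    al_apply, al_apply, map_sum, ← Finset.sum_neg_distrib]
  refine Finset.sum_congr rfl fun j _ => ?_
  rw [vv_comp, map_mul, par_io, neg_mul]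
  rfl

theorem num_db (s s' : Bool) {u : E m → Λ m} {x : E m} (h : DifferentiableAt ℝ u x) :
    num s' (db s idE u x) = db s idE (fun y => num s' (u y)) x + (dl s' s : ℂ) • db s idE u x := by
  rw [db_id, db_id, fderiv_T _ h, al_apply, al_apply, map_sum, Finset.smul_sum,
    ← Finset.sum_add_distrib]
  refine Finset.sum_congr rfl fun j _ => ?_
  rw [vv_comp, num_mul, show num s' (io (dz s j)) = _ from io_cv_mem s' s _, smul_mul_assoc, add_comm]
  rfl

theorem exists_top : ∃ t : Λ m →ₗ[ℂ] ℂ, (∀ f a, t (ct f a) = 0) ∧ (∃ a, t a ≠ 0) ∧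
    ∀ (A : W m →ₗ[ℂ] W m) a, t (mp A a) = LinearMap.det A * t a := by
  let e := Module.finBasis ℂ (W m)
  let F : ∀ i, W m [⋀^Fin i]→ₗ[ℂ] ℂ := Pi.single (Module.finrank ℂ (W m)) e.det
  let t : Λ m →ₗ[ℂ] ℂ := ExteriorAlgebra.liftAlternating F
  have a : ∀ i v, t (ExteriorAlgebra.ιMulti ℂ i v) = F i v := fun i v =>
    ExteriorAlgebra.liftAlternating_apply_ιMulti F v
  have b : ∀ (A : W m →ₗ[ℂ] W m) a, t (mp A a) = LinearMap.det A * t a := fun A =>
    LinearMap.congr_fun (ExteriorAlgebra.lhom_ext (f := t ∘ₗ (mp A).toLinearMap)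
      (g := LinearMap.det A • t) fun i => AlternatingMap.ext fun v => by
        refine (congrArg t (ExteriorAlgebra.map_apply_ιMulti A v)).trans ((a _ _).trans
          (.trans ?_ (congrArg (LinearMap.det A * ·) (a i v)).symm))
        by_cases k : i = Module.finrank ℂ (W m)
        · subst k
          simp only [F, Pi.single_eq_same, e.det_comp]
        · simp [F, k])
  refine ⟨t, fun f => LinearMap.congr_fun (ExteriorAlgebra.lhom_ext (f := t ∘ₗ ct f) (g := 0)
    fun i => AlternatingMap.ext fun v => ?_), ⟨_, (a _ e).trans_ne (by simp [F, e.det_ne_zero])⟩, b⟩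
  change t (ct f (ExteriorAlgebra.ιMulti ℂ i v)) = 0
  by_cases k : i = Module.finrank ℂ (W m) + 1
  · rw [(ExteriorAlgebra.ιMulti ℂ i).map_linearDependent v fun l => by
      have := l.fintype_card_le_finrank
      rw [Fintype.card_fin] at this
      omega]
    exact (congrArg t (map_zero _)).trans (map_zero _)
  obtain ⟨z, hz⟩ : ∃ z : Λ m, z = ExteriorAlgebra.ιMulti ℂ i v := ⟨_, rfl⟩
  have c : mp ((2 : ℂ) • LinearMap.id) z = (2 : ℂ) ^ i • z :=
    hz ▸ (ExteriorAlgebra.map_apply_ιMulti _ v).trans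
      (((ExteriorAlgebra.ιMulti ℂ i).map_smul_univ (fun _ => 2) v).trans (by simp; rfl))
  have d := congrArg t (ct_mp f ((2 : ℂ) • LinearMap.id) z)
  rw [← hz]
  rw [c, b, LinearMap.comp_smul, LinearMap.comp_id, LinearMap.det_smul, LinearMap.det_id, mul_one,
    map_smul, map_smul, map_smul, LinearMap.smul_apply, map_smul, smul_eq_mul, smul_eq_mul,
    ← mul_assoc, ← pow_succ] at d
  exact (mul_eq_mul_right_iff.1 d).resolve_left fun q => k
    (Nat.pow_right_injective le_rfl (by exact_mod_cast q))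

/-- A coordinate on the forms of top degree. -/
noncomputable def top0 : Λ m →ₗ[ℂ] ℂ := exists_top.choose

theorem top0_ct (f : Module.Dual ℂ (W m)) (a : Λ m) : top0 (ct f a) = 0 :=
  exists_top.choose_spec.1 f a

theorem top0_ne : ∃ a : Λ m, top0 a ≠ 0 := exists_top.choose_spec.2.1

theorem top0_mp (A : W m →ₗ[ℂ] W m) (a : Λ m) : top0 (mp A a) = LinearMap.det A * top0 a :=
  exists_top.choose_spec.2.2 A a

theorem det_tr (T : E m →L[ℂ] E m) :
    LinearMap.det (tr (T.restrictScalars ℝ)) = ((|(T.restrictScalars ℝ).det| : ℝ) : ℂ) := by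
  rw [PtA.det_tr, abs_of_nonneg (a := (T.restrictScalars ℝ).det)
    (((LinearMap.det_restrictScalars (f := T.toLinearMap)).trans
      (Algebra.norm_complex_apply _)).ge.trans' (Complex.normSq_nonneg _))]

theorem top0_par (a : Λ m) : top0 (par a) = top0 a := by
  have := top0_mp (tr ((-1 : E m →L[ℂ] E m).restrictScalars ℝ)) a
  rw [det_tr, show ((-1 : E m →L[ℂ] E m).restrictScalars ℝ).det =
    LinearMap.det ((-1 : ℝ) • LinearMap.id (R := ℝ) (M := E m)) from congrArg LinearMap.det
      (LinearMap.ext fun v => (neg_one_smul ℝ v).symm), LinearMap.det_smul, LinearMap.det_id, mul_one, abs_pow, abs_neg,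
    abs_one, one_pow, Complex.ofReal_one, one_mul] at this
  exact (congrArg (fun A => top0 (mp A a)) (LinearMap.ext fun w => ContinuousLinearMap.ext fun v =>
    (map_neg w v).symm)).trans this

theorem top0_Dg {k : ℤ} {a : Λ m} (ha : a ∈ Dg k) (hk : k ≠ 2 * (m + 1)) : top0 a = 0 := by
  have b : ∀ f w, top0 (io w * ct f a) = f w * top0 a := fun f w => by
    have := top0_ct f (io w * a)
    rw [ct_io_mul, map_sub, map_smul] at this
    exact (sub_eq_zero.1 this).symm
  have c := congrArg top0 (mem_Dg.1 ha)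
  simp only [map_add, num_apply, map_sum, b, vec_ee_dz, and_self, if_true, one_mul, map_smul,
    Finset.sum_const, Finset.card_univ, Fintype.card_fin, nsmul_eq_mul, smul_eq_mul, ← add_mul] at c
  exact (mul_eq_mul_right_iff.1 c).resolve_left fun q => hk (by
    have : (((m + 1 : ℕ) + (m + 1 : ℕ) : ℤ) : ℂ) = k := by exact_mod_cast q
    have := Int.cast_injective this
    omega)

end Vale.Agent.P269.Hdx
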