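import Mathlib.Analysis.Complex.Basic
import Mathlib.RingTheory.Nilpotent.Basic
import Mathlib.RingTheory.Nilpotent.Lemmas

/-!
# P269, Hodge decomposition: `sl₂`-triples in an algebra, the Weyl element
-/

namespace Vale.Agent.P269.Hdx

variable {A B : Type*} [Ring A] [Algebra ℂ A] [Ring B] [Algebra ℂ B] {n n' : ℕ}
  {L M M' H X Z a x y : A}

/-- The truncated exponential. -/
noncomputable def ex (n : ℕ) (a : A) : A :=
  ∑ k ∈ Finset.range (n + 1), ((k.factorial : ℂ)⁻¹) • a ^ k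

/-- The Weyl element. -/
noncomputable def wy (n : ℕ) (L M : A) : A := ex n L * ex n (-M) * ex n L

/-- An `sl₂`-triple with nilpotent raising and lowering operators. -/
structure Sl2 (n : ℕ) (L M H : A) : Prop where
  lm : L * M - M * L = H
  hl : H * L - L * H = (2 : ℂ) • L
  hm : H * M - M * H = -((2 : ℂ) • M)
  nl : L ^ n = 0
  nm : M ^ n = 0

namespace SlA

theorem pow_mul (h1 : a * x - x * a = y) (h2 : a * y = y * a) (k : ℕ) :
    a ^ (k + 1) * x = x * a ^ (k + 1) + ((k : ℂ) + 1) • (y * a ^ k) := by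
  have e := sub_eq_iff_eq_add'.1 h1
  induction k with
  | zero => simpa using e
  | succ k ih =>
    rw [pow_succ' a (k + 1), mul_assoc, ih, mul_add, mul_smul_comm, ← mul_assoc, e, ← mul_assoc, h2,
      mul_assoc y, ← pow_succ', add_mul, mul_assoc, Nat.cast_succ, add_smul (_ + 1), one_smul]
    abel

omit [Algebra ℂ A] in
theorem neg_pow_eq (h : a ^ n = 0) : (-a) ^ n = 0 := by rw [neg_pow, h, mul_zero]

theorem low {V : Type*} [AddCommGroup V] [Module ℂ V] {L M H : Module.End ℂ V}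
    (lm : L * M - M * L = H) (hl : H * L - L * H = (2 : ℂ) • L) {v : V} {μ : ℂ} (h0 : M v = 0)
    (h1 : H v = μ • v) (k : ℕ) :
    M ((L ^ (k + 1)) v) = (-(((k : ℂ) + 1) * (μ + k))) • (L ^ k) v := by
  have a : ∀ u, M (L u) = L (M u) - H u := fun u => by simp [← lm]
  have b : ∀ u, H (L u) = L (H u) + (2 : ℂ) • L u := fun u =>
    sub_eq_iff_eq_add'.1 (LinearMap.congr_fun hl u)
  have c : ∀ k : ℕ, H ((L ^ k) v) = (μ + 2 * k) • (L ^ k) v := fun k => by
    induction k with
    | zero => simpa using h1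
    | succ k ih =>
      rw [pow_succ', Module.End.mul_apply, b, ih, map_smul, ← add_smul, Nat.cast_succ]
      exact congrArg (· • _) (by ring)
  induction k with
  | zero => simp [a, h0, h1]
  | succ k ih =>
    rw [pow_succ' L (k + 1), Module.End.mul_apply, a, ih, c, map_smul, ← Module.End.mul_apply,
      ← pow_succ', ← sub_smul, Nat.cast_succ]
    exact congrArg (· • _) (by ring)

/-- The adjoint action. -/
def ad (a : A) : Module.End ℂ A := LinearMap.mulLeft ℂ a - LinearMap.mulRight ℂ a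

theorem ad_apply (a x : A) : ad a x = a * x - x * a := rfl

theorem ad_lie (a x : A) : ad a * ad x - ad x * ad a = ad (a * x - x * a) :=
  LinearMap.ext fun u => by
    simp only [LinearMap.sub_apply, Module.End.mul_apply, ad_apply]
    noncomm_ring

theorem ad_nil (h : a ^ n = 0) : IsNilpotent (ad a) :=
  (LinearMap.commute_mulLeft_right a a).isNilpotent_sub
    ((LinearMap.isNilpotent_mulLeft_iff ℂ a).2 ⟨n, h⟩)
    ((LinearMap.isNilpotent_mulRight_iff ℂ a).2 ⟨n, h⟩)

theorem ex_mem {V : Type*} [AddCommGroup V] [Module ℂ V] {L : Module.End ℂ V} (K : Submodule ℂ V)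
    (hL : ∀ v ∈ K, L v ∈ K) {v : V} (hv : v ∈ K) : ex n L v ∈ K := by
  rw [ex, LinearMap.sum_apply]
  refine K.sum_mem fun k _ => K.smul_mem _ ?_
  exact Module.End.pow_apply_mem_of_forall_mem _ hL v hv

theorem ex_comm (h : x * a = a * x) : x * ex n a = ex n a * x :=
  Commute.sum_right _ _ _ fun k _ => (Commute.pow_right h k).smul_right _

end SlA

theorem map_ex (φ : A →ₐ[ℂ] B) (n : ℕ) (a : A) : φ (ex n a) = ex n (φ a) := by
  simp only [ex, map_sum, map_smul, map_pow]

theorem map_wy (φ : A →ₐ[ℂ] B) (n : ℕ) (L M : A) : φ (wy n L M) = wy n (φ L) (φ M) := by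
  simp only [wy, map_mul, map_ex, map_neg]

theorem ex_mul (h1 : a * x - x * a = y) (h2 : a * y = y * a) (hn : a ^ n = 0) :
    ex n a * x = (x + y) * ex n a := by
  have e : ∀ k : ℕ, (((k + 1).factorial : ℂ)⁻¹) * ((k : ℂ) + 1) = (k.factorial : ℂ)⁻¹ := fun k => by
    rw [Nat.factorial_succ, Nat.cast_mul, Nat.cast_succ, mul_inv, mul_right_comm,
      inv_mul_cancel₀ (Nat.cast_add_one_ne_zero k), one_mul]
  have b : y * ex n a = ∑ k ∈ Finset.range n, ((k.factorial : ℂ)⁻¹) • (y * a ^ k) := by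
    simp only [ex, Finset.sum_range_succ, hn, smul_zero, add_zero, Finset.mul_sum, mul_smul_comm]
  rw [add_mul, b]
  simp only [ex, Finset.sum_range_succ', add_mul, mul_add, Finset.sum_mul, Finset.mul_sum,
    smul_mul_assoc, mul_smul_comm, SlA.pow_mul h1 h2, smul_add, smul_smul, e,
    Finset.sum_add_distrib, pow_zero, one_mul, mul_one]
  abel

theorem isUnit_ex (hn : a ^ n = 0) : IsUnit (ex n a) := by
  rw [ex, Finset.sum_range_succ', pow_zero, Nat.factorial_zero, Nat.cast_one, inv_one, one_smul]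
  refine IsNilpotent.isUnit_add_one (Commute.isNilpotent_sum (fun k _ => .smul ⟨n, ?_⟩ _)
    fun i j _ _ => ((Commute.pow_pow_self a _ _).smul_left _).smul_right _)
  rw [← pow_mul, mul_comm, pow_mul, hn, zero_pow k.succ_ne_zero]

theorem wy_comm (h1 : x * L = L * x) (h2 : x * M = M * x) : x * wy n L M = wy n L M * x :=
  (Commute.mul_right (SlA.ex_comm h1) (SlA.ex_comm (Commute.neg_right h2))).mul_right
    (SlA.ex_comm h1)

namespace Sl2

variable (h : Sl2 n L M H)
include h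

theorem map (φ : A →ₐ[ℂ] B) : Sl2 n (φ L) (φ M) (φ H) :=
  ⟨by simpa using congrArg φ h.lm, by simpa using congrArg φ h.hl, by simpa using congrArg φ h.hm,
    by simpa using congrArg φ h.nl, by simpa using congrArg φ h.nm⟩

theorem isUnit_wy : IsUnit (wy n L M) :=
  ((isUnit_ex h.nl).mul (isUnit_ex (SlA.neg_pow_eq h.nm))).mul (isUnit_ex h.nl)

/-- there is no highest weight vector of negative weight -/
theorem hw {k : ℕ} (h1 : L * Z = Z * L) (h2 : H * Z - Z * H = -(((k : ℂ) + 1) • Z)) : Z = 0 := by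
  have e := SlA.low (L := SlA.ad M) (M := SlA.ad L) (μ := k + 1) (v := Z) (SlA.ad_lie M L)
    ((SlA.ad_lie _ _).trans (LinearMap.ext fun u => by
      rw [← neg_sub (L * M), h.lm, neg_mul, mul_neg, ← neg_sub', h.hm, neg_neg]
      simp [SlA.ad_apply, smul_sub])) (sub_eq_zero.2 h1)
    (by rw [← neg_sub, h.lm, SlA.ad_apply, neg_mul, mul_neg, ← neg_sub', h2, neg_neg])
  obtain ⟨N, b⟩ := SlA.ad_nil h.nm
  have c : ∀ j, (SlA.ad M ^ j) Z = 0 → Z = 0 := fun j => by
    induction j with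
    | zero => exact id
    | succ j ih =>
      refine fun g => ih ((smul_eq_zero.1 ((e j).symm.trans (by rw [g, map_zero]))).resolve_left
        (neg_ne_zero.2 (mul_ne_zero (Nat.cast_add_one_ne_zero j) ?_)))
      exact_mod_cast (by omega : k + 1 + j ≠ 0)
  exact c N (by rw [b, LinearMap.zero_apply])

theorem unique (h' : Sl2 n' L M' H) : M = M' :=
  sub_eq_zero.1 (h.hw (k := 1)
    (by rw [mul_sub, sub_mul, sub_eq_sub_iff_sub_eq_sub, h.lm, h'.lm])
    (by rw [mul_sub, sub_mul, sub_sub_sub_comm, h.hm, h'.hm, Nat.cast_one, one_add_one_eq_two,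
      smul_sub, neg_sub_neg, neg_sub]))

theorem lie_aux (h1 : L * X = X * L) (h2 : H * X - X * H = X) :
    L * (M * X - X * M) - (M * X - X * M) * L = X ∧ M * (M * X - X * M) = (M * X - X * M) * M := by
  have j := fun a x u : A => LinearMap.congr_fun (SlA.ad_lie a x) u
  simp only [LinearMap.sub_apply, Module.End.mul_apply, sub_eq_iff_eq_add (a := SlA.ad _ _)] at j
  have a0 : SlA.ad L X = 0 := sub_eq_zero.2 h1
  have a1 : SlA.ad H X = X := h2
  have m : ∀ u, SlA.ad (-((2 : ℂ) • M)) u = -((2 : ℂ) • SlA.ad M u) := fun u => by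
    simp only [SlA.ad_apply, neg_mul, mul_neg, smul_mul_assoc, mul_smul_comm, smul_sub]
    abel
  have a2 : SlA.ad L (SlA.ad M X) = X := by rw [j, h.lm, a0, a1, map_zero, add_zero]
  have a3 : SlA.ad H (SlA.ad M X) = -SlA.ad M X := by
    rw [j, h.hm, a1, m, two_smul]
    abel
  refine ⟨a2, sub_eq_zero.1 (h.hw (Z := SlA.ad M (SlA.ad M X)) (k := 2) (sub_eq_zero.1 ?_) ?_)⟩
  · change SlA.ad L _ = _
    rw [j, h.lm, a2, a3, neg_add_cancel]
  · change SlA.ad H _ = _
    rw [j, h.hm, a3, m, map_neg, add_smul, one_smul, Nat.cast_ofNat, neg_add]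

theorem wy_mul (h1 : L * X = X * L) (h2 : H * X - X * H = X) :
    wy n L M * X = -((M * X - X * M) * wy n L M) := by
  obtain ⟨a, b⟩ := h.lie_aux h1 h2
  generalize e : M * X - X * M = Y at a b
  have e1 : ex n L * X = X * ex n L := (SlA.ex_comm h1.symm).symm
  have e2 : ex n (-M) * X = (X + -Y) * ex n (-M) :=
    ex_mul (by rw [← e]; noncomm_ring) (by rw [neg_mul_neg, neg_mul_neg, b]) (SlA.neg_pow_eq h.nm)
  have e3 : ex n L * (X + -Y) = (X + -Y + -X) * ex n L :=
    ex_mul (by rw [mul_add, add_mul, h1, add_sub_add_left_eq_sub, mul_neg, neg_mul, ← neg_sub', a])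
      (by rw [mul_neg, neg_mul, h1]) h.nl
  rw [wy, mul_assoc, e1, ← mul_assoc, mul_assoc _ _ X, e2, ← mul_assoc, e3]
  noncomm_ring

theorem wy_mul' (h1 : L * X = X * L) (h2 : H * X - X * H = X) :
    wy n L M * (M * X - X * M) = X * wy n L M := by
  obtain ⟨a, b⟩ := h.lie_aux h1 h2
  generalize e : M * X - X * M = Y at a b
  have e1 : ex n L * X = X * ex n L := (SlA.ex_comm h1.symm).symm
  have e2 : ex n (-M) * (Y + X) = (Y + X + -Y) * ex n (-M) :=
    ex_mul (by rw [mul_add, add_mul, neg_mul, b, ← e]; noncomm_ring)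
      (by rw [neg_mul_neg, neg_mul_neg, b]) (SlA.neg_pow_eq h.nm)
  have e3 : ex n L * Y = (Y + X) * ex n L := ex_mul a h1 h.nl
  rw [wy, mul_assoc, e3, ← mul_assoc, mul_assoc _ _ (Y + X), e2, add_right_comm, add_neg_cancel,
    zero_add, ← mul_assoc, e1]
  simp only [mul_assoc]

end Sl2

/-- a subspace which is stable under `L` and `M` is stable under the Weyl element -/
theorem wy_mem {V : Type*} [AddCommGroup V] [Module ℂ V] {L M : Module.End ℂ V} (K : Submodule ℂ V)
    (hL : ∀ v ∈ K, L v ∈ K) (hM : ∀ v ∈ K, M v ∈ K) {v : V} (hv : v ∈ K) : wy n L M v ∈ K :=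
  SlA.ex_mem K hL (SlA.ex_mem K (fun v a => K.neg_mem (hM v a)) (SlA.ex_mem K hL hv))

theorem Sl2.low_pow {V : Type*} [AddCommGroup V] [Module ℂ V] {L M H : Module.End ℂ V}
    (h : Sl2 n L M H) {v : V} {μ : ℂ} (h0 : M v = 0) (h1 : H v = μ • v) (k : ℕ) :
    M ((L ^ (k + 1)) v) = (-(((k : ℂ) + 1) * (μ + k))) • (L ^ k) v := SlA.low h.lm h.hl h0 h1 k

end Vale.Agent.P269.Hdx
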