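import Vale.Agent.P269.Hdx.PtA
import Vale.Agent.P269.Hdx.Sl2
import Mathlib.Analysis.Matrix.Order
import Mathlib.Analysis.InnerProductSpace.Positive

/-!
# P269, Hodge decomposition: positive `(1,1)`-forms and their `sl₂`-triples
-/

namespace Vale.Agent.P269.Hdx

open Hdg
open scoped ComplexConjugate ContDiff ComplexOrder
open Complex (I)

variable {m : ℕ} {κ a : Λ m}

/-- The matrix of a `(1,1)`-form. -/
noncomputable def gm (κ : Λ m) : Matrix (Fin (m + 1)) (Fin (m + 1)) ℂ :=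
  Matrix.of fun j k => sca (ct (vec false (ee k)) (ct (vec true (ee j)) κ))

/-- The Lefschetz operator. -/
noncomputable abbrev Lw (κ : Λ m) : Module.End ℂ (Λ m) := LinearMap.mulLeft ℂ κ

/-- The dual Lefschetz operator. -/
noncomputable def Lm (κ : Λ m) : Module.End ℂ (Λ m) :=
  ∑ j, ∑ k, (gm κ)⁻¹ k j • (ct (vec false (ee k)) ∘ₗ ct (vec true (ee j)))

/-- The degree minus the dimension. -/
noncomputable def Hn : Module.End ℂ (Λ m) := num true + num false - ((m : ℂ) + 1) • 1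

/-- The Weyl element. -/
noncomputable def Ww (κ : Λ m) : Module.End ℂ (Λ m) := wy (m + 2) (Lw κ) (Lm κ)

/-- The standard form. -/
noncomputable def om0 : Λ m := I • ∑ j, io (dz true j) * io (dz false j)

/-- Positive `(1,1)`-forms. -/
structure Pos (κ : Λ m) : Prop where
  ty : κ ∈ Ty 1 1
  pos : ∀ v, v ≠ 0 → 0 < -I * sca (ct (vec false v) (ct (vec true v) κ))

namespace PtB

theorem Lm_apply (κ a : Λ m) :
    Lm κ a = ∑ j, ∑ k, (gm κ)⁻¹ k j • ct (vec false (ee k)) (ct (vec true (ee j)) a) := by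
  simp only [Lm, LinearMap.coe_sum, Finset.sum_apply, LinearMap.smul_apply, LinearMap.comp_apply]

theorem Hn_apply (a : Λ m) : Hn a = num true a + num false a - ((m : ℂ) + 1) • a := rfl

theorem Hn_ty {p q : ℤ} (h : a ∈ Ty p q) : Hn a = ((p : ℂ) + q - (m + 1)) • a := by
  rw [Hn_apply, mem_Eg.1 h.1, mem_Eg.1 h.2, sub_smul, add_smul (p : ℂ)]

theorem Lm_ty {p q : ℤ} (h : a ∈ Ty p q) (κ : Λ m) : Lm κ a ∈ Ty (p + -1) (q + -1) := by
  rw [Lm_apply]
  refine Submodule.sum_mem _ fun j _ => Submodule.sum_mem _ fun k _ => Submodule.smul_mem _ _ ?_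
  simpa [sub_eq_add_neg] using ct_mem_Ty (ct_mem_Ty h true (ee j)) false (ee k)

theorem sca_mp (A : W m →ₗ[ℂ] W m) (a : Λ m) : sca (mp A a) = sca a := by
  refine smul_one_injective (N := m) ?_
  rw [← mp_zero, ← mp_zero, mp_mp, LinearMap.zero_comp]

theorem ct_mc (s : Bool) (v : E m) (T : E m →L[ℂ] E m) (a : Λ m) :
    ct (vec s v) (mc T a) = mc T (ct (vec s (T v)) a) := by
  rw [ct_mp, vec_comp_tr]

theorem sca_ct (v w : E m) (κ : Λ m) :
    sca (ct (vec false w) (ct (vec true v) κ)) = ∑ j, ∑ k, v j * conj (w k) * gm κ j k := by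
  rw [vec_eq_sum true v, vec_eq_sum false w]
  simp only [map_sum, map_smul, LinearMap.coe_sum, Finset.sum_apply, LinearMap.smul_apply,
    smul_eq_mul, Finset.mul_sum, sg_true, sg_false, gm, Matrix.of_apply]
  exact Finset.sum_congr rfl fun j _ => Finset.sum_congr rfl fun k _ => by ring

theorem ct_ct_eq (h : κ ∈ Ty 1 1) (j k : Fin (m + 1)) :
    ct (vec false (ee k)) (ct (vec true (ee j)) κ) = gm κ j k • (1 : Λ m) :=
  eq_sca (by simpa using ct_mem_Ty (ct_mem_Ty h true (ee j)) false (ee k))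

theorem ct_t (h : κ ∈ Ty 1 1) (j : Fin (m + 1)) :
    ct (vec true (ee j)) κ = ∑ k, gm κ j k • io (dz false k) := by
  have h1 : num false (ct (vec true (ee j)) κ) = ct (vec true (ee j)) κ := by
    simpa using mem_Eg.1 (ct_mem_Ty h true (ee j)).2
  rw [← h1, num_apply]
  simp only [ct_ct_eq h, mul_smul_comm, mul_one]

theorem ct_f (h : κ ∈ Ty 1 1) (k : Fin (m + 1)) :
    ct (vec false (ee k)) κ = -∑ j, gm κ j k • io (dz true j) := by
  have h1 : num true (ct (vec false (ee k)) κ) = ct (vec false (ee k)) κ := by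
    simpa using mem_Eg.1 (ct_mem_Ty h false (ee k)).1
  rw [← h1, num_apply, ← Finset.sum_neg_distrib]
  simp only [ct_comm (vec true _) (vec false _), ct_ct_eq h, mul_smul_comm, mul_one, mul_neg]

theorem om0_ty : (om0 : Λ m) ∈ Ty 1 1 :=
  Submodule.smul_mem _ _ (Submodule.sum_mem _ fun j _ => by
    simpa [dz] using Ty_mul (io_cv_mem_Ty true (.proj j : E m →L[ℂ] ℂ)) (io_cv_mem_Ty false (.proj j)))

theorem sca_om0 (v w : E m) :
    sca (ct (vec false w) (ct (vec true v) (om0 : Λ m))) = I * ∑ j, v j * conj (w j) := by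
  simp [om0, ct_io_mul, ct_io, vec_dz]

theorem gm_om0 : gm (om0 : Λ m) = I • 1 := by
  ext j k
  simp [gm, sca_om0, ee, Pi.single_apply, Matrix.one_apply, eq_comm]

theorem shift {X : Module.End ℂ (Λ m)} {c : ℤ}
    (h : ∀ p q a, a ∈ Ty p q → X a ∈ Ty (p + c) (q + c)) :
    Hn * X - X * Hn = ((2 * c : ℤ) : ℂ) • X :=
  LinearMap.ext <| ty_ext _ _ fun p q a ha => by
    simp only [LinearMap.sub_apply, Module.End.mul_apply, Hn_ty ha, Hn_ty (h p q a ha), map_smul,
      LinearMap.smul_apply, ← sub_smul]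
    congr 1; push_cast; ring

theorem shift_pow {X : Module.End ℂ (Λ m)} {c : ℤ}
    (h : ∀ p q a, a ∈ Ty p q → X a ∈ Ty (p + c) (q + c)) (n : ℕ) {p q : ℤ} (ha : a ∈ Ty p q) :
    (X ^ n) a ∈ Ty (p + n * c) (q + n * c) := by
  induction n with
  | zero => simpa using ha
  | succ n ih =>
    rw [pow_succ', Module.End.mul_apply]
    simpa [add_mul, add_assoc] using h _ _ _ ih

theorem posDef {n : Type} [Fintype n] [DecidableEq n] {A : Matrix n n ℂ}
    (h : ∀ x, x ≠ 0 → 0 < star x ⬝ᵥ A.mulVec x) : A.PosDef := by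
  refine .of_dotProduct_mulVec_pos (Matrix.isSymmetric_toEuclideanLin_iff.1
    ((LinearMap.isSymmetric_iff_inner_map_self_real _).2 fun v => ?_)) h
  have h0 : 0 ≤ star v.ofLp ⬝ᵥ A.mulVec v.ofLp := by
    by_cases e : v.ofLp = 0
    · simp [e]
    · exact (h _ e).le
  rw [← inner_conj_symm, Complex.conj_conj, eq_comm, Complex.conj_eq_iff_im,
    EuclideanSpace.inner_eq_star_dotProduct, dotProduct_comm]
  exact (Complex.nonneg_iff.1 h0).2.symm

end PtB

open PtB

theorem eq_gm (h : κ ∈ Ty 1 1) : κ = ∑ j, ∑ k, gm κ j k • (io (dz true j) * io (dz false k)) := by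
  have h1 : num true κ = κ := by simpa using mem_Eg.1 h.1
  conv_lhs => rw [← h1, num_apply]
  simp only [ct_t h, Finset.mul_sum, mul_smul_comm]

theorem pos_om0 : Pos (om0 : Λ m) := ⟨om0_ty, fun v hv => by
  rw [sca_om0, ← mul_assoc, neg_mul, Complex.I_mul_I, neg_neg, one_mul]; exact nu_pos hv⟩

theorem Lm_om0 (a : Λ m) : Lm om0 a = -I • ∑ j, ct (vec false (ee j)) (ct (vec true (ee j)) a) := by
  have : (gm (om0 : Λ m))⁻¹ = -I • 1 := Matrix.inv_eq_right_inv (by simp [gm_om0, smul_smul])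
  simp [Lm_apply, this, Matrix.one_apply, Finset.smul_sum]

theorem Hn_mc (T : E m →L[ℂ] E m) (a : Λ m) : Hn (mc T a) = mc T (Hn a) := by
  simp only [Hn_apply, num_mp (pr_tr _ T), map_sub, map_add, map_smul]

theorem par_Lm (κ a : Λ m) : par (Lm κ a) = Lm κ (par a) := by
  simp only [Lm_apply, map_sum, map_smul, ct_par, map_neg, neg_neg]

theorem mc_mc_symm (T : E m ≃L[ℂ] E m) (a : Λ m) :
    mc (T : E m →L[ℂ] E m) (mc (T.symm : E m →L[ℂ] E m) a) = a := by
  rw [mp_mp, tr_comp]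
  convert mp_id a
  rw [← tr_id]
  congr 1
  ext v : 1
  exact T.symm_apply_apply v

/-- The pull-back along a linear automorphism, acting on the operators. -/
noncomputable def PtB.cj (T : E m ≃L[ℂ] E m) : Module.End ℂ (Λ m) →ₐ[ℂ] Module.End ℂ (Λ m) :=
  (LinearEquiv.conjAlgEquiv ℂ (LinearEquiv.ofLinearMap (mc (T : E m →L[ℂ] E m)).toLinearMap
    (mc (T.symm : E m →L[ℂ] E m)).toLinearMap (LinearMap.ext (mc_mc_symm T))
    (LinearMap.ext (mc_mc_symm T.symm)))).toAlgHom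

theorem PtB.cj_apply (T : E m ≃L[ℂ] E m) (X : Module.End ℂ (Λ m)) (a : Λ m) :
    cj T X a = mc (T : E m →L[ℂ] E m) (X (mc (T.symm : E m →L[ℂ] E m) a)) := rfl

theorem PtB.cj_mc (T : E m ≃L[ℂ] E m) (X : Module.End ℂ (Λ m)) (a : Λ m) :
    cj T X (mc (T : E m →L[ℂ] E m) a) = mc (T : E m →L[ℂ] E m) (X a) :=
  congrArg (fun b => mc (T : E m →L[ℂ] E m) (X b)) (mc_mc_symm T.symm a)

theorem PtB.cj_Lw (T : E m ≃L[ℂ] E m) (κ : Λ m) :
    cj T (Lw κ) = Lw (mc (T : E m →L[ℂ] E m) κ) := LinearMap.ext fun a => by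
  rw [cj_apply, LinearMap.mulLeft_apply, map_mul, mc_mc_symm, LinearMap.mulLeft_apply]

theorem PtB.cj_Hn (T : E m ≃L[ℂ] E m) : cj T Hn = Hn := LinearMap.ext fun a => by
  rw [cj_apply, ← Hn_mc, mc_mc_symm]

namespace Pos

variable (h : Pos κ)
include h

theorem par_eq : par κ = κ := by
  rw [par_of_mem h.ty]; norm_num

theorem comm (a : Λ m) : κ * a = a * κ := by
  induction a using ind with
  | one => simp
  | smul c a e => simp [e]
  | add a b ha hb => simp [mul_add, add_mul, ha, hb]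
  | mul w a e => rw [← mul_assoc, ← h.par_eq, ← io_mul_eq, h.par_eq, mul_assoc, e, mul_assoc]

theorem posDef : (-I • gm κ).transpose.PosDef := PtB.posDef fun x hx => by
  convert h.pos x hx using 1
  simp only [sca_ct, dotProduct, Matrix.mulVec, Finset.mul_sum, Matrix.transpose_apply,
    Matrix.smul_apply, smul_eq_mul, Pi.star_apply, Complex.star_def]
  rw [Finset.sum_comm]
  exact Finset.sum_congr rfl fun j _ => Finset.sum_congr rfl fun k _ => by ring

theorem det_ne : (gm κ).det ≠ 0 := fun e => by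
  have := h.posDef.det_pos.ne'
  rw [Matrix.det_transpose, Matrix.det_smul, e, mul_zero] at this
  exact this rfl

open scoped MatrixOrder in
theorem exists_mc : ∃ T : E m ≃L[ℂ] E m, κ = mc (T : E m →L[ℂ] E m) om0 := by
  obtain ⟨B, hB, e⟩ := CStarAlgebra.isStrictlyPositive_iff_eq_star_mul_self.mp
    h.posDef.isStrictlyPositive
  let T := (B.toLinearEquiv' hB.invertible).toContinuousLinearEquiv
  have hT : ∀ j l, (T : E m →L[ℂ] E m) (ee j) l = B l j := fun j l => by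
    change B.mulVec (Pi.single j 1) l = _
    simp
  refine ⟨T, ?_⟩
  rw [eq_gm h.ty, eq_gm (mp_tr_mem (T : E m →L[ℂ] E m) om0_ty)]
  refine Finset.sum_congr rfl fun j _ => Finset.sum_congr rfl fun k _ => ?_
  have := congrFun (congrFun e k) j
  simp only [Matrix.transpose_apply, Matrix.smul_apply, smul_eq_mul, Matrix.mul_apply,
    Matrix.star_apply, Complex.star_def] at this
  congr 1
  rw [gm, gm, Matrix.of_apply, Matrix.of_apply, ct_mc, ct_mc, sca_mp, sca_om0]
  simp only [hT, mul_comm (B _ j), ← this, ← mul_assoc, mul_neg, Complex.I_mul_I, neg_neg, one_mul]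
  rfl

theorem Lm_mul (a : Λ m) : Lm κ (κ * a) = κ * Lm κ a - Hn a := by
  have hu : IsUnit (gm κ).det := h.det_ne.isUnit
  have e1 : ∀ k, ∑ j, (gm κ)⁻¹ k j • ct (vec true (ee j)) κ = io (dz false k) := fun k => by
    simp only [ct_t h.ty, Finset.smul_sum, smul_smul]
    rw [Finset.sum_comm]
    simp only [← Finset.sum_smul, ← Matrix.mul_apply, Matrix.nonsing_inv_mul _ hu]
    simp [Matrix.one_apply]
  have e2 : ∀ j, ∑ k, (gm κ)⁻¹ k j • ct (vec false (ee k)) κ = -io (dz true j) := fun j => by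
    simp only [ct_f h.ty, smul_neg, Finset.sum_neg_distrib, Finset.smul_sum, smul_smul,
      mul_comm ((gm κ)⁻¹ _ _)]
    rw [Finset.sum_comm]
    simp only [← Finset.sum_smul, ← Matrix.mul_apply, Matrix.mul_nonsing_inv _ hu]
    simp [Matrix.one_apply]
  have e3 : ∑ j, ∑ k, (gm κ)⁻¹ k j * gm κ j k = m + 1 := by
    rw [Finset.sum_comm]
    simp [← Matrix.mul_apply, Matrix.nonsing_inv_mul _ hu]
  have e4 : ∀ j, par (ct (vec true (ee j)) κ) = -ct (vec true (ee j)) κ := fun j => by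
    rw [← neg_eq_iff_eq_neg, ← ct_par, h.par_eq]
  have e5 : ∑ j, ∑ k, (gm κ)⁻¹ k j • (ct (vec true (ee j)) κ * ct (vec false (ee k)) a) =
      num false a := by
    rw [Finset.sum_comm, num_apply]
    simp only [← smul_mul_assoc, ← Finset.sum_mul, e1]
  have e6 : ∑ j, ∑ k, (gm κ)⁻¹ k j • (ct (vec false (ee k)) κ * ct (vec true (ee j)) a) =
      -num true a := by
    rw [num_apply, ← Finset.sum_neg_distrib]
    simp only [← smul_mul_assoc, ← Finset.sum_mul, e2, neg_mul]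
  simp only [Lm_apply, ct_mul, map_add, h.par_eq, e4, ct_ct_eq h.ty, smul_add, neg_mul, smul_neg,
    Finset.sum_add_distrib, Finset.sum_neg_distrib, e5, e6, smul_mul_assoc, one_mul, smul_smul,
    ← Finset.sum_smul, e3, Finset.mul_sum, mul_smul_comm, Hn_apply]
  abel

theorem sl2 : Sl2 (m + 2) (Lw κ) (Lm κ) Hn := by
  have h1 : ∀ p q a, a ∈ Ty p q → Lw κ a ∈ Ty (p + 1) (q + 1) := fun p q a ha => by
    simpa [add_comm] using Ty_mul h.ty ha
  have h2 : ∀ p q a, a ∈ Ty p q → Lm κ a ∈ Ty (p + -1) (q + -1) := fun p q a ha => Lm_ty ha κ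
  refine ⟨LinearMap.ext fun a => ?_, by simpa using shift h1, by simpa using shift h2,
    LinearMap.ext <| ty_ext _ _ fun p q a ha => ?_, LinearMap.ext <| ty_ext _ _ fun p q a ha => ?_⟩
  · simp [h.Lm_mul]
  · by_cases e : p < 0
    · simp [Eg_neg e ha.1]
    · exact Eg_big (by push_cast; omega) (shift_pow h1 _ ha).1
  · by_cases e : (m : ℤ) + 1 < p
    · simp [Eg_big e ha.1]
    · exact Eg_neg (by push_cast; omega) (shift_pow h2 _ ha).1

theorem map (T : E m ≃L[ℂ] E m) : Pos (mc (T : E m →L[ℂ] E m) κ) :=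
  ⟨mp_tr_mem _ h.ty, fun v hv => by
    rw [ct_mc, ct_mc, sca_mp]; exact h.pos _ (T.map_ne_zero_iff.2 hv)⟩

theorem cj_Lm (T : E m ≃L[ℂ] E m) : cj T (Lm κ) = Lm (mc (T : E m →L[ℂ] E m) κ) := by
  have := h.sl2.map (cj T)
  rw [cj_Lw, cj_Hn] at this
  exact this.unique (h.map T).sl2

theorem Lm_mc (T : E m ≃L[ℂ] E m) (a : Λ m) :
    Lm (mc (T : E m →L[ℂ] E m) κ) (mc (T : E m →L[ℂ] E m) a) = mc (T : E m →L[ℂ] E m) (Lm κ a) := by
  rw [← h.cj_Lm, cj_mc]

theorem Ww_mc (T : E m ≃L[ℂ] E m) (a : Λ m) :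
    Ww (mc (T : E m →L[ℂ] E m) κ) (mc (T : E m →L[ℂ] E m) a) = mc (T : E m →L[ℂ] E m) (Ww κ a) := by
  rw [Ww, ← h.cj_Lm, ← cj_Lw, ← map_wy, cj_mc, Ww]

theorem tau_eq : tau κ = -κ := by
  obtain ⟨T, rfl⟩ := h.exists_mc
  rw [tau_mc, ← map_neg]
  congr 1
  simp [om0, tau_mul, tau_dz, smul_smul]

theorem tau_Lm (a : Λ m) : tau (Lm κ a) = -Lm κ (tau a) := by
  obtain ⟨T, rfl⟩ := h.exists_mc
  rw [← mc_mc_symm T a, pos_om0.Lm_mc, tau_mc, tau_mc, pos_om0.Lm_mc, ← map_neg]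
  congr 1
  simp [Lm_om0, tau_ct, ct_par, par_par, smul_smul, ct_comm (vec true _) (vec false _)]

theorem par_Ww (a : Λ m) : par (Ww κ a) = Ww κ (par a) :=
  LinearMap.congr_fun (wy_comm (x := (par : Λ m →ₐ[ℂ] Λ m).toLinearMap) (n := m + 2)
    (L := Lw κ) (M := Lm κ) (LinearMap.ext fun b => by simp [h.par_eq])
    (LinearMap.ext (par_Lm κ))) a

end Pos

theorem sm_Lm {u : E m → Λ m} {x : E m} (hu : ContDiffAt ℝ ∞ u x) (h : Pos (u x)) (a : Λ m) :
    ContDiffAt ℝ ∞ (fun y => Lm (u y) a) x := by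
  simp only [Lm_apply]
  exact .sum fun j _ => .sum fun k _ => sm_smul (contDiffAt_matrix_inv (M := fun y => gm (u y))
    (fun _ _ => sm_sca (sm_T _ (sm_T _ hu))) h.det_ne k j) contDiffAt_const

theorem PtB.sm_ex {Φ : E m → Module.End ℂ (Λ m)} {x : E m}
    (h : ∀ a, ContDiffAt ℝ ∞ (fun y => Φ y a) x) (n : ℕ) (a : Λ m) :
    ContDiffAt ℝ ∞ (fun y => ex n (Φ y) a) x := by
  have : ∀ k : ℕ, ContDiffAt ℝ ∞ (fun y => (Φ y ^ k) a) x := fun k => by
    induction k with
    | zero => exact contDiffAt_const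
    | succ k ih => simp only [pow_succ', Module.End.mul_apply]; exact sm_app h ih
  simp only [ex, LinearMap.coe_sum, Finset.sum_apply, LinearMap.smul_apply]
  exact .sum fun k _ => (this k).const_smul _

theorem sm_Ww {u : E m → Λ m} {x : E m} (hu : ContDiffAt ℝ ∞ u x) (h : Pos (u x)) (a : Λ m) :
    ContDiffAt ℝ ∞ (fun y => Ww (u y) a) x := by
  have h1 := sm_ex (Φ := fun y => Lw (u y)) (fun _ => hu.mul contDiffAt_const) (m + 2)
  simp only [Ww, wy, Module.End.mul_apply]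
  exact sm_app h1 (sm_app (sm_ex (Φ := fun y => -Lm (u y)) (fun b => (sm_Lm hu h b).neg) _) (h1 a))

end Vale.Agent.P269.Hdx
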